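import Mathlib

-- ▼ part R278/PolyCert
section

set_option autoImplicit false

namespace Crest.Agent.R278.PolyCert

open Polynomial

/-! ### semantics -/

/-- value of a coefficient list (`[a0, a1, ...]` is `a0 + a1 x + ...`) -/
def ev1 {R : Type*} [CommRing R] (x : R) : List ℤ → R
  | [] => 0
  | a :: l => (a : R) + x * ev1 x l

/-- value of a double coefficient list; the entries of the outer list are the coefficients of the
powers of `y`, they are coefficient lists in `x` -/
def ev2 {R : Type*} [CommRing R] (x y : R) : List (List ℤ) → R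
  | [] => 0
  | a :: l => ev1 x a + y * ev2 x y l

/-- polynomial expressions in two variables -/
inductive PE where
  | lit (l : List (List ℤ))
  | x
  | y
  | int (n : ℤ)
  | add (a b : PE)
  | sub (a b : PE)
  | mul (a b : PE)
  | pow (a : PE) (n : ℕ)

namespace PE

/-- value in a commutative ring -/
def eval {R : Type*} [CommRing R] (u v : R) : PE → R
  | lit l => ev2 u v l
  | x => u
  | y => v
  | int n => (n : R)
  | add a b => eval u v a + eval u v b
  | sub a b => eval u v a - eval u v b
  | mul a b => eval u v a * eval u v b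
  | pow a n => eval u v a ^ n

end PE

/-! ### ring homomorphisms -/

theorem map_ev1 {R S : Type*} [CommRing R] [CommRing S] (f : R →+* S) (x : R) (l : List ℤ) :
    f (ev1 x l) = ev1 (f x) l := by
  induction l with
  | nil => simp [ev1]
  | cons a l ih => simp [ev1, ih]

theorem map_ev2 {R S : Type*} [CommRing R] [CommRing S] (f : R →+* S) (x y : R)
    (l : List (List ℤ)) : f (ev2 x y l) = ev2 (f x) (f y) l := by
  induction l with
  | nil => simp [ev2]
  | cons a l ih => simp [ev2, ih, map_ev1]

theorem PE.map_eval {R S : Type*} [CommRing R] [CommRing S] (f : R →+* S) (u v : R) (e : PE) :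
    f (e.eval u v) = e.eval (f u) (f v) := by
  induction e with
  | lit l => exact map_ev2 f u v l
  | x => rfl
  | y => rfl
  | int n => simp [PE.eval]
  | add a b iha ihb => simp [PE.eval, iha, ihb]
  | sub a b iha ihb => simp [PE.eval, iha, ihb]
  | mul a b iha ihb => simp [PE.eval, iha, ihb]
  | pow a n iha => simp [PE.eval, iha]

/-! ### bounds -/

/-- `ℓ¹` norm of a coefficient list -/
def nrm1 : List ℤ → ℕ
  | [] => 0
  | a :: l => a.natAbs + nrm1 l

def nrm2 : List (List ℤ) → ℕ
  | [] => 0
  | a :: l => nrm1 a + nrm2 l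

def len2 : List (List ℤ) → ℕ
  | [] => 0
  | a :: l => max a.length (len2 l)

namespace PE

/-- bound for the `ℓ¹` norm -/
def norm : PE → ℕ
  | lit l => nrm2 l
  | x => 1
  | y => 1
  | int n => n.natAbs
  | add a b => norm a + norm b
  | sub a b => norm a + norm b
  | mul a b => norm a * norm b
  | pow a n => norm a ^ n

/-- bound for the degree in `x` -/
def degX : PE → ℕ
  | lit l => len2 l
  | x => 1
  | y => 0
  | int _ => 0
  | add a b => max (degX a) (degX b)
  | sub a b => max (degX a) (degX b)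
  | mul a b => degX a + degX b
  | pow a n => n * degX a

end PE

/-! ### majorants -/

/-- `p` has a coefficientwise majorant with value `n` at `1` -/
def Maj (p : ℤ[X]) (n : ℕ) : Prop :=
  ∃ q : ℕ[X], (∀ i, (p.coeff i).natAbs ≤ q.coeff i) ∧ q.eval 1 = n

theorem Maj.coeff_le {p : ℤ[X]} {n : ℕ} (h : Maj p n) (i : ℕ) : (p.coeff i).natAbs ≤ n := by
  obtain ⟨q, hq, rfl⟩ := h
  refine (hq i).trans ?_
  rw [eval_eq_sum_range]
  simp only [one_pow, mul_one]
  by_cases hi : i ≤ q.natDegree
  · exact Finset.single_le_sum (f := fun i => q.coeff i) (fun _ _ => Nat.zero_le _)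
      (Finset.mem_range.mpr (Nat.lt_succ_of_le hi))
  · rw [coeff_eq_zero_of_natDegree_lt (not_le.mp hi)]
    exact Nat.zero_le _

theorem Maj.zero : Maj 0 0 := ⟨0, fun i => by simp, by simp⟩

theorem Maj.int (n : ℤ) : Maj (n : ℤ[X]) n.natAbs := by
  refine ⟨C n.natAbs, fun i => ?_, by simp⟩
  have h1 : (n : ℤ[X]) = C n := by simp
  rw [h1, coeff_C, coeff_C]
  split_ifs <;> simp

theorem Maj.X_pow (d : ℕ) : Maj (X ^ d : ℤ[X]) 1 := by
  refine ⟨X ^ d, fun i => ?_, by simp⟩
  rw [coeff_X_pow, coeff_X_pow]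
  split_ifs <;> simp

theorem Maj.add {p q : ℤ[X]} {m n : ℕ} (hp : Maj p m) (hq : Maj q n) : Maj (p + q) (m + n) := by
  obtain ⟨a, ha, rfl⟩ := hp
  obtain ⟨b, hb, rfl⟩ := hq
  refine ⟨a + b, fun i => ?_, by simp⟩
  rw [coeff_add, coeff_add]
  exact (Int.natAbs_add_le _ _).trans (Nat.add_le_add (ha i) (hb i))

theorem Maj.neg {p : ℤ[X]} {m : ℕ} (hp : Maj p m) : Maj (-p) m := by
  obtain ⟨a, ha, rfl⟩ := hp
  refine ⟨a, fun i => ?_, rfl⟩
  rw [coeff_neg, Int.natAbs_neg]
  exact ha i

theorem Maj.sub {p q : ℤ[X]} {m n : ℕ} (hp : Maj p m) (hq : Maj q n) : Maj (p - q) (m + n) := by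
  rw [sub_eq_add_neg]
  exact hp.add hq.neg

theorem natAbs_sum_le {α : Type*} (s : Finset α) (f : α → ℤ) :
    (∑ i ∈ s, f i).natAbs ≤ ∑ i ∈ s, (f i).natAbs := by
  classical
  induction s using Finset.induction_on with
  | empty => simp
  | insert a s ha ih =>
    rw [Finset.sum_insert ha, Finset.sum_insert ha]
    exact (Int.natAbs_add_le _ _).trans (Nat.add_le_add_left ih _)

theorem Maj.mul {p q : ℤ[X]} {m n : ℕ} (hp : Maj p m) (hq : Maj q n) : Maj (p * q) (m * n) := by
  obtain ⟨a, ha, rfl⟩ := hp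
  obtain ⟨b, hb, rfl⟩ := hq
  refine ⟨a * b, fun i => ?_, by simp⟩
  rw [coeff_mul, coeff_mul]
  refine (natAbs_sum_le _ _).trans (Finset.sum_le_sum fun ij _ => ?_)
  rw [Int.natAbs_mul]
  exact Nat.mul_le_mul (ha _) (hb _)

theorem Maj.pow {p : ℤ[X]} {m : ℕ} (hp : Maj p m) (n : ℕ) : Maj (p ^ n) (m ^ n) := by
  induction n with
  | zero => simpa using Maj.int 1
  | succ n ih => rw [pow_succ, pow_succ]; exact ih.mul hp

theorem Maj.ev1 (l : List ℤ) : Maj (ev1 (X : ℤ[X]) l) (nrm1 l) := by
  induction l with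
  | nil => exact Maj.zero
  | cons a l ih =>
    have h := (Maj.int a).add ((Maj.X_pow 1).mul ih)
    simpa [PolyCert.ev1, nrm1] using h

theorem Maj.ev2 (d : ℕ) (l : List (List ℤ)) : Maj (ev2 (X : ℤ[X]) (X ^ d) l) (nrm2 l) := by
  induction l with
  | nil => exact Maj.zero
  | cons a l ih =>
    have h := (Maj.ev1 a).add ((Maj.X_pow d).mul ih)
    simpa [PolyCert.ev2, nrm2] using h

theorem PE.maj (d : ℕ) (e : PE) : Maj (e.eval (X : ℤ[X]) (X ^ d)) e.norm := by
  induction e with
  | lit l => exact Maj.ev2 d l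
  | x =>
    have h := Maj.X_pow 1
    rw [pow_one] at h
    exact h
  | y => exact Maj.X_pow d
  | int n => exact Maj.int n
  | add a b iha ihb => exact iha.add ihb
  | sub a b iha ihb => exact iha.sub ihb
  | mul a b iha ihb => exact iha.mul ihb
  | pow a n iha => exact iha.pow n

/-! ### degrees in `x` -/

/-- all coefficients (polynomials in `x`) have degree at most `n` -/
def DegX (F : ℤ[X][X]) (n : ℕ) : Prop := ∀ j, (F.coeff j).natDegree ≤ n

theorem DegX.mono {F : ℤ[X][X]} {m n : ℕ} (h : DegX F m) (hmn : m ≤ n) : DegX F n :=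
  fun j => (h j).trans hmn

theorem DegX.add {F G : ℤ[X][X]} {m n : ℕ} (hF : DegX F m) (hG : DegX G n) :
    DegX (F + G) (max m n) := fun j => by
  rw [coeff_add]
  exact (natDegree_add_le _ _).trans (max_le_max (hF j) (hG j))

theorem DegX.sub {F G : ℤ[X][X]} {m n : ℕ} (hF : DegX F m) (hG : DegX G n) :
    DegX (F - G) (max m n) := fun j => by
  rw [coeff_sub]
  exact (natDegree_sub_le _ _).trans (max_le_max (hF j) (hG j))

theorem DegX.mul {F G : ℤ[X][X]} {m n : ℕ} (hF : DegX F m) (hG : DegX G n) :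
    DegX (F * G) (m + n) := fun j => by
  rw [coeff_mul]
  refine natDegree_sum_le_of_forall_le _ _ fun ij _ => ?_
  exact (natDegree_mul_le).trans (Nat.add_le_add (hF _) (hG _))

theorem DegX.C {p : ℤ[X]} {n : ℕ} (hp : p.natDegree ≤ n) : DegX (C p) n := fun j => by
  rw [coeff_C]
  split_ifs
  · exact hp
  · simp

theorem DegX.pow {F : ℤ[X][X]} {m : ℕ} (hF : DegX F m) (n : ℕ) : DegX (F ^ n) (n * m) := by
  induction n with
  | zero =>
    rw [pow_zero, zero_mul]
    have : (1 : ℤ[X][X]) = Polynomial.C 1 := by simp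
    rw [this]
    exact DegX.C (by simp)
  | succ n ih =>
    rw [pow_succ, add_mul, one_mul]
    exact ih.mul hF

theorem DegX.Y : DegX (X : ℤ[X][X]) 0 := fun j => by
  rw [coeff_X]
  split_ifs <;> simp

theorem ev1_C (l : List ℤ) : ev1 (C X : ℤ[X][X]) l = C (ev1 (X : ℤ[X]) l) :=
  (map_ev1 (Polynomial.C : ℤ[X] →+* ℤ[X][X]) X l).symm

theorem natDegree_ev1 (l : List ℤ) : (ev1 (X : ℤ[X]) l).natDegree ≤ l.length := by
  induction l with
  | nil => simp [ev1]
  | cons a l ih =>
    rw [ev1, List.length_cons]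
    refine (natDegree_add_le _ _).trans (max_le ?_ ?_)
    · simp
    · refine natDegree_mul_le.trans ?_
      have := natDegree_X_le (R := ℤ)
      omega

theorem degX_ev2 (l : List (List ℤ)) : DegX (ev2 (C X : ℤ[X][X]) X l) (len2 l) := by
  induction l with
  | nil =>
    intro j
    simp [PolyCert.ev2]
  | cons a l ih =>
    rw [PolyCert.ev2, len2]
    apply DegX.add
    · rw [ev1_C]
      exact DegX.C (natDegree_ev1 a)
    · have := DegX.Y.mul ih
      rwa [zero_add] at this

theorem PE.degX_le (e : PE) : DegX (e.eval (C X : ℤ[X][X]) X) e.degX := by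
  induction e with
  | lit l => exact degX_ev2 l
  | x => exact DegX.C natDegree_X_le
  | y => exact DegX.Y
  | int n =>
    have h1 : ((n : ℤ) : ℤ[X][X]) = C (n : ℤ[X]) := by simp
    show DegX ((n : ℤ) : ℤ[X][X]) 0
    rw [h1]
    exact DegX.C (by simp)
  | add a b iha ihb => exact iha.add ihb
  | sub a b iha ihb => exact iha.sub ihb
  | mul a b iha ihb => exact iha.mul ihb
  | pow a n iha => exact iha.pow n

/-! ### Kronecker substitution is injective -/

theorem eq_zero_of_eval_eq_zero {B : ℕ} : ∀ (n : ℕ) (p : ℤ[X]), p.natDegree < n →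
    (∀ i, (p.coeff i).natAbs < B) → p.eval (B : ℤ) = 0 → p = 0 := by
  intro n
  induction n with
  | zero => intro p hp; omega
  | succ n ih =>
    intro p hp hc he
    have hB : (B : ℤ) ≠ 0 := by
      have := hc 0
      have h2 : 0 < B := by omega
      exact_mod_cast h2.ne'
    have h1 := divX_mul_X_add p
    have h0 : p.coeff 0 = 0 := by
      have h2 : p.eval (B : ℤ) = (divX p).eval (B : ℤ) * B + p.coeff 0 := by
        conv_lhs => rw [← h1]
        simp
      rw [he] at h2
      have h3 : (B : ℤ) ∣ p.coeff 0 := ⟨-(divX p).eval (B : ℤ), by linear_combination -h2⟩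
      exact Int.eq_zero_of_abs_lt_dvd h3 (by
        have := hc 0
        rw [Int.abs_eq_natAbs]
        exact_mod_cast this)
    by_cases hd : p.natDegree = 0
    · rw [eq_C_of_natDegree_eq_zero hd, h0]
      simp
    have h4 : divX p = 0 := by
      apply ih
      · rw [natDegree_divX_eq_natDegree_tsub_one]
        omega
      · intro i
        rw [coeff_divX]
        exact hc (i + 1)
      · have h2 : p.eval (B : ℤ) = (divX p).eval (B : ℤ) * B + p.coeff 0 := by
          conv_lhs => rw [← h1]
          simp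
        rw [he, h0, add_zero] at h2
        exact (mul_eq_zero.mp h2.symm).resolve_right hB
    rw [← h1, h4, h0]
    simp

theorem eq_zero_of_eval_X_pow {d : ℕ} : ∀ (n : ℕ) (F : ℤ[X][X]), F.natDegree < n →
    (∀ j, (F.coeff j).natDegree < d) → F.eval (X ^ d : ℤ[X]) = 0 → F = 0 := by
  intro n
  induction n with
  | zero => intro F hF; omega
  | succ n ih =>
    intro F hF hc he
    have hB : (X ^ d : ℤ[X]) ≠ 0 := pow_ne_zero _ X_ne_zero
    have h1 := divX_mul_X_add F
    have h2 : F.eval (X ^ d : ℤ[X]) = (divX F).eval (X ^ d : ℤ[X]) * X ^ d + F.coeff 0 := by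
      conv_lhs => rw [← h1]
      simp
    have h0 : F.coeff 0 = 0 := by
      rw [he] at h2
      by_contra hne
      have h3 : F.coeff 0 = (-(divX F).eval (X ^ d : ℤ[X])) * X ^ d := by
        linear_combination -h2
      have h4 : (-(divX F).eval (X ^ d : ℤ[X])) ≠ 0 := by
        intro h5
        rw [h5, zero_mul] at h3
        exact hne h3
      have h5 := congrArg natDegree h3
      rw [natDegree_mul h4 hB, natDegree_X_pow] at h5
      have := hc 0
      omega
    by_cases hd : F.natDegree = 0
    · rw [eq_C_of_natDegree_eq_zero hd, h0]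
      simp
    have h4 : divX F = 0 := by
      apply ih
      · rw [natDegree_divX_eq_natDegree_tsub_one]
        omega
      · intro i
        rw [coeff_divX]
        exact hc (i + 1)
      · rw [he, h0, add_zero] at h2
        exact (mul_eq_zero.mp h2.symm).resolve_right hB
    rw [← h1, h4, h0]
    simp

/-- **soundness**: value `0` at `x = 2^k`, `y = (2^k)^d` implies that the expression vanishes
identically -/
theorem PE.sound (e : PE) {k d : ℕ} (h1 : e.norm < 2 ^ k) (h2 : e.degX < d)
    (h3 : e.eval ((2 : ℤ) ^ k) (((2 : ℤ) ^ k) ^ d) = 0) {R : Type*} [CommRing R] (u v : R) :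
    e.eval u v = 0 := by
  have hG : e.eval (X : ℤ[X]) (X ^ d) = 0 := by
    apply eq_zero_of_eval_eq_zero (B := 2 ^ k) _ _ (Nat.lt_succ_self _)
    · intro i
      exact ((PE.maj d e).coeff_le i).trans_lt h1
    · have h4 := PE.map_eval (Polynomial.evalRingHom ((2 : ℤ) ^ k)) (X : ℤ[X]) (X ^ d) e
      simp only [coe_evalRingHom, eval_X, eval_pow] at h4
      push_cast
      rw [h4]
      exact h3
  have hF : e.eval (C X : ℤ[X][X]) X = 0 := by
    apply eq_zero_of_eval_X_pow (d := d) _ _ (Nat.lt_succ_self _)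
    · intro j
      exact (PE.degX_le e j).trans_lt h2
    · have h4 := PE.map_eval (Polynomial.evalRingHom (X ^ d : ℤ[X])) (C X : ℤ[X][X]) X e
      simp only [coe_evalRingHom, eval_X, eval_C] at h4
      rw [h4]
      exact hG
  have h5 := PE.map_eval (Polynomial.eval₂RingHom (Polynomial.eval₂RingHom (Int.castRingHom R) u) v)
    (C X : ℤ[X][X]) X e
  rw [hF, map_zero] at h5
  simp only [coe_eval₂RingHom, eval₂_X, eval₂_C] at h5
  exact h5.symm

/-! ### compact data: a coefficient table packed into one natural number -/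

/-- zigzag decoding: even `2n ↦ n`, odd `2n+1 ↦ -(n+1)` -/
def unzig (n : ℕ) : ℤ := match Nat.mod n 2 with
  | 0 => Int.ofNat (Nat.div n 2)
  | _ => Int.negSucc (Nat.div n 2)

/-- `n` digits in base `2^b`, lowest digit first -/
def digs (b : ℕ) : ℕ → ℕ → List ℤ
  | 0, _ => []
  | n + 1, N => unzig (Nat.mod N (2 ^ b)) :: digs b n (Nat.div N (2 ^ b))

/-- `m` rows of `w` digits in base `2^b` -/
def dec (b w : ℕ) : ℕ → ℕ → List (List ℤ)
  | 0, _ => []
  | m + 1, N => digs b w (Nat.mod N (2 ^ (b * w))) :: dec b w m (Nat.div N (2 ^ (b * w)))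

/-! ### kernel evaluation with natural numbers -/

/-- positive (`s = true`) or negative part of an integer -/
def part (s : Bool) (a : ℤ) : ℕ := match s with
  | true => a.toNat
  | false => (-a).toNat

theorem part_sub (a : ℤ) : ((part true a : ℕ) : ℤ) - (part false a : ℕ) = a := by
  unfold part
  simp only
  omega

/-- Horner evaluation of the positive / negative part of a coefficient list -/
def h1 (B : ℕ) (s : Bool) : List ℤ → ℕ
  | [] => 0
  | a :: l => part s a + B * h1 B s l

def h2 (B Y : ℕ) (s : Bool) : List (List ℤ) → ℕ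
  | [] => 0
  | a :: l => h1 B s a + Y * h2 B Y s l

theorem h1_sub (B : ℕ) (l : List ℤ) :
    ((h1 B true l : ℕ) : ℤ) - (h1 B false l : ℕ) = ev1 (B : ℤ) l := by
  induction l with
  | nil => simp [h1, ev1]
  | cons a l ih =>
    rw [ev1, ← ih]
    simp only [h1, Int.cast_id]
    push_cast
    linear_combination part_sub a

theorem h2_sub (B Y : ℕ) (l : List (List ℤ)) :
    ((h2 B Y true l : ℕ) : ℤ) - (h2 B Y false l : ℕ) = ev2 (B : ℤ) (Y : ℤ) l := by
  induction l with
  | nil => simp [h2, ev2]
  | cons a l ih =>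
    rw [ev2, ← ih]
    simp only [h2]
    push_cast
    linear_combination h1_sub B a

/-- powers of `p - q`, positive / negative part -/
def pw (p q : ℕ) : ℕ → Bool → ℕ
  | 0, true => 1
  | 0, false => 0
  | n + 1, true => pw p q n true * p + pw p q n false * q
  | n + 1, false => pw p q n true * q + pw p q n false * p

theorem pw_sub (p q n : ℕ) :
    ((pw p q n true : ℕ) : ℤ) - (pw p q n false : ℕ) = ((p : ℤ) - q) ^ n := by
  induction n with
  | zero => simp [pw]
  | succ n ih =>
    rw [pow_succ, ← ih]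
    simp only [pw]
    push_cast
    ring

/-- positive / negative part of the value of an expression -/
def PE.evB (B Y : ℕ) : PE → Bool → ℕ
  | .lit l, s => h2 B Y s l
  | .x, true => B
  | .x, false => 0
  | .y, true => Y
  | .y, false => 0
  | .int n, s => part s n
  | .add a b, s => evB B Y a s + evB B Y b s
  | .sub a b, s => evB B Y a s + evB B Y b (!s)
  | .mul a b, s => evB B Y a true * evB B Y b s + evB B Y a false * evB B Y b (!s)
  | .pow a n, s => pw (evB B Y a true) (evB B Y a false) n s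

theorem PE.evB_sub (B Y : ℕ) (e : PE) :
    ((e.evB B Y true : ℕ) : ℤ) - (e.evB B Y false : ℕ) = e.eval (B : ℤ) (Y : ℤ) := by
  induction e with
  | lit l => exact h2_sub B Y l
  | x => simp [PE.evB, PE.eval]
  | y => simp [PE.evB, PE.eval]
  | int n => exact part_sub n
  | add a b iha ihb =>
    rw [PE.eval, ← iha, ← ihb]
    simp only [PE.evB]
    push_cast
    ring
  | sub a b iha ihb =>
    rw [PE.eval, ← iha, ← ihb]
    simp only [PE.evB, Bool.not_true, Bool.not_false]
    push_cast
    ring
  | mul a b iha ihb =>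
    rw [PE.eval, ← iha, ← ihb]
    simp only [PE.evB, Bool.not_true, Bool.not_false]
    push_cast
    ring
  | pow a n iha =>
    rw [PE.eval, ← iha]
    exact pw_sub _ _ n

/-- the certificate check -/
def PE.check (e : PE) (k d : ℕ) : Bool :=
  Nat.blt e.norm (2 ^ k) && Nat.blt e.degX d &&
    Nat.beq (e.evB (2 ^ k) (2 ^ (k * d)) true) (e.evB (2 ^ k) (2 ^ (k * d)) false)

/-- **main theorem**: a successful check proves that the expression vanishes identically -/
theorem PE.check_sound (e : PE) (k d : ℕ) (h : e.check k d = true) {R : Type*} [CommRing R]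
    (u v : R) : e.eval u v = 0 := by
  unfold PE.check at h
  rw [Bool.and_eq_true, Bool.and_eq_true] at h
  obtain ⟨⟨h1, h2⟩, h3⟩ := h
  have h1' : e.norm < 2 ^ k := by simpa [Nat.blt] using h1
  have h2' : e.degX < d := by simpa [Nat.blt] using h2
  have h3' := Nat.eq_of_beq_eq_true h3
  refine PE.sound e h1' h2' ?_ u v
  have h4 := PE.evB_sub (2 ^ k) (2 ^ (k * d)) e
  rw [h3', sub_self] at h4
  rw [← pow_mul]
  push_cast at h4
  exact h4.symm

end Crest.Agent.R278.PolyCert
private theorem rz_1f0253a8d5 : type_of% @_root_.Crest.Agent.R278.PolyCert.PE.evB.eq_def := @_root_.Crest.Agent.R278.PolyCert.PE.evB.eq_def -- L492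
private theorem rz_1fad27218a : type_of% @_root_.Crest.Agent.R278.PolyCert.PE.evB.eq_1 := @_root_.Crest.Agent.R278.PolyCert.PE.evB.eq_1 -- L492
private theorem rz_85920a3029 : type_of% @_root_.Crest.Agent.R278.PolyCert.PE.eval.eq_def := @_root_.Crest.Agent.R278.PolyCert.PE.eval.eq_def -- L42
private theorem rz_f981ddad17 : type_of% @_root_.Crest.Agent.R278.PolyCert.PE.eval.eq_1 := @_root_.Crest.Agent.R278.PolyCert.PE.eval.eq_1 -- L42
private theorem rz_4dc2ac82bd : type_of% @_root_.Crest.Agent.R278.PolyCert.ev1.eq_def := @_root_.Crest.Agent.R278.PolyCert.ev1.eq_def -- L18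
private theorem rz_54437fc4f7 : type_of% @_root_.Crest.Agent.R278.PolyCert.ev1.eq_1 := @_root_.Crest.Agent.R278.PolyCert.ev1.eq_1 -- L18
private theorem rz_54b67a0e39 : type_of% @_root_.Crest.Agent.R278.PolyCert.ev2.eq_def := @_root_.Crest.Agent.R278.PolyCert.ev2.eq_def -- L24
private theorem rz_bc0dc90fb7 : type_of% @_root_.Crest.Agent.R278.PolyCert.ev2.eq_1 := @_root_.Crest.Agent.R278.PolyCert.ev2.eq_1 -- L24
private theorem rz_60719dd1d3 : type_of% @_root_.Crest.Agent.R278.PolyCert.h1.eq_def := @_root_.Crest.Agent.R278.PolyCert.h1.eq_def -- L446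
private theorem rz_d5874d08a0 : type_of% @_root_.Crest.Agent.R278.PolyCert.h1.eq_1 := @_root_.Crest.Agent.R278.PolyCert.h1.eq_1 -- L446
private theorem rz_25b7aeae9a : type_of% @_root_.Crest.Agent.R278.PolyCert.h2.eq_def := @_root_.Crest.Agent.R278.PolyCert.h2.eq_def -- L450
private theorem rz_60c2987b3f : type_of% @_root_.Crest.Agent.R278.PolyCert.h2.eq_1 := @_root_.Crest.Agent.R278.PolyCert.h2.eq_1 -- L450
private theorem rz_93dc58b527 : type_of% @_root_.Crest.Agent.R278.PolyCert.len2.eq_def := @_root_.Crest.Agent.R278.PolyCert.len2.eq_def -- L91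
private theorem rz_182a736561 : type_of% @_root_.Crest.Agent.R278.PolyCert.len2.eq_1 := @_root_.Crest.Agent.R278.PolyCert.len2.eq_1 -- L91
private theorem rz_7046fa39a7 : type_of% @_root_.Crest.Agent.R278.PolyCert.nrm1.eq_def := @_root_.Crest.Agent.R278.PolyCert.nrm1.eq_def -- L83
private theorem rz_7dfa704699 : type_of% @_root_.Crest.Agent.R278.PolyCert.nrm1.eq_1 := @_root_.Crest.Agent.R278.PolyCert.nrm1.eq_1 -- L83
private theorem rz_ae0f317ba8 : type_of% @_root_.Crest.Agent.R278.PolyCert.nrm2.eq_def := @_root_.Crest.Agent.R278.PolyCert.nrm2.eq_def -- L87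
private theorem rz_dcb5b895fc : type_of% @_root_.Crest.Agent.R278.PolyCert.nrm2.eq_1 := @_root_.Crest.Agent.R278.PolyCert.nrm2.eq_1 -- L87
private theorem rz_06b028f813 : type_of% @_root_.Crest.Agent.R278.PolyCert.pw.eq_def := @_root_.Crest.Agent.R278.PolyCert.pw.eq_def -- L475
private theorem rz_2c5b8c2762 : type_of% @_root_.Crest.Agent.R278.PolyCert.pw.eq_1 := @_root_.Crest.Agent.R278.PolyCert.pw.eq_1 -- L475
end

-- ▼ part R278/PolyCert2
section

set_option autoImplicit false

namespace Crest.Agent.R278.PolyCert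

/-! ### entries -/

/-- coefficient of `x^i y^j` -/
def entry (l : List (List ℤ)) (i j : ℕ) : ℤ := (l.getD j []).getD i 0

/-- the table as a polynomial in two variables `x = X 0`, `y = X 1` -/
noncomputable def toMv (R : Type*) [CommRing R] (l : List (List ℤ)) : MvPolynomial (Fin 2) R :=
  ev2 (MvPolynomial.X 0) (MvPolynomial.X 1) l




theorem coeff_ev1 {R : Type*} [CommRing R] (l : List ℤ) (m : Fin 2 →₀ ℕ) :
    MvPolynomial.coeff m (ev1 (MvPolynomial.X 0 : MvPolynomial (Fin 2) R) l) =
      if m 1 = 0 then ((l.getD (m 0) 0 : ℤ) : R) else 0 := by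
  induction l generalizing m with
  | nil => simp [ev1]
  | cons a l ih =>
    rw [ev1, MvPolynomial.coeff_add, MvPolynomial.coeff_X_mul', ih]
    have h1 : ((a : ℤ) : MvPolynomial (Fin 2) R) = MvPolynomial.C (a : R) := by simp
    rw [h1, MvPolynomial.coeff_C]
    by_cases h0 : m 0 = 0
    · have hs : (0 : Fin 2) ∉ m.support := by simpa using h0
      rw [if_neg hs, add_zero, h0]
      by_cases h2 : m 1 = 0
      · have : (0 : Fin 2 →₀ ℕ) = m := by
          ext i; fin_cases i
          · simpa using h0.symm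
          · simpa using h2.symm
        rw [if_pos this, if_pos h2]
        simp
      · have : (0 : Fin 2 →₀ ℕ) ≠ m := by
          rintro rfl; exact h2 rfl
        rw [if_neg this, if_neg h2]
    · have hs : (0 : Fin 2) ∈ m.support := by simpa using h0
      rw [if_pos hs]
      have h3 : (0 : Fin 2 →₀ ℕ) ≠ m := by
        rintro rfl; exact h0 rfl
      rw [if_neg h3, zero_add]
      have e1 : (m - Finsupp.single 0 1 : Fin 2 →₀ ℕ) 1 = m 1 := by simp
      have e0 : (m - Finsupp.single 0 1 : Fin 2 →₀ ℕ) 0 = m 0 - 1 := by simp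
      rw [e1, e0]
      congr 1
      obtain ⟨k, hk⟩ := Nat.exists_eq_succ_of_ne_zero h0
      rw [hk]
      simp

theorem coeff_toMv {R : Type*} [CommRing R] (l : List (List ℤ)) (m : Fin 2 →₀ ℕ) :
    MvPolynomial.coeff m (toMv R l) = ((entry l (m 0) (m 1) : ℤ) : R) := by
  unfold toMv
  induction l generalizing m with
  | nil => simp [ev2, entry]
  | cons a l ih =>
    rw [ev2, MvPolynomial.coeff_add, MvPolynomial.coeff_X_mul', ih, coeff_ev1]
    by_cases h0 : m 1 = 0
    · have hs : (1 : Fin 2) ∉ m.support := by simpa using h0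
      rw [if_neg hs, add_zero, if_pos h0, h0]
      simp [entry]
    · have hs : (1 : Fin 2) ∈ m.support := by simpa using h0
      rw [if_pos hs, if_neg h0, zero_add]
      have e1 : (m - Finsupp.single 1 1 : Fin 2 →₀ ℕ) 1 = m 1 - 1 := by simp
      have e0 : (m - Finsupp.single 1 1 : Fin 2 →₀ ℕ) 0 = m 0 := by simp
      rw [e1, e0]
      obtain ⟨k, hk⟩ := Nat.exists_eq_succ_of_ne_zero h0
      rw [hk]
      simp [entry]

/-! ### degree bounds -/

/-- all entries vanish -/
def zer : List ℤ → Bool
  | [] => true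
  | a :: l => (a == 0) && zer l

/-- all entries of index `≥ n` vanish -/
def rowOK : ℕ → List ℤ → Bool
  | 0, l => zer l
  | _ + 1, [] => true
  | n + 1, _ :: l => rowOK n l

/-- all entries with `i + j ≥ n` vanish -/
def tabOK : ℕ → List (List ℤ) → Bool
  | _, [] => true
  | n, a :: l => rowOK n a && tabOK (n - 1) l

theorem zer_getD {l : List ℤ} (h : zer l = true) (i : ℕ) : l.getD i 0 = 0 := by
  induction l generalizing i with
  | nil => simp
  | cons a l ih =>
    rw [zer, Bool.and_eq_true] at h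
    cases i with
    | zero => simpa using h.1
    | succ i => simpa using ih h.2 i

theorem rowOK_getD {n : ℕ} {l : List ℤ} (h : rowOK n l = true) {i : ℕ} (hi : n ≤ i) :
    l.getD i 0 = 0 := by
  induction n generalizing l i with
  | zero => exact zer_getD h i
  | succ n ih =>
    cases l with
    | nil => simp
    | cons a l =>
      cases i with
      | zero => omega
      | succ i => simpa using ih (l := l) h (by omega : n ≤ i)

theorem tabOK_entry {n : ℕ} {l : List (List ℤ)} (h : tabOK n l = true) {i j : ℕ}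
    (hij : n ≤ i + j) : entry l i j = 0 := by
  induction l generalizing n j with
  | nil => simp [entry]
  | cons a l ih =>
    rw [tabOK, Bool.and_eq_true] at h
    cases j with
    | zero => simpa [entry] using rowOK_getD h.1 (i := i) (by omega)
    | succ j => simpa [entry] using ih h.2 (j := j) (by omega)

/-- total degree bound from the table -/
theorem totalDegree_toMv_le {R : Type*} [CommRing R] {D : ℕ} {l : List (List ℤ)}
    (h : tabOK (D + 1) l = true) : (toMv R l).totalDegree ≤ D := by
  unfold MvPolynomial.totalDegree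
  apply Finset.sup_le
  intro m hm
  rw [MvPolynomial.mem_support_iff, coeff_toMv] at hm
  by_contra hcon
  apply hm
  rw [tabOK_entry h, Int.cast_zero]
  rw [Finsupp.sum_fintype _ _ (fun _ => rfl), Fin.sum_univ_two] at hcon
  omega




/-! ### homogenisation -/






/-! ### derivations -/

/-- entries multiplied by `n, n+1, ...` -/
def der1 : ℕ → List ℤ → List ℤ
  | _, [] => []
  | n, a :: l => ((n : ℤ) * a) :: der1 (n + 1) l

/-- derivative of a coefficient list -/
def dl (l : List ℤ) : List ℤ := der1 1 l.tail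

theorem ev1_der1_succ {R : Type*} [CommRing R] (x : R) (n : ℕ) (l : List ℤ) :
    ev1 x (der1 (n + 1) l) = ev1 x (der1 n l) + ev1 x l := by
  induction l generalizing n with
  | nil => simp [der1, ev1]
  | cons a l ih =>
    simp only [der1, ev1]
    rw [ih (n + 1)]
    push_cast
    ring

theorem ev1_dl_cons {R : Type*} [CommRing R] (x : R) (a : ℤ) (l : List ℤ) :
    ev1 x (dl (a :: l)) = ev1 x l + x * ev1 x (dl l) := by
  unfold dl
  rw [List.tail_cons]
  cases l with
  | nil => simp [der1, ev1]
  | cons b l =>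
    rw [List.tail_cons]
    simp only [der1, ev1]
    rw [ev1_der1_succ]
    push_cast
    ring

section deriv

variable {A R M : Type*} [CommRing A] [CommRing R] [Algebra A R] [AddCommGroup M] [Module A M]
  [Module R M] (D : Derivation A R M)

theorem D_intCast (n : ℤ) : D (n : R) = 0 := by
  have h1 : ∀ n : ℕ, D (n : R) = 0 := fun n => D.map_natCast n
  cases n with
  | ofNat n => simp
  | negSucc n =>
    rw [Int.cast_negSucc, map_neg, h1, neg_zero]

theorem D_ev1 (x : R) (l : List ℤ) : D (ev1 x l) = ev1 x (dl l) • D x := by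
  induction l with
  | nil => simp [ev1, dl, der1]
  | cons a l ih =>
    rw [ev1_dl_cons, ev1, map_add, D_intCast, zero_add, Derivation.leibniz, ih, smul_smul,
      ← add_smul, add_comm]








end deriv

end Crest.Agent.R278.PolyCert
private theorem rz_f24d148ec8 : type_of% @_root_.Crest.Agent.R278.PolyCert.der1.eq_def := @_root_.Crest.Agent.R278.PolyCert.der1.eq_def -- L251
private theorem rz_c59ecbf598 : type_of% @_root_.Crest.Agent.R278.PolyCert.der1.eq_1 := @_root_.Crest.Agent.R278.PolyCert.der1.eq_1 -- L251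
private theorem rz_64a532c161 : type_of% @_root_.Crest.Agent.R278.PolyCert.tabOK.eq_def := @_root_.Crest.Agent.R278.PolyCert.tabOK.eq_def -- L108
private theorem rz_15fedc470c : type_of% @_root_.Crest.Agent.R278.PolyCert.tabOK.eq_1 := @_root_.Crest.Agent.R278.PolyCert.tabOK.eq_1 -- L108
private theorem rz_8bb4d9a0ed : type_of% @_root_.Crest.Agent.R278.PolyCert.zer.eq_def := @_root_.Crest.Agent.R278.PolyCert.zer.eq_def -- L97
private theorem rz_63f99b404a : type_of% @_root_.Crest.Agent.R278.PolyCert.zer.eq_1 := @_root_.Crest.Agent.R278.PolyCert.zer.eq_1 -- L97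
end

-- ▼ part R278/ArmData

set_option autoImplicit false

namespace Crest.Agent.R278.PolyCert

/-- a coefficient list as a polynomial in `y` -/
def yT (l : List ℤ) : List (List ℤ) := l.map (fun c => [c])

theorem ev2_yT {R : Type*} [CommRing R] (x y : R) (l : List ℤ) : ev2 x y (yT l) = ev1 y l := by
  induction l with
  | nil => rfl
  | cons a l ih =>
    show ev1 x [a] + y * ev2 x y (yT l) = _
    rw [ih]
    simp [ev1]

/-- product of the group polynomials -/
def grpPE : List (List ℤ × ℕ) → PE
  | [] => .int 1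
  | (p, M) :: gs => .mul (.pow (.lit (yT p)) M) (grpPE gs)

def decG : List (List ℤ × ℕ) → List (List ℤ × ℕ)
  | [] => []
  | (p, M) :: gs => (p, M - 1) :: decG gs

/-- `∑_k X^k * (∏_G p_G^(M_G - k)) * Q_k` -/
def armPE (X : PE) : List (List ℤ × ℕ) → List (List ℤ) → PE
  | _, [] => .int 0
  | gs, Q :: Qs => .add (.mul (grpPE gs) (.lit (yT Q))) (.mul X (armPE X (decG gs) Qs))

/-- `b * x - a` -/
def linX (b a : ℤ) : PE := .sub (.mul (.int b) .x) (.int a)

section

variable {R : Type*} [CommRing R]

theorem grpPE_mem (I : Ideal R) (u v : R) : ∀ (gs : List (List ℤ × ℕ)) (g : List ℤ × ℕ),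
    g ∈ gs → ev1 v g.1 ∈ I → (grpPE gs).eval u v ∈ I ^ g.2 := by
  intro gs
  induction gs with
  | nil => intro g hg; simp at hg
  | cons h gs ih =>
    intro g hg hI
    obtain ⟨p, M⟩ := h
    rcases List.mem_cons.mp hg with rfl | hg
    · show (PE.lit (yT p)).eval u v ^ M * (grpPE gs).eval u v ∈ I ^ M
      refine Ideal.mul_mem_right _ _ (Ideal.pow_mem_pow ?_ M)
      show ev2 u v (yT p) ∈ I
      rw [ev2_yT]
      exact hI
    · exact Ideal.mul_mem_left _ _ (ih g hg hI)

theorem mem_decG {g : List ℤ × ℕ} {gs : List (List ℤ × ℕ)} (h : g ∈ gs) :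
    (g.1, g.2 - 1) ∈ decG gs := by
  induction gs with
  | nil => simp at h
  | cons a gs ih =>
    obtain ⟨p, M⟩ := a
    rcases List.mem_cons.mp h with rfl | h
    · exact List.mem_cons_self
    · exact List.mem_cons_of_mem _ (ih h)

/-- **membership** -/
theorem armPE_mem (I : Ideal R) (u v : R) (X : PE) (hX : X.eval u v ∈ I) :
    ∀ (Qs : List (List ℤ)) (gs : List (List ℤ × ℕ)) (g : List ℤ × ℕ), g ∈ gs →
      ev1 v g.1 ∈ I → (armPE X gs Qs).eval u v ∈ I ^ g.2 := by
  intro Qs
  induction Qs with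
  | nil =>
    intro gs g _ _
    have : (armPE X gs []).eval u v = 0 := by simp [armPE, PE.eval]
    rw [this]
    exact zero_mem _
  | cons Q Qs ih =>
    intro gs g hg hI
    show (grpPE gs).eval u v * (PE.lit (yT Q)).eval u v + X.eval u v *
      (armPE X (decG gs) Qs).eval u v ∈ I ^ g.2
    refine add_mem (Ideal.mul_mem_right _ _ (grpPE_mem I u v gs g hg hI)) ?_
    have h1 := ih (decG gs) (g.1, g.2 - 1) (mem_decG hg) hI
    have h2 : X.eval u v * (armPE X (decG gs) Qs).eval u v ∈ I * I ^ (g.2 - 1) :=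
      Ideal.mul_mem_mul hX h1
    rw [← pow_succ'] at h2
    exact Ideal.pow_le_pow_right (by omega) h2



theorem ev1_sub_dvd (v w : R) (l : List ℤ) : v - w ∣ ev1 v l - ev1 w l := by
  induction l with
  | nil => simp [ev1]
  | cons a l ih =>
    have : ev1 v (a :: l) - ev1 w (a :: l) = (v - w) * ev1 v l + w * (ev1 v l - ev1 w l) := by
      simp only [ev1]; ring
    rw [this]
    exact dvd_add (Dvd.intro _ rfl) (Dvd.dvd.mul_left ih w)

theorem linX_eval (b a : ℤ) (u v : R) : (linX b a).eval u v = (b : R) * u - a := rfl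

end

/-! ### points of the plane -/

/-- the maximal ideal of a point -/
noncomputable def ptI (c y : ℂ) : Ideal (MvPolynomial (Fin 2) ℂ) :=
  Ideal.span {MvPolynomial.X 0 - MvPolynomial.C c, MvPolynomial.X 1 - MvPolynomial.C y}

theorem ev1_mem_ptI {c y : ℂ} {p : List ℤ} (h : ev1 y p = 0) :
    ev1 (MvPolynomial.X 1 : MvPolynomial (Fin 2) ℂ) p ∈ ptI c y := by
  have h1 := ev1_sub_dvd (MvPolynomial.X 1 : MvPolynomial (Fin 2) ℂ) (MvPolynomial.C y) p
  have h2 : ev1 (MvPolynomial.C y : MvPolynomial (Fin 2) ℂ) p = 0 := by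
    have := map_ev1 (MvPolynomial.C : ℂ →+* MvPolynomial (Fin 2) ℂ) y p
    rw [← this, h, map_zero]
  rw [h2, sub_zero] at h1
  obtain ⟨q, hq⟩ := h1
  rw [hq]
  exact Ideal.mul_mem_right _ _ (Ideal.subset_span (by simp))

theorem linX_mem_ptI {c y : ℂ} {b a : ℤ} (h : (b : ℂ) * c = a) :
    (linX b a).eval (MvPolynomial.X 0 : MvPolynomial (Fin 2) ℂ) (MvPolynomial.X 1) ∈ ptI c y := by
  rw [linX_eval]
  have : ((b : ℤ) : MvPolynomial (Fin 2) ℂ) * MvPolynomial.X 0 - ((a : ℤ) :
      MvPolynomial (Fin 2) ℂ) = MvPolynomial.C (b : ℂ) *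
        (MvPolynomial.X 0 - MvPolynomial.C c) := by
    rw [mul_sub, ← MvPolynomial.C_mul, h]
    simp
  rw [this]
  exact Ideal.mul_mem_left _ _ (Ideal.subset_span (by simp))



end Crest.Agent.R278.PolyCert
private theorem rz_b754003585 : type_of% @_root_.Crest.Agent.R278.PolyCert.armPE.eq_def := @_root_.Crest.Agent.R278.PolyCert.armPE.eq_def -- L33
private theorem rz_af09f6d173 : type_of% @_root_.Crest.Agent.R278.PolyCert.armPE.eq_1 := @_root_.Crest.Agent.R278.PolyCert.armPE.eq_1 -- L33
private theorem rz_9f7edc3b0b : type_of% @_root_.Crest.Agent.R278.PolyCert.grpPE.eq_def := @_root_.Crest.Agent.R278.PolyCert.grpPE.eq_def -- L24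
private theorem rz_e31d7efec6 : type_of% @_root_.Crest.Agent.R278.PolyCert.grpPE.eq_1 := @_root_.Crest.Agent.R278.PolyCert.grpPE.eq_1 -- L24
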