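import Mathlib

/-!
Chart rings `ℂ[a,b][1/h]` inside a field `F = ℂ(a,b)`.
-/

set_option autoImplicit false

namespace Crest.Agent.R278

variable {k F : Type*} [Field k] [Field F] [Algebra k F]

/-- The subalgebra `k[a,b]` of `F`. -/
abbrev polyRing (k : Type*) {F : Type*} [Field k] [Field F] [Algebra k F] (a b : F) :
    Subalgebra k F := Algebra.adjoin k {a, b}

/-- The subalgebra `k[a,b,1/h]` of `F`. -/
abbrev chartRing (k : Type*) {F : Type*} [Field k] [Field F] [Algebra k F] (a b h : F) :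
    Subalgebra k F := Algebra.adjoin k {a, b, h⁻¹}

theorem polyRing_le_chartRing (a b h : F) : polyRing k a b ≤ chartRing k a b h :=
  Algebra.adjoin_mono (by
    intro x hx
    rcases hx with rfl | hx
    · exact Or.inl rfl
    · exact Or.inr (Or.inl hx))

theorem inv_mem_chartRing (a b h : F) : h⁻¹ ∈ chartRing k a b h :=
  Algebra.subset_adjoin (Or.inr (Or.inr rfl))

theorem mem_polyRing_iff (a b : F) (f : F) :
    f ∈ polyRing k a b ↔ ∃ p : MvPolynomial (Fin 2) k, f = MvPolynomial.aeval ![a, b] p := by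
  have : ({a, b} : Set F) = Set.range ![a, b] := by
    ext x; simp [or_comm, eq_comm]
  rw [polyRing, this, Algebra.adjoin_range_eq_range_aeval]
  constructor
  · rintro ⟨p, rfl⟩; exact ⟨p, rfl⟩
  · rintro ⟨p, rfl⟩; exact ⟨p, rfl⟩

/-- `a, b` are algebraically independent and generate the field `F`. -/
structure IsChart (k : Type*) {F : Type*} [Field k] [Field F] [Algebra k F] (a b : F) : Prop where
  indep : AlgebraicIndependent k ![a, b]
  gen : ∀ f : F, ∃ p ∈ polyRing k a b, ∃ q ∈ polyRing k a b, q ≠ 0 ∧ f = p / q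


theorem IsChart.isIntegrallyClosed {a b : F} (h : IsChart k a b) :
    IsIntegrallyClosed (polyRing k a b) := by
  have e : MvPolynomial (Fin 2) k ≃ₐ[k] polyRing k a b := by
    have h1 := h.indep.aevalEquiv
    have : ({a, b} : Set F) = Set.range ![a, b] := by
      ext x; simp [or_comm, eq_comm]
    have h2 : Algebra.adjoin k (Set.range ![a, b]) = polyRing k a b := by
      rw [polyRing, this]
    exact h1.trans (Subalgebra.equivOfEq _ _ h2)
  exact IsIntegrallyClosed.of_equiv e.toRingEquiv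

theorem chartRing_exists {a b h : F} (hh : h ∈ polyRing k a b) (h0 : h ≠ 0) {f : F}
    (hf : f ∈ chartRing k a b h) : ∃ p ∈ polyRing k a b, ∃ n : ℕ, f * h ^ n = p := by
  induction hf using Algebra.adjoin_induction with
  | mem x hx =>
    rcases hx with rfl | rfl | hx
    · exact ⟨x, Algebra.subset_adjoin (Or.inl rfl), 0, by simp⟩
    · exact ⟨x, Algebra.subset_adjoin (Or.inr rfl), 0, by simp⟩
    · rw [Set.mem_singleton_iff] at hx
      subst hx
      exact ⟨1, one_mem _, 1, by rw [pow_one, inv_mul_cancel₀ h0]⟩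
  | algebraMap r => exact ⟨_, Subalgebra.algebraMap_mem _ r, 0, by simp⟩
  | add x y _ _ hx hy =>
    obtain ⟨p, hp, n, hn⟩ := hx
    obtain ⟨q, hq, m, hm⟩ := hy
    refine ⟨p * h ^ m + q * h ^ n, add_mem (mul_mem hp (pow_mem hh _)) (mul_mem hq (pow_mem hh _)),
      n + m, ?_⟩
    rw [← hn, ← hm, pow_add]; ring
  | mul x y _ _ hx hy =>
    obtain ⟨p, hp, n, hn⟩ := hx
    obtain ⟨q, hq, m, hm⟩ := hy
    refine ⟨p * q, mul_mem hp hq, n + m, ?_⟩
    rw [← hn, ← hm, pow_add]; ring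

theorem isLocalization_subalgebra {P R : Subalgebra k F} [Algebra P R]
    (halg : ∀ x : P, ((algebraMap P R x : R) : F) = (x : F)) {h : F} (hh : h ∈ P) (h0 : h ≠ 0)
    (hinv : h⁻¹ ∈ R) (hex : ∀ f ∈ R, ∃ n : ℕ, f * h ^ n ∈ P) :
    IsLocalization.Away (⟨h, hh⟩ : P) R := by
  refine ⟨?_, ?_, ?_⟩
  · rintro ⟨y, hy⟩
    obtain ⟨n, hn⟩ := hy
    refine isUnit_iff_exists_inv.2 ⟨⟨h⁻¹ ^ n, pow_mem hinv n⟩, ?_⟩
    apply Subtype.ext
    rw [MulMemClass.coe_mul, halg]
    have : (y : F) = h ^ n := by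
      rw [← hn]; simp
    rw [this, ← mul_pow, mul_inv_cancel₀ h0, one_pow]
    rfl
  · rintro ⟨f, hf⟩
    obtain ⟨n, hn⟩ := hex f hf
    refine ⟨(⟨_, hn⟩, ⟨⟨h, hh⟩ ^ n, n, rfl⟩), ?_⟩
    apply Subtype.ext
    rw [MulMemClass.coe_mul, halg, halg]
    simp
  · intro x y hxy
    refine ⟨1, ?_⟩
    have h1 : (x : F) = (y : F) := by
      rw [← halg, ← halg, hxy]
    have h2 : x = y := Subtype.ext h1
    rw [h2]

theorem isIntegrallyClosed_subalgebra {P R : Subalgebra k F} (hPR : P ≤ R)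
    {h : F} (hh : h ∈ P) (h0 : h ≠ 0)
    (hinv : h⁻¹ ∈ R) (hex : ∀ f ∈ R, ∃ n : ℕ, f * h ^ n ∈ P) [IsIntegrallyClosed P] :
    IsIntegrallyClosed R := by
  let _ : Algebra P R := (Subalgebra.inclusion hPR).toRingHom.toAlgebra
  have := isLocalization_subalgebra (fun x => rfl) hh h0 hinv hex
  have hM : Submonoid.powers (⟨h, hh⟩ : P) ≤ nonZeroDivisors P := by
    apply powers_le_nonZeroDivisors_of_noZeroDivisors
    intro h1
    exact h0 (congrArg Subtype.val h1)
  exact isIntegrallyClosed_of_isLocalization R (Submonoid.powers (⟨h, hh⟩ : P)) hM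

theorem IsChart.chartRing_isIntegrallyClosed {a b h : F} (hc : IsChart k a b)
    (hh : h ∈ polyRing k a b) (h0 : h ≠ 0) : IsIntegrallyClosed (chartRing k a b h) := by
  have := hc.isIntegrallyClosed
  refine isIntegrallyClosed_subalgebra (polyRing_le_chartRing a b h) hh h0
    (inv_mem_chartRing a b h) fun f hf => ?_
  obtain ⟨p, hp, n, hn⟩ := chartRing_exists hh h0 hf
  exact ⟨n, hn ▸ hp⟩

theorem IsChart.chartRing_isFractionRing {a b h : F} (hc : IsChart k a b) :
    IsFractionRing (chartRing k a b h) F := by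
  refine IsFractionRing.of_field _ F ?_
  intro z
  obtain ⟨p, hp, q, hq, -, hz⟩ := hc.gen z
  exact ⟨⟨p, polyRing_le_chartRing a b h hp⟩, ⟨q, polyRing_le_chartRing a b h hq⟩, hz⟩

end Crest.Agent.R278
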