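import Mathlib
import Crest.Agent.R278.Dim

-- ▼ part R278/Local
section

set_option autoImplicit false

namespace Crest.Agent.R278

section Approx

variable {R : Type*} [CommRing R] [Algebra ℂ R] (D₁ D₂ : Derivation ℂ R R)

/-- If `M = (u,v)`, every element is a constant plus an element of `M`, and the derivations
preserve `M`, then the values of `(D₁,D₂)` are, modulo every power of `M`, combinations of the
values at `u` and `v`. -/
theorem approx (M : Ideal R) (u v : R) (hM : M = Ideal.span {u, v})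
    (hC : ∀ x : R, ∃ c : ℂ, x - algebraMap ℂ R c ∈ M) (n : ℕ) :
    ∀ x : R, ∃ a b : R, D₁ x - (a * D₁ u + b * D₁ v) ∈ M ^ n ∧
      D₂ x - (a * D₂ u + b * D₂ v) ∈ M ^ n := by
  induction n with
  | zero => intro x; exact ⟨0, 0, by simp, by simp⟩
  | succ n ih =>
    intro x
    obtain ⟨c, hc⟩ := hC x
    rw [hM, Ideal.mem_span_pair] at hc
    obtain ⟨α, β, hab⟩ := hc
    have hx : x = algebraMap ℂ R c + (α * u + β * v) := by rw [hab]; ring
    obtain ⟨a₁, b₁, h11, h12⟩ := ih α
    obtain ⟨a₂, b₂, h21, h22⟩ := ih β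
    have hu : u ∈ M := by rw [hM]; exact Ideal.subset_span (by simp)
    have hv : v ∈ M := by rw [hM]; exact Ideal.subset_span (by simp)
    refine ⟨α + u * a₁ + v * a₂, β + u * b₁ + v * b₂, ?_, ?_⟩
    · have h := Ideal.add_mem _ (Ideal.mul_mem_mul hu h11) (Ideal.mul_mem_mul hv h21)
      rw [← pow_succ'] at h
      convert h using 1
      rw [hx]
      simp only [map_add, Derivation.leibniz, Derivation.map_algebraMap, smul_eq_mul]
      ring
    · have h := Ideal.add_mem _ (Ideal.mul_mem_mul hu h12) (Ideal.mul_mem_mul hv h22)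
      rw [← pow_succ'] at h
      convert h using 1
      rw [hx]
      simp only [map_add, Derivation.leibniz, Derivation.map_algebraMap, smul_eq_mul]
      ring

/-- The minor of the pair `(D₁,D₂)` on the pair `(x,y)`. -/
def minor (x y : R) : R := D₁ x * D₂ y - D₁ y * D₂ x

theorem minor_mem_sup_pow (M : Ideal R) (u v : R) (hM : M = Ideal.span {u, v})
    (hC : ∀ x : R, ∃ c : ℂ, x - algebraMap ℂ R c ∈ M) (x y : R) (n : ℕ) :
    minor D₁ D₂ x y ∈ Ideal.span {minor D₁ D₂ u v} ⊔ M ^ n := by
  obtain ⟨a, b, h1, h2⟩ := approx D₁ D₂ M u v hM hC n x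
  obtain ⟨c, d, h3, h4⟩ := approx D₁ D₂ M u v hM hC n y
  set e1 := D₁ x - (a * D₁ u + b * D₁ v) with he1
  set e2 := D₂ x - (a * D₂ u + b * D₂ v) with he2
  set e3 := D₁ y - (c * D₁ u + d * D₁ v) with he3
  set e4 := D₂ y - (c * D₂ u + d * D₂ v) with he4
  have hx1 : D₁ x = a * D₁ u + b * D₁ v + e1 := by rw [he1]; ring
  have hx2 : D₂ x = a * D₂ u + b * D₂ v + e2 := by rw [he2]; ring
  have hy1 : D₁ y = c * D₁ u + d * D₁ v + e3 := by rw [he3]; ring
  have hy2 : D₂ y = c * D₂ u + d * D₂ v + e4 := by rw [he4]; ring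
  have : minor D₁ D₂ x y = (a * d - b * c) * minor D₁ D₂ u v
      + ((a * D₁ u + b * D₁ v) * e4 + D₂ y * e1 - ((c * D₁ u + d * D₁ v) * e2 + D₂ x * e3)) := by
    unfold minor
    rw [hx1, hx2, hy1, hy2]
    ring
  rw [this]
  refine Submodule.add_mem_sup (Ideal.mul_mem_left _ _ (Ideal.mem_span_singleton_self _)) ?_
  refine Ideal.sub_mem _ (Ideal.add_mem _ (Ideal.mul_mem_left _ _ h4) (Ideal.mul_mem_left _ _ h1))
    (Ideal.add_mem _ (Ideal.mul_mem_left _ _ h2) (Ideal.mul_mem_left _ _ h3))

/-- In a Noetherian local ring, `⋂ₙ (I + mⁿ) = I`. -/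
theorem mem_of_forall_mem_sup_pow {R : Type*} [CommRing R] [IsLocalRing R] [IsNoetherianRing R]
    (I : Ideal R) (x : R) (h : ∀ n : ℕ, x ∈ I ⊔ IsLocalRing.maximalIdeal R ^ n) : x ∈ I := by
  by_cases hI : I = ⊤
  · rw [hI]; trivial
  have : Nontrivial (R ⧸ I) := Ideal.Quotient.nontrivial_iff.mpr hI
  have hl : IsLocalRing (R ⧸ I) := IsLocalRing.of_surjective' (Ideal.Quotient.mk I)
    Ideal.Quotient.mk_surjective
  have h2 : ∀ n : ℕ, Ideal.Quotient.mk I x ∈ IsLocalRing.maximalIdeal (R ⧸ I) ^ n := by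
    intro n
    obtain ⟨y, hy, z, hz, hyz⟩ := Submodule.mem_sup.mp (h n)
    rw [← hyz, map_add, Ideal.Quotient.eq_zero_iff_mem.mpr hy, zero_add]
    have h3 : Ideal.map (Ideal.Quotient.mk I) (IsLocalRing.maximalIdeal R ^ n) ≤
        IsLocalRing.maximalIdeal (R ⧸ I) ^ n := by
      rw [Ideal.map_pow]
      refine Ideal.pow_right_mono ?_ n
      refine Ideal.map_le_iff_le_comap.mpr ?_
      intro w hw
      rw [Ideal.mem_comap, IsLocalRing.mem_maximalIdeal, mem_nonunits_iff]
      intro hu
      have hsurj : IsLocalHom (Ideal.Quotient.mk I) :=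
        IsLocalHom.of_surjective _ Ideal.Quotient.mk_surjective
      exact hw (isUnit_of_map_unit _ _ hu)
    exact h3 (Ideal.mem_map_of_mem _ hz)
  have h4 : Ideal.Quotient.mk I x ∈ ⨅ n : ℕ, IsLocalRing.maximalIdeal (R ⧸ I) ^ n := by
    simpa using h2
  rw [Ideal.iInf_pow_eq_bot_of_isLocalRing _ (Ideal.IsPrime.ne_top inferInstance)] at h4
  exact Ideal.Quotient.eq_zero_iff_mem.mp (by simpa using h4)

theorem minor_mem_span {R : Type*} [CommRing R] [Algebra ℂ R] [IsLocalRing R] [IsNoetherianRing R]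
    (D₁ D₂ : Derivation ℂ R R) (u v : R)
    (hM : IsLocalRing.maximalIdeal R = Ideal.span {u, v})
    (hC : ∀ x : R, ∃ c : ℂ, x - algebraMap ℂ R c ∈ IsLocalRing.maximalIdeal R) (x y : R) :
    minor D₁ D₂ x y ∈ Ideal.span {minor D₁ D₂ u v} :=
  mem_of_forall_mem_sup_pow _ _ fun n => minor_mem_sup_pow D₁ D₂ _ u v hM hC x y n

end Approx

end Crest.Agent.R278
end

-- ▼ part R278/DerFree
section

set_option autoImplicit false

namespace Crest.Agent.R278

variable {K : Type*} [Field K] [Algebra ℂ K]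

/-- Restriction of a derivation of `K` to a subalgebra it preserves. -/
def restrictDer (A : Subalgebra ℂ K) (D : Derivation ℂ K K) (h : ∀ a ∈ A, D a ∈ A) :
    Derivation ℂ A A where
  toFun a := ⟨D a, h a a.2⟩
  map_add' a b := by ext; simp
  map_smul' c a := by ext; simp
  map_one_eq_zero' := by ext; simp
  leibniz' a b := by ext; simp

@[simp] theorem coe_restrictDer (A : Subalgebra ℂ K) (D : Derivation ℂ K K)
    (h : ∀ a ∈ A, D a ∈ A) (a : A) : (restrictDer A D h a : K) = D a := rfl

/-- A derivation `A → K` (written as a map into `K`) which vanishes on `ℂ[s,t]` vanishes on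
everything integral over `ℂ[s,t]`. -/
theorem der_eq_zero_of_isIntegral (A : Subalgebra ℂ K) (R₀ : Subalgebra ℂ K) (hR : R₀ ≤ A)
    (D : Derivation ℂ A K) (hD : ∀ (a : K) (ha : a ∈ R₀), D ⟨a, hR ha⟩ = 0) (x : A)
    (hx : IsIntegral R₀ (x : K)) : D x = 0 := by
  classical
  -- minimal degree monic polynomial
  obtain ⟨p, hp, hpx⟩ := hx
  induction hn : p.natDegree using Nat.strong_induction_on generalizing p with
  | _ n ih =>
    let φ : R₀ →+* A := (Subalgebra.inclusion hR : R₀ →ₐ[ℂ] A).toRingHom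
    have hpx' : Polynomial.eval₂ φ x p = 0 := by
      apply Subtype.ext
      have : ((Polynomial.eval₂ φ x p : A) : K) = Polynomial.eval₂ (algebraMap R₀ K) (x : K) p := by
        rw [show ((Polynomial.eval₂ φ x p : A) : K) = A.val (Polynomial.eval₂ φ x p) from rfl]
        rw [← AlgHom.coe_toRingHom, Polynomial.hom_eval₂]
        rfl
      rw [this, hpx]; rfl
    have key : D (Polynomial.eval₂ φ x p)
        = (Polynomial.eval₂ φ x (Polynomial.derivative p)) • D x := by
      have hgen : ∀ q : Polynomial R₀, D (Polynomial.eval₂ φ x q)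
          = (Polynomial.eval₂ φ x (Polynomial.derivative q)) • D x := by
        intro q
        induction q using Polynomial.induction_on' with
        | add a b ha hb => simp only [Polynomial.eval₂_add, map_add, ha, hb, add_smul]
        | monomial k a =>
          rw [Polynomial.eval₂_monomial, Derivation.leibniz]
          have h0 : D (φ a) = 0 := hD a a.2
          rw [h0, smul_zero, add_zero, Derivation.leibniz_pow, Polynomial.derivative_monomial,
            Polynomial.eval₂_monomial]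
          simp only [map_mul, map_natCast, Algebra.smul_def, map_pow, eq_natCast]
          ring
      exact hgen p
    rw [hpx', map_zero] at key
    by_cases hn0 : n = 0
    · rw [hn0] at hn
      have := Polynomial.eq_one_of_monic_natDegree_zero hp hn
      rw [this, Polynomial.eval₂_one] at hpx
      exact absurd hpx one_ne_zero
    by_cases hz : Polynomial.eval₂ φ x (Polynomial.derivative p) = 0
    · -- then p'/n is monic of smaller degree
      have hnC : (n : ℂ) ≠ 0 := by exact_mod_cast hn0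
      let q : Polynomial R₀ := Polynomial.C (algebraMap ℂ R₀ (n : ℂ)⁻¹) * Polynomial.derivative p
      have hnR : (n : R₀) = algebraMap ℂ R₀ (n : ℂ) := by simp
      have hinv : algebraMap ℂ R₀ (n : ℂ)⁻¹ * (n : R₀) = 1 := by
        rw [hnR, ← map_mul, inv_mul_cancel₀ hnC, map_one]
      have hdeg : (Polynomial.derivative p).natDegree ≤ n - 1 := by
        rw [← hn]
        exact Polynomial.natDegree_derivative_le p
      have hcoef : (Polynomial.derivative p).coeff (n - 1) = (n : R₀) := by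
        rw [Polynomial.coeff_derivative, Nat.sub_add_cancel (by omega)]
        have : p.coeff n = 1 := by rw [← hn]; exact hp
        rw [this, one_mul, Nat.cast_sub (by omega)]
        simp
      have hqcoef : q.coeff (n - 1) = 1 := by
        simp only [q, Polynomial.coeff_C_mul, hcoef, hinv]
      have hqdeg : q.natDegree ≤ n - 1 := by
        refine (Polynomial.natDegree_C_mul_le _ _).trans hdeg
      have hqmonic : q.Monic := Polynomial.monic_of_natDegree_le_of_coeff_eq_one _ hqdeg hqcoef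
      have hqeval : Polynomial.eval₂ (algebraMap R₀ K) (x : K) q = 0 := by
        have h1 : Polynomial.eval₂ φ x q = 0 := by
          simp only [q, Polynomial.eval₂_mul, hz, mul_zero]
        have : ((Polynomial.eval₂ φ x q : A) : K) = Polynomial.eval₂ (algebraMap R₀ K) (x : K) q := by
          rw [show ((Polynomial.eval₂ φ x q : A) : K) = A.val (Polynomial.eval₂ φ x q) from rfl]
          rw [← AlgHom.coe_toRingHom, Polynomial.hom_eval₂]
          rfl
        rw [← this, h1]; rfl
      exact ih q.natDegree (by omega) q hqmonic hqeval rfl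
    · rw [eq_comm, Algebra.smul_def] at key
      have hz' : algebraMap A K (Polynomial.eval₂ φ x (Polynomial.derivative p)) ≠ 0 := by
        intro h
        exact hz (Subtype.ext h)
      exact (mul_eq_zero.mp key).resolve_left hz'

/-- Every derivation of `A` is a combination, over `K`, of `D₁` and `D₂`. -/
theorem exists_coeffs (A : Subalgebra ℂ K) (D₁ D₂ : Derivation ℂ K K)
    (h1 : ∀ a ∈ A, D₁ a ∈ A) (h2 : ∀ a ∈ A, D₂ a ∈ A) (s t : K) (hs : s ∈ A) (ht : t ∈ A)
    (hint : ∀ a ∈ A, IsIntegral (Algebra.adjoin ℂ {s, t}) a)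
    (hst : minor D₁ D₂ s t ≠ 0) (D : Derivation ℂ A A) :
    ∃ a b : K, ∀ x : A, (D x : K) = a * D₁ x + b * D₂ x := by
  classical
  let R₀ : Subalgebra ℂ K := Algebra.adjoin ℂ {s, t}
  have hR : R₀ ≤ A := Algebra.adjoin_le (by
    rintro x (rfl | rfl)
    · exact hs
    · exact ht)
  let ι : A →ₗ[A] K := Algebra.linearMap A K
  let D' : Derivation ℂ A K := ι.compDer D
  let E₁ : Derivation ℂ A K := ι.compDer (restrictDer A D₁ h1)
  let E₂ : Derivation ℂ A K := ι.compDer (restrictDer A D₂ h2)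
  have hD' : ∀ x, D' x = (D x : K) := fun x => rfl
  have hE1 : ∀ x, E₁ x = D₁ x := fun x => rfl
  have hE2 : ∀ x, E₂ x = D₂ x := fun x => rfl
  set Δ := minor D₁ D₂ s t with hΔ
  let s' : A := ⟨s, hs⟩
  let t' : A := ⟨t, ht⟩
  let a : K := (D' s' * D₂ t - D' t' * D₂ s) / Δ
  let b : K := (D₁ s * D' t' - D₁ t * D' s') / Δ
  let E : Derivation ℂ A K := D' - a • E₁ - b • E₂
  have hE : ∀ x, E x = D' x - a * D₁ x - b * D₂ x := by
    intro x
    simp [E, hE1, hE2]
  have hEs : E s' = 0 := by
    rw [hE]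
    simp only [a, b, s']
    field_simp
    rw [hΔ]
    unfold minor
    ring
  have hEt : E t' = 0 := by
    rw [hE]
    simp only [a, b, t']
    field_simp
    rw [hΔ]
    unfold minor
    ring
  have hzero : ∀ (r : K) (hr : r ∈ R₀), E ⟨r, hR hr⟩ = 0 := by
    intro r hr
    have hgen : ∀ r (hr : r ∈ R₀), ∀ h : r ∈ A, E ⟨r, h⟩ = 0 := by
      intro r hr
      induction hr using Algebra.adjoin_induction with
      | mem x hx =>
        intro h
        rcases hx with hx | hx
        · subst hx; exact hEs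
        · rw [Set.mem_singleton_iff] at hx; subst hx; exact hEt
      | algebraMap c =>
        intro h
        have : (⟨algebraMap ℂ K c, h⟩ : A) = algebraMap ℂ A c := rfl
        rw [this, Derivation.map_algebraMap]
      | add x y hx hy ihx ihy =>
        intro h
        have : (⟨x + y, h⟩ : A) = ⟨x, hR hx⟩ + ⟨y, hR hy⟩ := rfl
        rw [this, map_add, ihx, ihy, add_zero]
      | mul x y hx hy ihx ihy =>
        intro h
        have : (⟨x * y, h⟩ : A) = ⟨x, hR hx⟩ * ⟨y, hR hy⟩ := rfl
        rw [this, Derivation.leibniz, ihx, ihy, smul_zero, smul_zero, add_zero]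
    exact hgen r hr _
  refine ⟨a, b, fun x => ?_⟩
  have h0 := der_eq_zero_of_isIntegral A R₀ hR E hzero x (hint x x.2)
  rw [hE] at h0
  rw [← hD']
  linear_combination h0

/-- **Freeness of the module of derivations.** -/
theorem der_free (A : Subalgebra ℂ K) (D₁ D₂ : Derivation ℂ K K)
    (h1 : ∀ a ∈ A, D₁ a ∈ A) (h2 : ∀ a ∈ A, D₂ a ∈ A) (s t : K) (hs : s ∈ A) (ht : t ∈ A)
    (hint : ∀ a ∈ A, IsIntegral (Algebra.adjoin ℂ {s, t}) a)
    (hst : minor D₁ D₂ s t ≠ 0) {ι : Type*} (x y : ι → K) (hx : ∀ i, x i ∈ A)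
    (hy : ∀ i, y i ∈ A)
    (hgr : ∀ k : K, (∀ i, minor D₁ D₂ (x i) (y i) * k ∈ A) → k ∈ A) :
    Nonempty (Derivation ℂ A A ≃ₗ[A] (Fin 2 → A)) := by
  classical
  let d₁ := restrictDer A D₁ h1
  let d₂ := restrictDer A D₂ h2
  let f : (Fin 2 → A) →ₗ[A] Derivation ℂ A A :=
    { toFun := fun v => v 0 • d₁ + v 1 • d₂
      map_add' := by
        intro v w
        simp only [Pi.add_apply, add_smul]
        abel
      map_smul' := by
        intro c v
        simp only [Pi.smul_apply, smul_eq_mul, mul_smul, smul_add, RingHom.id_apply] }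
  have hf : ∀ v (z : A), ((f v z : A) : K) = v 0 * D₁ z + v 1 * D₂ z := by
    intro v z
    simp [f, d₁, d₂]
  have hinj : Function.Injective f := by
    rw [injective_iff_map_eq_zero]
    intro v hv
    have hs' : (v 0 : K) * D₁ s + v 1 * D₂ s = 0 := by
      have := hf v ⟨s, hs⟩
      rw [hv] at this
      simpa using this.symm
    have ht' : (v 0 : K) * D₁ t + v 1 * D₂ t = 0 := by
      have := hf v ⟨t, ht⟩
      rw [hv] at this
      simpa using this.symm
    have e0 : (v 0 : K) * minor D₁ D₂ s t = 0 := by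
      unfold minor
      linear_combination D₂ t * hs' - D₂ s * ht'
    have e1 : (v 1 : K) * minor D₁ D₂ s t = 0 := by
      unfold minor
      linear_combination D₁ s * ht' - D₁ t * hs'
    have z0 : v 0 = 0 := Subtype.ext ((mul_eq_zero.mp e0).resolve_right hst)
    have z1 : v 1 = 0 := Subtype.ext ((mul_eq_zero.mp e1).resolve_right hst)
    ext i
    fin_cases i
    · simp [z0]
    · simp [z1]
  have hsurj : Function.Surjective f := by
    intro D
    obtain ⟨a, b, hab⟩ := exists_coeffs A D₁ D₂ h1 h2 s t hs ht hint hst D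
    have ha : a ∈ A := by
      refine hgr a fun i => ?_
      have e1 := hab ⟨x i, hx i⟩
      have e2 := hab ⟨y i, hy i⟩
      simp only at e1 e2
      have : minor D₁ D₂ (x i) (y i) * a
          = (D ⟨x i, hx i⟩ : K) * D₂ (y i) - (D ⟨y i, hy i⟩ : K) * D₂ (x i) := by
        rw [e1, e2]; unfold minor; ring
      rw [this]
      exact A.sub_mem (A.mul_mem (D ⟨x i, hx i⟩).2 (h2 _ (hy i)))
        (A.mul_mem (D ⟨y i, hy i⟩).2 (h2 _ (hx i)))
    have hb : b ∈ A := by
      refine hgr b fun i => ?_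
      have e1 := hab ⟨x i, hx i⟩
      have e2 := hab ⟨y i, hy i⟩
      simp only at e1 e2
      have : minor D₁ D₂ (x i) (y i) * b
          = D₁ (x i) * (D ⟨y i, hy i⟩ : K) - D₁ (y i) * (D ⟨x i, hx i⟩ : K) := by
        rw [e1, e2]; unfold minor; ring
      rw [this]
      exact A.sub_mem (A.mul_mem (h1 _ (hx i)) (D ⟨y i, hy i⟩).2)
        (A.mul_mem (h1 _ (hy i)) (D ⟨x i, hx i⟩).2)
    refine ⟨![⟨a, ha⟩, ⟨b, hb⟩], ?_⟩
    ext z
    rw [hf]
    simpa using (hab z).symm
  exact ⟨(LinearEquiv.ofBijective f ⟨hinj, hsurj⟩).symm⟩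

end Crest.Agent.R278
end

-- ▼ part R278/NonReg
section

set_option autoImplicit false

namespace Crest.Agent.R278

variable {K : Type*} [Field K] [Algebra ℂ K]

/-- The localization of `A ⊆ K` at the prime ideal `m`, as a subalgebra of `K`. -/
def locAt (A : Subalgebra ℂ K) (m : Ideal A) [m.IsPrime] : Subalgebra ℂ K where
  carrier := {x | ∃ a b : A, b ∉ m ∧ x = (a : K) / (b : K)}
  mul_mem' := by
    rintro x y ⟨a, b, hb, rfl⟩ ⟨c, d, hd, rfl⟩
    refine ⟨a * c, b * d, fun h => ?_, ?_⟩
    · rcases (Ideal.IsPrime.mem_or_mem ‹_› h) with h | h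
      · exact hb h
      · exact hd h
    · push_cast
      rw [div_mul_div_comm]
  add_mem' := by
    rintro x y ⟨a, b, hb, rfl⟩ ⟨c, d, hd, rfl⟩
    refine ⟨a * d + b * c, b * d, fun h => ?_, ?_⟩
    · rcases (Ideal.IsPrime.mem_or_mem ‹_› h) with h | h
      · exact hb h
      · exact hd h
    · have hb0 : (b : K) ≠ 0 := fun h => hb (by
        have : b = 0 := Subtype.ext h
        rw [this]; exact zero_mem _)
      have hd0 : (d : K) ≠ 0 := fun h => hd (by
        have : d = 0 := Subtype.ext h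
        rw [this]; exact zero_mem _)
      push_cast
      rw [div_add_div _ _ hb0 hd0]
  algebraMap_mem' := by
    intro c
    refine ⟨algebraMap ℂ A c, 1, fun h => ?_, ?_⟩
    · exact (Ideal.ne_top_iff_one m).mp (Ideal.IsPrime.ne_top ‹_›) h
    · simp

variable (A : Subalgebra ℂ K) (m : Ideal A) [m.IsPrime]

omit [m.IsPrime] in
theorem coe_ne_zero_of_notMem {b : A} (hb : b ∉ m) : (b : K) ≠ 0 := fun h => hb (by
  have : b = 0 := Subtype.ext h
  rw [this]; exact zero_mem _)

theorem le_locAt : A ≤ locAt A m := by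
  intro a ha
  refine ⟨⟨a, ha⟩, 1, fun h => ?_, by simp⟩
  exact (Ideal.ne_top_iff_one m).mp (Ideal.IsPrime.ne_top ‹_›) h

theorem inv_mem_locAt {b : A} (hb : b ∉ m) : (b : K)⁻¹ ∈ locAt A m :=
  ⟨1, b, hb, by simp⟩

noncomputable instance algLocAt : Algebra A (locAt A m) :=
  (Subalgebra.inclusion (le_locAt A m)).toRingHom.toAlgebra

theorem coe_algebraMap_locAt (a : A) : ((algebraMap A (locAt A m) a : locAt A m) : K) = a := rfl

instance isLocalization_locAt : IsLocalization.AtPrime (locAt A m) m where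
  map_units := by
    rintro ⟨b, hb⟩
    have hb' : b ∉ m := hb
    have h0 := coe_ne_zero_of_notMem A m hb'
    refine IsUnit.of_mul_eq_one ⟨(b : K)⁻¹, inv_mem_locAt A m hb'⟩ ?_
    apply Subtype.ext
    simp only [MulMemClass.coe_mul, coe_algebraMap_locAt]
    exact mul_inv_cancel₀ h0
  surj := by
    rintro ⟨x, a, b, hb, rfl⟩
    refine ⟨(a, ⟨b, hb⟩), ?_⟩
    apply Subtype.ext
    have h0 := coe_ne_zero_of_notMem A m hb
    simp only [MulMemClass.coe_mul, coe_algebraMap_locAt]
    exact div_mul_cancel₀ _ h0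
  exists_of_eq := by
    intro a b h
    refine ⟨1, ?_⟩
    have h1 : ((algebraMap A (locAt A m) a : locAt A m) : K)
        = ((algebraMap A (locAt A m) b : locAt A m) : K) := by rw [h]
    rw [coe_algebraMap_locAt, coe_algebraMap_locAt] at h1
    have h2 : a = b := Subtype.ext h1
    rw [h2]

/-- A derivation of `K` preserving `A` preserves the localization. -/
theorem der_mem_locAt (D : Derivation ℂ K K) (h : ∀ a ∈ A, D a ∈ A) :
    ∀ x ∈ locAt A m, D x ∈ locAt A m := by
  rintro x ⟨a, b, hb, rfl⟩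
  have h0 := coe_ne_zero_of_notMem A m hb
  refine ⟨b * ⟨D a, h a a.2⟩ - a * ⟨D b, h b b.2⟩, b * b, fun hh => ?_, ?_⟩
  · rcases (Ideal.IsPrime.mem_or_mem ‹_› hh) with h | h <;> exact hb h
  · rw [Derivation.leibniz_div]
    push_cast
    rw [smul_eq_mul, smul_eq_mul, smul_eq_mul]
    field_simp

instance isLocalRing_locAt : IsLocalRing (locAt A m) :=
  IsLocalization.AtPrime.isLocalRing (locAt A m) m

theorem mem_maximalIdeal_locAt_iff (x : locAt A m) :
    x ∈ IsLocalRing.maximalIdeal (locAt A m) ↔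
      ∃ a b : A, a ∈ m ∧ b ∉ m ∧ (x : K) = (a : K) / (b : K) := by
  constructor
  · intro hx
    obtain ⟨x, a, b, hb, rfl⟩ := x
    refine ⟨a, b, ?_, hb, rfl⟩
    by_contra ha
    rw [IsLocalRing.mem_maximalIdeal, mem_nonunits_iff] at hx
    apply hx
    have ha0 := coe_ne_zero_of_notMem A m ha
    have hb0 := coe_ne_zero_of_notMem A m hb
    refine IsUnit.of_mul_eq_one ⟨(b : K) / a, b, a, ha, rfl⟩ ?_
    apply Subtype.ext
    simp only [MulMemClass.coe_mul, OneMemClass.coe_one]
    field_simp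
  · rintro ⟨a, b, ha, hb, hab⟩
    rw [IsLocalRing.mem_maximalIdeal, mem_nonunits_iff]
    intro hu
    obtain ⟨⟨y, c, d, hd, rfl⟩, hy⟩ := hu.exists_right_inv
    have h1 : (x : K) * ((c : K) / d) = 1 := congrArg Subtype.val hy
    rw [hab] at h1
    have hb0 := coe_ne_zero_of_notMem A m hb
    have hd0 := coe_ne_zero_of_notMem A m hd
    have h2 : (a : K) * c = b * d := by
      field_simp at h1
      exact h1
    have h3 : a * c = b * d := Subtype.ext (by push_cast; exact h2)
    have h4 : b * d ∈ m := h3 ▸ Ideal.mul_mem_right _ _ ha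
    rcases (Ideal.IsPrime.mem_or_mem ‹_› h4) with h | h
    · exact hb h
    · exact hd h

/-- **Non-regularity.** -/
theorem not_regular (D₁ D₂ : Derivation ℂ K K)
    (h1 : ∀ a ∈ A, D₁ a ∈ A) (h2 : ∀ a ∈ A, D₂ a ∈ A)
    (hm1 : ∀ a : A, a ∈ m → (⟨D₁ a, h1 a a.2⟩ : A) ∈ m)
    (s t : K) (hs : s ∈ A) (ht : t ∈ A) (hst : minor D₁ D₂ s t ≠ 0)
    (hdim : ringKrullDim A ≤ 2)
    (hC : ∀ a : A, ∃ c : ℂ, a - algebraMap ℂ A c ∈ m)
    {ι : Type*} [Finite ι] (x y : ι → K) (hx : ∀ i, x i ∈ A)
    (hy : ∀ i, y i ∈ A)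
    (hgr : ∀ k : K, (∀ i, minor D₁ D₂ (x i) (y i) * k ∈ A) → k ∈ A) :
    ¬ IsRegularLocalRing (Localization.AtPrime m) := by
  classical
  intro hreg
  let e : Localization.AtPrime m ≃ₐ[A] locAt A m :=
    IsLocalization.algEquiv m.primeCompl (Localization.AtPrime m) (locAt A m)
  have hreg' : IsRegularLocalRing (locAt A m) := IsRegularLocalRing.of_ringEquiv e.toRingEquiv
  have hnoeth : IsNoetherianRing (locAt A m) := inferInstance
  -- dimension at most two
  have hd : ringKrullDim (locAt A m) ≤ 2 := by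
    rw [IsLocalization.AtPrime.ringKrullDim_eq_height m (locAt A m)]
    exact (Ideal.height_le_ringKrullDim_of_ne_top (Ideal.IsPrime.ne_top ‹_›)).trans hdim
  have hspan : (IsLocalRing.maximalIdeal (locAt A m)).spanFinrank ≤ 2 := by
    have := (hreg'.spanFinrank_maximalIdeal).trans_le hd
    exact_mod_cast this
  obtain ⟨S, hcard, hS⟩ := Submodule.FG.exists_span_finset_card_eq_spanFinrank
    (IsNoetherian.noetherian (IsLocalRing.maximalIdeal (locAt A m)))
  obtain ⟨u, v, huv⟩ : ∃ u v : locAt A m,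
      IsLocalRing.maximalIdeal (locAt A m) = Ideal.span {u, v} := by
    have hc2 : S.card ≤ 2 := hcard ▸ hspan
    rcases Nat.lt_or_ge S.card 1 with h0 | h0
    · have : S = ∅ := Finset.card_eq_zero.mp (by omega)
      refine ⟨0, 0, ?_⟩
      rw [← hS, this]
      simp
    rcases Nat.lt_or_ge S.card 2 with h0' | h0'
    · obtain ⟨w, hw⟩ := Finset.card_eq_one.mp (show S.card = 1 by omega)
      refine ⟨w, w, ?_⟩
      rw [← hS, hw]
      simp [Ideal.span]
    · obtain ⟨w, w', -, hw⟩ := Finset.card_eq_two.mp (show S.card = 2 by omega)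
      refine ⟨w, w', ?_⟩
      rw [← hS, hw]
      simp [Ideal.span]
  let R := locAt A m
  let d₁ : Derivation ℂ R R := restrictDer R D₁ (der_mem_locAt A m D₁ h1)
  let d₂ : Derivation ℂ R R := restrictDer R D₂ (der_mem_locAt A m D₂ h2)
  have hCR : ∀ x : R, ∃ c : ℂ, x - algebraMap ℂ R c ∈ IsLocalRing.maximalIdeal R := by
    rintro ⟨x, a, b, hb, rfl⟩
    obtain ⟨c, hc⟩ := hC a
    obtain ⟨d, hd⟩ := hC b
    have hb0 := coe_ne_zero_of_notMem A m hb
    have hd0 : d ≠ 0 := by
      rintro rfl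
      rw [map_zero, sub_zero] at hd
      exact hb hd
    refine ⟨c / d, ?_⟩
    rw [mem_maximalIdeal_locAt_iff]
    refine ⟨a - algebraMap ℂ A (c / d) * b, b, ?_, hb, ?_⟩
    · have : a - algebraMap ℂ A (c / d) * b = (a - algebraMap ℂ A c)
          - algebraMap ℂ A (c / d) * (b - algebraMap ℂ A d) := by
        have : algebraMap ℂ A c = algebraMap ℂ A (c / d) * algebraMap ℂ A d := by
          rw [← map_mul, div_mul_cancel₀ _ hd0]
        rw [this]; ring
      rw [this]
      exact Ideal.sub_mem _ hc (Ideal.mul_mem_left _ _ hd)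
    · have e1 : (((⟨(a : K) / b, a, b, hb, rfl⟩ : R) - algebraMap ℂ R (c / d) : R) : K)
          = (a : K) / b - algebraMap ℂ K (c / d) := rfl
      rw [e1]
      have e2 : ((a - algebraMap ℂ A (c / d) * b : A) : K)
          = (a : K) - algebraMap ℂ K (c / d) * b := rfl
      rw [e2]
      field_simp
  have hmin : ∀ p q : R, minor d₁ d₂ p q ∈ Ideal.span {minor d₁ d₂ u v} :=
    fun p q => minor_mem_span d₁ d₂ u v huv hCR p q
  have hcoe : ∀ p q : R, ((minor d₁ d₂ p q : R) : K) = minor D₁ D₂ (p : K) (q : K) := by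
    intro p q
    simp [minor, d₁, d₂]
  -- the minor of `u,v` lies in the maximal ideal
  have hu : u ∈ IsLocalRing.maximalIdeal R := by
    change u ∈ IsLocalRing.maximalIdeal (locAt A m)
    rw [huv]; exact Ideal.subset_span (by simp)
  have hv : v ∈ IsLocalRing.maximalIdeal R := by
    change v ∈ IsLocalRing.maximalIdeal (locAt A m)
    rw [huv]; exact Ideal.subset_span (by simp)
  have hd1 : ∀ p ∈ IsLocalRing.maximalIdeal R, d₁ p ∈ IsLocalRing.maximalIdeal R := by
    intro p hp
    obtain ⟨a, b, ha, hb, hab⟩ := (mem_maximalIdeal_locAt_iff A m p).mp hp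
    have hb0 := coe_ne_zero_of_notMem A m hb
    rw [mem_maximalIdeal_locAt_iff]
    refine ⟨b * ⟨D₁ a, h1 a a.2⟩ - a * ⟨D₁ b, h1 b b.2⟩, b * b, ?_, ?_, ?_⟩
    · exact Ideal.sub_mem _ (Ideal.mul_mem_left _ _ (hm1 a ha)) (Ideal.mul_mem_right _ _ ha)
    · intro hh
      rcases (Ideal.IsPrime.mem_or_mem ‹_› hh) with h | h <;> exact hb h
    · have : ((d₁ p : R) : K) = D₁ (p : K) := rfl
      rw [this, hab, Derivation.leibniz_div]
      push_cast
      rw [smul_eq_mul, smul_eq_mul, smul_eq_mul]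
      field_simp
  have hδm : minor d₁ d₂ u v ∈ IsLocalRing.maximalIdeal R := by
    unfold minor
    exact Ideal.sub_mem _ (Ideal.mul_mem_right _ _ (hd1 u hu)) (Ideal.mul_mem_right _ _ (hd1 v hv))
  set δ : R := minor d₁ d₂ u v with hδ
  have hδ0 : (δ : K) ≠ 0 := by
    intro h
    have hδ0' : δ = 0 := Subtype.ext h
    have := hmin ⟨s, le_locAt A m hs⟩ ⟨t, le_locAt A m ht⟩
    rw [hδ0'] at this
    have h0 : minor d₁ d₂ (⟨s, le_locAt A m hs⟩ : R) ⟨t, le_locAt A m ht⟩ = 0 := by simpa using this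
    apply hst
    have := hcoe ⟨s, le_locAt A m hs⟩ ⟨t, le_locAt A m ht⟩
    rw [h0] at this
    exact this.symm
  -- the quotients of the minors by δ
  have hq : ∀ i, ∃ w : A, w ∉ m ∧ (w : K) * (minor D₁ D₂ (x i) (y i) * (δ : K)⁻¹) ∈ A := by
    intro i
    have := hmin ⟨x i, le_locAt A m (hx i)⟩ ⟨y i, le_locAt A m (hy i)⟩
    rw [Ideal.mem_span_singleton'] at this
    obtain ⟨r, hr⟩ := this
    obtain ⟨r, a, b, hb, rfl⟩ := r
    refine ⟨b, hb, ?_⟩
    have hb0 := coe_ne_zero_of_notMem A m hb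
    have e1 : (a : K) / b * (δ : K) = minor D₁ D₂ (x i) (y i) := by
      rw [← hcoe ⟨x i, le_locAt A m (hx i)⟩ ⟨y i, le_locAt A m (hy i)⟩, ← hr]
      rfl
    rw [← e1]
    have : (b : K) * ((a : K) / b * (δ : K) * (δ : K)⁻¹) = a := by
      field_simp
    rw [this]
    exact a.2
  choose w hw hw' using hq
  have := Fintype.ofFinite ι
  let W : A := ∏ i, w i
  have hW : W ∉ m := by
    intro h
    obtain ⟨i, -, hi⟩ := (Ideal.IsPrime.prod_mem_iff (hp := ‹m.IsPrime›)).mp h
    exact hw i hi
  have hk : (W : K) * (δ : K)⁻¹ ∈ A := by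
    refine hgr _ fun i => ?_
    have hWi : W = (∏ j ∈ Finset.univ.erase i, w j) * w i := by
      rw [Finset.prod_erase_mul _ _ (Finset.mem_univ i)]
    rw [hWi]
    have : minor D₁ D₂ (x i) (y i) * ((((∏ j ∈ Finset.univ.erase i, w j) * w i : A) : K) * (δ : K)⁻¹)
        = ((∏ j ∈ Finset.univ.erase i, w j : A) : K)
          * ((w i : K) * (minor D₁ D₂ (x i) (y i) * (δ : K)⁻¹)) := by
      push_cast
      ring
    rw [this]
    exact A.mul_mem (∏ j ∈ Finset.univ.erase i, w j : A).2 (hw' i)
  -- contradiction : `W` is a unit of `R` but a multiple of δ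
  have hWR : (⟨W, le_locAt A m W.2⟩ : R) ∈ IsLocalRing.maximalIdeal R := by
    have : (⟨W, le_locAt A m W.2⟩ : R) = ⟨(W : K) * (δ : K)⁻¹, le_locAt A m hk⟩ * δ := by
      apply Subtype.ext
      simp only [MulMemClass.coe_mul]
      field_simp
    rw [this]
    exact Ideal.mul_mem_left _ _ hδm
  obtain ⟨a, b, ha, hb, hab⟩ := (mem_maximalIdeal_locAt_iff A m _).mp hWR
  have hb0 := coe_ne_zero_of_notMem A m hb
  have : (W : K) * b = a := by
    have h : (W : K) = a / b := hab
    rw [h]; field_simp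
  have h3 : W * b = a := Subtype.ext (by push_cast; exact this)
  have h4 : W * b ∈ m := h3 ▸ ha
  rcases (Ideal.IsPrime.mem_or_mem ‹_› h4) with h | h
  · exact hW h
  · exact hb h

end Crest.Agent.R278
end

-- ▼ part R278/Fin

set_option autoImplicit false

namespace Crest.Agent.R278

variable {K : Type*} [Field K] [Algebra ℂ K]

/-- A derivation of `K` which vanishes on a subalgebra vanishes on everything algebraic over it. -/
theorem der_eq_zero_of_isAlgebraic (R₀ : Subalgebra ℂ K) (D : Derivation ℂ K K)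
    (hD : ∀ a ∈ R₀, D a = 0) (x : K) (hx : IsAlgebraic R₀ x) : D x = 0 := by
  obtain ⟨y, hy, hxy⟩ := hx.exists_integral_multiple
  have hy0 : (y : K) ≠ 0 := fun h => hy (Subtype.ext h)
  have hle : R₀ ≤ (⊤ : Subalgebra ℂ K) := le_top
  let E : Derivation ℂ (⊤ : Subalgebra ℂ K) K :=
    (Algebra.linearMap (⊤ : Subalgebra ℂ K) K).compDer (restrictDer ⊤ D (fun _ _ => trivial))
  have h1 : ∀ z ∈ (⊤ : Subalgebra ℂ K), IsIntegral R₀ z → D z = 0 := by
    intro z hz hzi
    have := der_eq_zero_of_isIntegral (⊤ : Subalgebra ℂ K) R₀ hle E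
      (fun a ha => hD a ha) ⟨z, hz⟩ hzi
    exact this
  have h2 : D (y • x) = 0 := h1 _ trivial hxy
  rw [Algebra.smul_def] at h2
  have h3 : algebraMap R₀ K y = (y : K) := rfl
  rw [h3, Derivation.leibniz, hD y y.2, smul_zero, add_zero, smul_eq_mul] at h2
  exact (mul_eq_zero.mp h2).resolve_left hy0

theorem der_eq_zero_on_adjoin (D : Derivation ℂ K K) (S : Set K) (h : ∀ x ∈ S, D x = 0) :
    ∀ a ∈ Algebra.adjoin ℂ S, D a = 0 := by
  intro a ha
  induction ha using Algebra.adjoin_induction with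
  | mem x hx => exact h x hx
  | algebraMap c => exact Derivation.map_algebraMap D c
  | add x y _ _ ihx ihy => rw [map_add, ihx, ihy, add_zero]
  | mul x y _ _ ihx ihy => rw [Derivation.leibniz, ihx, ihy, smul_zero, smul_zero, add_zero]

theorem algebraicIndependent_of_minor (D₁ D₂ : Derivation ℂ K K) (s t : K)
    (h : minor D₁ D₂ s t ≠ 0) : AlgebraicIndependent ℂ ![s, t] := by
  rw [AlgebraicIndependent.iff_transcendental_adjoin_image (x := ![s, t]) (1 : Fin 2)]
  have himg : (![s, t] '' ({1}ᶜ : Set (Fin 2))) = {s} := by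
    ext z
    simp only [Set.mem_image, Set.mem_compl_iff, Set.mem_singleton_iff]
    constructor
    · rintro ⟨i, hi, rfl⟩
      fin_cases i
      · rfl
      · exact absurd rfl hi
    · rintro rfl
      exact ⟨0, by simp, rfl⟩
  constructor
  · -- s is transcendental
    have hs : Transcendental ℂ s := by
      intro hs
      have hs' : IsAlgebraic (⊥ : Subalgebra ℂ K) s :=
        hs.extendScalars (algebraMap ℂ (⊥ : Subalgebra ℂ K)).injective
      have hz : ∀ D : Derivation ℂ K K, D s = 0 := by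
        intro D
        refine der_eq_zero_of_isAlgebraic ⊥ D ?_ s hs'
        intro a ha
        obtain ⟨c, rfl⟩ := Algebra.mem_bot.mp ha
        exact Derivation.map_algebraMap D c
      apply h
      unfold minor
      rw [hz D₁, hz D₂]
      ring
    have huniq : Subsingleton {j : Fin 2 // j ≠ 1} := by
      constructor
      rintro ⟨i, hi⟩ ⟨j, hj⟩
      apply Subtype.ext
      change i = j
      omega
    exact (algebraicIndependent_singleton_iff (⟨0, by simp⟩ : {j : Fin 2 // j ≠ 1})).mpr hs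
  · rw [himg]
    change Transcendental (Algebra.adjoin ℂ {s}) t
    intro ht
    -- E = D₂ s • D₁ - D₁ s • D₂ kills s
    let E : Derivation ℂ K K := D₂ s • D₁ - D₁ s • D₂
    have hE : ∀ x, E x = D₂ s * D₁ x - D₁ s * D₂ x := by
      intro x; simp [E]
    have hEs : E s = 0 := by rw [hE]; ring
    have hEt := der_eq_zero_of_isAlgebraic (Algebra.adjoin ℂ {s}) E
      (der_eq_zero_on_adjoin E {s} (by rintro x rfl; exact hEs)) t ht
    apply h
    rw [hE] at hEt
    unfold minor
    linear_combination -hEt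

omit [Field K] [Algebra ℂ K] in
theorem range_pair (s t : K) : Set.range ![s, t] = {s, t} := by
  ext z
  simp only [Set.mem_range, Set.mem_insert_iff, Set.mem_singleton_iff]
  constructor
  · rintro ⟨i, rfl⟩
    fin_cases i
    · left; rfl
    · right; rfl
  · rintro (rfl | rfl)
    · exact ⟨0, rfl⟩
    · exact ⟨1, rfl⟩

/-- `ℂ[s,t]` is a polynomial ring. -/
noncomputable def adjoinEquiv (s t : K) (h : AlgebraicIndependent ℂ ![s, t]) :
    MvPolynomial (Fin 2) ℂ ≃ₐ[ℂ] Algebra.adjoin ℂ ({s, t} : Set K) :=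
  h.aevalEquiv.trans (Subalgebra.equivOfEq _ _ (by rw [range_pair]))

theorem isAlgebraic_of_gen (s t X Y : K) (h : AlgebraicIndependent ℂ ![s, t])
    [hXY : Algebra.IsAlgebraic (Algebra.adjoin ℂ ({X, Y} : Set K)) K] :
    Algebra.IsAlgebraic (Algebra.adjoin ℂ ({s, t} : Set K)) K := by
  have h2 : Algebra.trdeg ℂ K ≤ Cardinal.mk ({X, Y} : Set K) :=
    Algebra.IsAlgebraic.trdeg_le_cardinalMk ℂ ({X, Y} : Set K)
  have h3 : Cardinal.mk ({X, Y} : Set K) ≤ 2 := by
    have := Cardinal.mk_insert_le (s := ({Y} : Set K)) (a := X)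
    rw [Cardinal.mk_singleton] at this
    refine this.trans ?_
    norm_num
  have h4 : IsTranscendenceBasis ℂ ![s, t] := by
    refine h.isTranscendenceBasis_of_lift_trdeg_le_of_finite ?_
    have : Cardinal.lift.{0} (Algebra.trdeg ℂ K) ≤ 2 := by
      simpa using h2.trans h3
    simpa using this
  have h5 := h4.isAlgebraic
  rwa [range_pair] at h5

section Main

open IntermediateField.algebraAdjoinAdjoin

/-- Noether normalization data: `A` is the integral closure of `ℂ[s,t]` in `K`. -/
noncomputable def clos (s t : K) : Subalgebra ℂ K :=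
  (integralClosure (Algebra.adjoin ℂ ({s, t} : Set K)) K).restrictScalars ℂ


theorem adjoin_le_clos (s t : K) : Algebra.adjoin ℂ ({s, t} : Set K) ≤ clos s t := by
  intro x hx
  exact isIntegral_algebraMap (R := Algebra.adjoin ℂ ({s, t} : Set K)) (x := ⟨x, hx⟩)

theorem left_mem_clos (s t : K) : s ∈ clos s t :=
  adjoin_le_clos s t (Algebra.subset_adjoin (by simp))

theorem right_mem_clos (s t : K) : t ∈ clos s t :=
  adjoin_le_clos s t (Algebra.subset_adjoin (by simp))

variable (s t : K) (h : AlgebraicIndependent ℂ ![s, t])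

include h in
theorem isNoetherianRing_adjoin : IsNoetherianRing (Algebra.adjoin ℂ ({s, t} : Set K)) :=
  isNoetherianRing_of_ringEquiv _ (adjoinEquiv s t h).toRingEquiv

include h in
theorem isIntegrallyClosed_adjoin : IsIntegrallyClosed (Algebra.adjoin ℂ ({s, t} : Set K)) :=
  IsIntegrallyClosed.of_equiv (adjoinEquiv s t h).toRingEquiv

include h in
theorem ringKrullDim_adjoin : ringKrullDim (Algebra.adjoin ℂ ({s, t} : Set K)) = 2 := by
  rw [← ringKrullDim_eq_of_ringEquiv (adjoinEquiv s t h).toRingEquiv,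
    MvPolynomial.ringKrullDim_of_isNoetherianRing, ringKrullDim_eq_zero_of_field]
  simp

include h in
theorem finiteDimensional_adjoin (X Y : K)
    [hXY : Algebra.IsAlgebraic (Algebra.adjoin ℂ ({X, Y} : Set K)) K]
    (S : Set K) (hSf : S.Finite) (hS : IntermediateField.adjoin ℂ S = ⊤) :
    FiniteDimensional (IntermediateField.adjoin ℂ ({s, t} : Set K)) K := by
  have halg := isAlgebraic_of_gen s t X Y h
  have halg' : Algebra.IsAlgebraic (IntermediateField.adjoin ℂ ({s, t} : Set K)) K :=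
    Algebra.IsAlgebraic.extendScalars (R := Algebra.adjoin ℂ ({s, t} : Set K))
      (FaithfulSMul.algebraMap_injective _ _)
  let K₀ := IntermediateField.adjoin ℂ ({s, t} : Set K)
  have h1 : IntermediateField.adjoin K₀ S = ⊤ := by
    rw [eq_top_iff]
    intro x _
    have hx : x ∈ IntermediateField.adjoin ℂ S := by rw [hS]; trivial
    have hle : IntermediateField.adjoin ℂ S
        ≤ (IntermediateField.adjoin K₀ S).restrictScalars ℂ := by
      rw [IntermediateField.adjoin_le_iff]
      exact IntermediateField.subset_adjoin K₀ S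
    exact hle hx
  have : Finite S := hSf
  have h2 : FiniteDimensional K₀ (IntermediateField.adjoin K₀ S) :=
    IntermediateField.finiteDimensional_adjoin fun x _ =>
      (Algebra.IsAlgebraic.isAlgebraic (R := K₀) x).isIntegral
  rw [h1] at h2
  exact LinearEquiv.finiteDimensional IntermediateField.topEquiv.toLinearEquiv

include h in
theorem clos_finite (hfin : FiniteDimensional (IntermediateField.adjoin ℂ ({s, t} : Set K)) K) :
    Module.Finite (Algebra.adjoin ℂ ({s, t} : Set K))
      (integralClosure (Algebra.adjoin ℂ ({s, t} : Set K)) K) := by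
  have := isNoetherianRing_adjoin s t h
  have := isIntegrallyClosed_adjoin s t h
  exact IsIntegralClosure.finite (Algebra.adjoin ℂ ({s, t} : Set K))
    (IntermediateField.adjoin ℂ ({s, t} : Set K)) K _

end Main

end Crest.Agent.R278
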