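import Mathlib
import Crest.Agent.R278.Fin

-- ▼ part R278/Punct
section

set_option linter.style.haveILetI false

/-! Row 278 (S0421): punctured valuation criterion, integral closures of `ℂ[s,t]`. -/

namespace Crest.Agent.R278

open Polynomial

/-- coefficients of the minimal polynomial over the fraction field lie in any integrally closed
subring over which the element is integral. -/
theorem coeff_minpoly_mem {S F L : Type*} [CommRing S] [IsDomain S] [IsIntegrallyClosed S]
    [Field F] [Algebra S F] [IsFractionRing S F] [Field L] [Algebra F L] [Algebra S L]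
    [IsScalarTower S F L] {f : L} (hf : IsIntegral S f) (i : ℕ) :
    ∃ a : S, algebraMap S F a = (minpoly F f).coeff i := by
  rw [minpoly.isIntegrallyClosed_eq_field_fractions' F hf]
  exact ⟨_, (Polynomial.coeff_map _ _).symm⟩

/-- An element of the field `L` lying in all valuation subrings containing `B` and `s⁻¹` is
such that its minimal polynomial has coefficients in `B[1/s]`. -/
theorem coeff_minpoly_pow_mul {B F L : Type*} [CommRing B] [IsDomain B] [IsIntegrallyClosed B]
    [Field F] [Algebra B F] [IsFractionRing B F] [Field L] [Algebra F L] [Algebra B L]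
    [IsScalarTower B F L] {f : L} (s : B) (hs : s ≠ 0)
    (h : ∀ V : ValuationSubring L, (∀ b : B, algebraMap B L b ∈ V) → (algebraMap B L s)⁻¹ ∈ V →
      f ∈ V) (i : ℕ) :
    ∃ (n : ℕ) (a : B), algebraMap B F s ^ n * (minpoly F f).coeff i = algebraMap B F a := by
  classical
  let S1 := Localization.Away s
  have hle : Submonoid.powers s ≤ nonZeroDivisors B :=
    powers_le_nonZeroDivisors_of_noZeroDivisors hs
  have hinj : Function.Injective (algebraMap B F) := IsFractionRing.injective B F
  have hsF : algebraMap B F s ≠ 0 := by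
    rw [Ne, map_eq_zero_iff _ hinj]; exact hs
  have hu : IsUnit (algebraMap B F s) := hsF.isUnit
  letI : Algebra S1 F := (IsLocalization.Away.lift (S := S1) s hu).toAlgebra
  haveI : IsScalarTower B S1 F := by
    refine IsScalarTower.of_algebraMap_eq fun b => ?_
    change _ = IsLocalization.Away.lift (S := S1) s hu _
    rw [IsLocalization.Away.lift_eq]
  haveI : IsDomain S1 := IsLocalization.isDomain_localization hle
  haveI : IsFractionRing S1 F :=
    IsFractionRing.isFractionRing_of_isDomain_of_isLocalization (Submonoid.powers s) S1 F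
  haveI : IsIntegrallyClosed S1 := isIntegrallyClosed_of_isLocalization S1 (Submonoid.powers s) hle
  letI : Algebra S1 L := ((algebraMap F L).comp (algebraMap S1 F)).toAlgebra
  haveI : IsScalarTower S1 F L := IsScalarTower.of_algebraMap_eq fun b => rfl
  have hBL : ∀ b : B, algebraMap S1 L (algebraMap B S1 b) = algebraMap B L b := by
    intro b
    rw [IsScalarTower.algebraMap_apply S1 F L, ← IsScalarTower.algebraMap_apply B S1 F,
      ← IsScalarTower.algebraMap_apply B F L]
  -- `f` is integral over `S1`
  have hf : IsIntegral S1 f := by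
    set T : Set L := Set.range (algebraMap B L) ∪ {(algebraMap B L s)⁻¹} with hT
    have h1 : f ∈ (⨅ V : {V : ValuationSubring L // T ⊆ V.toSubring}, V.1.toSubring) := by
      rw [Subring.mem_iInf]
      rintro ⟨V, hV⟩
      exact h V (fun b => hV (Or.inl ⟨b, rfl⟩)) (hV (Or.inr rfl))
    rw [iInf_valuationSubring_superset] at h1
    have h2 : IsIntegral (Subring.closure T) f := h1
    -- the closure is contained in the range of S1
    have h3 : Subring.closure T ≤ (algebraMap S1 L).range := by
      rw [Subring.closure_le]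
      rintro x (⟨b, rfl⟩ | rfl)
      · exact ⟨algebraMap B S1 b, hBL b⟩
      · refine ⟨IsLocalization.Away.invSelf s, ?_⟩
        have h4 : algebraMap B S1 s * IsLocalization.Away.invSelf s = 1 :=
          IsLocalization.Away.mul_invSelf s
        have h5 := congrArg (algebraMap S1 L) h4
        rw [map_mul, map_one, hBL] at h5
        exact eq_inv_of_mul_eq_one_right h5
    obtain ⟨p, hpm, hp⟩ := h2
    -- transport monic polynomial
    have h6 : IsIntegral (algebraMap S1 L).range f := by
      refine ⟨p.map (Subring.inclusion h3), hpm.map _, ?_⟩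
      rw [Polynomial.eval₂_map]
      exact hp
    obtain ⟨q, hqm, hq⟩ := h6
    have h7 : IsIntegral (algebraMap S1 L).range f := ⟨q, hqm, hq⟩
    -- lift through the surjection onto range
    have hsurj : Function.Surjective (algebraMap S1 L).rangeRestrict :=
      RingHom.rangeRestrict_surjective _
    obtain ⟨r, hr1, hr2, hr3⟩ := Polynomial.lifts_and_degree_eq_and_monic
      (f := (algebraMap S1 L).rangeRestrict) ((Polynomial.mem_lifts q).2
        (by
          obtain ⟨r, hr⟩ := Polynomial.map_surjective _ hsurj q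
          exact ⟨r, hr⟩)) hqm
    refine ⟨r, hr3, ?_⟩
    have : algebraMap S1 L = (algebraMap (algebraMap S1 L).range L).comp
        (algebraMap S1 L).rangeRestrict := rfl
    rw [this, ← Polynomial.eval₂_map, hr1]
    exact hq
  obtain ⟨a, ha⟩ := coeff_minpoly_mem (F := F) hf i
  obtain ⟨n, b, hb⟩ := IsLocalization.Away.surj s a
  refine ⟨n, b, ?_⟩
  rw [← ha]
  have := congrArg (algebraMap S1 F) hb
  rw [map_mul, map_pow, ← IsScalarTower.algebraMap_apply B S1 F,
    ← IsScalarTower.algebraMap_apply B S1 F] at this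
  rw [mul_comm]
  exact this

/-- **Punctured valuation criterion.** `B` normal, `s, t ∈ B` with
`s^n a = t^m b → s^n ∣ b`-type property (relatively prime). -/
theorem isIntegral_of_forall_valuationSubring {B L : Type*} [CommRing B] [IsDomain B]
    [IsIntegrallyClosed B] [DecompositionMonoid B]
    [Field L] [Algebra B L] [FaithfulSMul B L] [Algebra.IsAlgebraic B L] {s t : B} (hs : s ≠ 0)
    (ht : t ≠ 0) (hst : IsRelPrime s t) {f : L}
    (h : ∀ V : ValuationSubring L, (∀ b : B, algebraMap B L b ∈ V) →
      ((algebraMap B L s)⁻¹ ∈ V ∨ (algebraMap B L t)⁻¹ ∈ V) → f ∈ V) :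
    IsIntegral B f := by
  classical
  let F := FractionRing B
  letI : Algebra F L := FractionRing.liftAlgebra B L
  haveI : IsScalarTower B F L := inferInstance
  haveI : Algebra.IsAlgebraic F L := Algebra.IsAlgebraic.extendScalars (R := B) (S := F) (IsFractionRing.injective B F)
  have hfi : IsIntegral F f := Algebra.IsIntegral.isIntegral f
  have hinj : Function.Injective (algebraMap B F) := IsFractionRing.injective B F
  have key : ∀ i, (minpoly F f).coeff i ∈ (algebraMap B F).range := by
    intro i
    obtain ⟨n, a, ha⟩ := coeff_minpoly_pow_mul (F := F) s hs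
      (fun V h1 h2 => h V h1 (Or.inl h2)) i
    obtain ⟨m, b, hb⟩ := coeff_minpoly_pow_mul (F := F) t ht
      (fun V h1 h2 => h V h1 (Or.inr h2)) i
    have h1 : s ^ n * b = t ^ m * a := by
      apply hinj
      rw [map_mul, map_mul, map_pow, map_pow, ← ha, ← hb]
      ring
    have h2 : IsRelPrime (s ^ n) (t ^ m) := hst.pow
    have h3 : s ^ n ∣ a := h2.dvd_of_dvd_mul_left ⟨b, h1.symm⟩
    obtain ⟨c, rfl⟩ := h3
    refine ⟨c, ?_⟩
    have h4 : algebraMap B F s ^ n ≠ 0 :=
      pow_ne_zero _ (by rw [Ne, map_eq_zero_iff _ hinj]; exact hs)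
    rw [map_mul, map_pow] at ha
    exact (mul_left_cancel₀ h4 ha).symm
  -- lift the minimal polynomial
  have hlift : minpoly F f ∈ Polynomial.lifts (algebraMap B F) := by
    rw [Polynomial.lifts_iff_coeff_lifts]
    intro i
    obtain ⟨c, hc⟩ := key i
    exact ⟨c, hc⟩
  obtain ⟨r, hr1, hr2, hr3⟩ := Polynomial.lifts_and_degree_eq_and_monic hlift (minpoly.monic hfi)
  refine ⟨r, hr3, ?_⟩
  rw [IsScalarTower.algebraMap_eq B F L, ← Polynomial.eval₂_map, hr1]
  exact minpoly.aeval F f

end Crest.Agent.R278
end

-- ▼ part R278/Cover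

set_option linter.style.haveILetI false
set_option autoImplicit false

/-! Row 278 (S0421): membership in `clos s t` by a cover of the punctured spectrum. -/

namespace Crest.Agent.R278

open MvPolynomial

variable {K : Type} [Field K] [Algebra ℂ K]

/-- the integral closure of `ℂ[G]` in `K`, as a `ℂ`-subalgebra of `K`. -/
noncomputable def intClos (G : Set K) : Subalgebra ℂ K :=
  (integralClosure (Algebra.adjoin ℂ G) K).restrictScalars ℂ

theorem mem_intClos {G : Set K} {f : K} :
    f ∈ intClos G ↔ IsIntegral (Algebra.adjoin ℂ G) f := Iff.rfl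

theorem subset_intClos {G : Set K} {g : K} (hg : g ∈ G) : g ∈ intClos G :=
  isIntegral_algebraMap (R := Algebra.adjoin ℂ G) (x := ⟨g, Algebra.subset_adjoin hg⟩)

theorem clos_eq_intClos (s t : K) : clos s t = intClos {s, t} := rfl

/-- integral elements lie in every valuation subring containing the ring. -/
theorem mem_valuationSubring_of_isIntegral {R : Type*} [CommRing R] [Algebra R K]
    (V : ValuationSubring K) (hR : ∀ r : R, algebraMap R K r ∈ V) {f : K} (hf : IsIntegral R f) :
    f ∈ V := by
  obtain ⟨p, hp1, hp2⟩ := hf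
  have h1 : IsIntegral V f := by
    let j : R →+* V := (algebraMap R K).codRestrict V (fun r => hR r)
    refine ⟨p.map j, hp1.map _, ?_⟩
    rw [Polynomial.eval₂_map]
    exact hp2
  obtain ⟨v, hv⟩ := IsIntegrallyClosed.isIntegral_iff.1 h1
  rw [← hv]
  exact v.2

theorem adjoin_le_valuationSubring (V : ValuationSubring K)
    (hV : ∀ c : ℂ, algebraMap ℂ K c ∈ V) {G : Set K} (hG : ∀ g ∈ G, g ∈ V) :
    ∀ r ∈ Algebra.adjoin ℂ G, r ∈ V := by
  intro r hr
  induction hr using Algebra.adjoin_induction with
  | mem x hx => exact hG x hx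
  | algebraMap c => exact hV c
  | add x y _ _ hx hy => exact V.add_mem _ _ hx hy
  | mul x y _ _ hx hy => exact V.mul_mem _ _ hx hy

theorem intClos_le_valuationSubring (V : ValuationSubring K)
    (hV : ∀ c : ℂ, algebraMap ℂ K c ∈ V) {G : Set K} (hG : ∀ g ∈ G, g ∈ V) :
    ∀ r ∈ intClos G, r ∈ V := by
  intro r hr
  refine mem_valuationSubring_of_isIntegral (R := Algebra.adjoin ℂ G) V ?_ (mem_intClos.1 hr)
  intro r
  exact adjoin_le_valuationSubring V hV hG r.1 r.2

/-- membership in `intClos` by valuation subrings. -/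
theorem mem_intClos_iff_valuationSubring {G : Set K} {f : K} :
    f ∈ intClos G ↔ ∀ V : ValuationSubring K, (∀ c : ℂ, algebraMap ℂ K c ∈ V) →
      (∀ g ∈ G, g ∈ V) → f ∈ V := by
  constructor
  · intro hf V hV hG
    exact intClos_le_valuationSubring V hV hG f hf
  · intro h
    set T : Set K := Set.range (algebraMap ℂ K) ∪ G with hT
    have h1 : f ∈ (⨅ V : {V : ValuationSubring K // T ⊆ V.toSubring}, V.1.toSubring) := by
      rw [Subring.mem_iInf]
      rintro ⟨V, hV⟩
      exact h V (fun b => hV (Or.inl ⟨b, rfl⟩)) (fun g hg => hV (Or.inr hg))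
    rw [iInf_valuationSubring_superset] at h1
    have h2 : IsIntegral (Subring.closure T) f := h1
    obtain ⟨p, hpm, hp⟩ := h2
    have h3 : Subring.closure T ≤ (Algebra.adjoin ℂ G).toSubring := by
      rw [Subring.closure_le]
      rintro x (⟨b, rfl⟩ | hx)
      · exact (Algebra.adjoin ℂ G).algebraMap_mem b
      · exact Algebra.subset_adjoin hx
    refine ⟨p.map (Subring.inclusion h3), hpm.map _, ?_⟩
    rw [Polynomial.eval₂_map]
    exact hp

theorem intClos_mono_of_mem {G G' : Set K} (h : ∀ g ∈ G, g ∈ intClos G') :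
    intClos G ≤ intClos G' := by
  intro f hf
  rw [mem_intClos_iff_valuationSubring]
  intro V hV hG'
  refine intClos_le_valuationSubring V hV (fun g hg => ?_) f hf
  exact intClos_le_valuationSubring V hV hG' g (h g hg)

/-- **membership in `clos s t` by a cover of the punctured spectrum.** -/
theorem mem_clos_of_cover (s t : K) (hst : AlgebraicIndependent ℂ ![s, t])
    [Algebra.IsAlgebraic (Algebra.adjoin ℂ ({s, t} : Set K)) K]
    {ι : Type*} (G : ι → Set K)
    (hcov : ∀ V : ValuationSubring K, (∀ c : ℂ, algebraMap ℂ K c ∈ V) → s ∈ V → t ∈ V →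
      (s⁻¹ ∈ V ∨ t⁻¹ ∈ V) → ∃ l, ∀ g ∈ G l, g ∈ V)
    (k : K) (hk : ∀ l, k ∈ intClos (G l)) : k ∈ clos s t := by
  classical
  have hinj : Function.Injective (aeval ![s, t] : MvPolynomial (Fin 2) ℂ →ₐ[ℂ] K) := hst
  letI : Algebra (MvPolynomial (Fin 2) ℂ) K :=
    ((aeval ![s, t] : MvPolynomial (Fin 2) ℂ →ₐ[ℂ] K) : MvPolynomial (Fin 2) ℂ →+* K).toAlgebra
  have hmap : ∀ b, algebraMap (MvPolynomial (Fin 2) ℂ) K b = aeval ![s, t] b := fun _ => rfl
  haveI : FaithfulSMul (MvPolynomial (Fin 2) ℂ) K := by
    rw [faithfulSMul_iff_algebraMap_injective]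
    exact hinj
  set R := Algebra.adjoin ℂ ({s, t} : Set K) with hR
  let e := adjoinEquiv s t hst
  have he : ∀ b, ((e b : R) : K) = aeval ![s, t] b := by
    intro b
    have h1 := hst.algebraMap_aevalEquiv b
    rw [← h1]
    rfl
  letI : Algebra (MvPolynomial (Fin 2) ℂ) R := (e : MvPolynomial (Fin 2) ℂ →+* R).toAlgebra
  haveI : IsScalarTower (MvPolynomial (Fin 2) ℂ) R K :=
    IsScalarTower.of_algebraMap_eq fun b => (he b).symm
  haveI : Algebra.IsIntegral (MvPolynomial (Fin 2) ℂ) R :=
    Algebra.isIntegral_of_surjective e.surjective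
  haveI : FaithfulSMul (MvPolynomial (Fin 2) ℂ) R := by
    rw [faithfulSMul_iff_algebraMap_injective]
    exact e.injective
  haveI : Algebra.IsAlgebraic (MvPolynomial (Fin 2) ℂ) K :=
    Algebra.IsAlgebraic.trans (MvPolynomial (Fin 2) ℂ) R K
  have hrel : IsRelPrime (X 0 : MvPolynomial (Fin 2) ℂ) (X 1) := by
    have h0 : Prime (X 0 : MvPolynomial (Fin 2) ℂ) := MvPolynomial.X_prime
    rw [h0.irreducible.isRelPrime_iff_not_dvd]
    intro hdvd
    rw [MvPolynomial.X_dvd_X] at hdvd
    exact absurd hdvd (by simp)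
  have key : IsIntegral (MvPolynomial (Fin 2) ℂ) k := by
    refine isIntegral_of_forall_valuationSubring (X_ne_zero 0) (X_ne_zero 1) hrel ?_
    intro V hV1 hV2
    have hs : algebraMap (MvPolynomial (Fin 2) ℂ) K (X 0) = s := by
      rw [hmap, aeval_X]; rfl
    have ht : algebraMap (MvPolynomial (Fin 2) ℂ) K (X 1) = t := by
      rw [hmap, aeval_X]; rfl
    have hVC : ∀ c : ℂ, algebraMap ℂ K c ∈ V := by
      intro c
      have := hV1 (C c)
      rw [hmap, aeval_C] at this
      exact this
    have hsV := hV1 (X 0)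
    have htV := hV1 (X 1)
    rw [hs] at hsV hV2
    rw [ht] at htV hV2
    obtain ⟨l, hl⟩ := hcov V hVC hsV htV hV2
    exact intClos_le_valuationSubring V hVC hl k (hk l)
  exact key.tower_top (A := R)

end Crest.Agent.R278
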