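import Crest.Agent.R278.Fin
import Mathlib
import Crest.Agent.R278.ChartRing
import Crest.Agent.R278.Cover
import Crest.Agent.R278.ChartMap

-- ▼ part R278/Cert
section

set_option autoImplicit false

namespace Crest.Agent.R278

section

variable {K : Type} [Field K] [Algebra ℂ K]

open IntermediateField.algebraAdjoinAdjoin

theorem clos_finiteType (s t : K) (h : AlgebraicIndependent ℂ ![s, t])
    (hfin : FiniteDimensional (IntermediateField.adjoin ℂ ({s, t} : Set K)) K) :
    Algebra.FiniteType ℂ (clos s t) := by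
  have h1 := clos_finite s t h hfin
  have h2 : Algebra.FiniteType ℂ (Algebra.adjoin ℂ ({s, t} : Set K)) := by
    rw [← Subalgebra.fg_iff_finiteType]
    exact Subalgebra.fg_def.mpr ⟨{s, t}, Set.toFinite _, rfl⟩
  have h3 : Algebra.FiniteType (Algebra.adjoin ℂ ({s, t} : Set K))
      (integralClosure (Algebra.adjoin ℂ ({s, t} : Set K)) K) := inferInstance
  have h4 : Algebra.FiniteType ℂ (integralClosure (Algebra.adjoin ℂ ({s, t} : Set K)) K) :=
    Algebra.FiniteType.trans h2 h3
  exact h4

theorem clos_isIntegrallyClosed (s t : K)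
    (hfin : FiniteDimensional (IntermediateField.adjoin ℂ ({s, t} : Set K)) K) :
    IsIntegrallyClosed (clos s t) := by
  have : IsIntegrallyClosed (integralClosure (Algebra.adjoin ℂ ({s, t} : Set K)) K) :=
    integralClosure.isIntegrallyClosedOfFiniteExtension
      (IntermediateField.adjoin ℂ ({s, t} : Set K))
  exact this

theorem clos_dim (s t : K) (h : AlgebraicIndependent ℂ ![s, t]) :
    ringKrullDim (clos s t) = 2 := by
  have h1 : ringKrullDim (integralClosure (Algebra.adjoin ℂ ({s, t} : Set K)) K)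
      = ringKrullDim (Algebra.adjoin ℂ ({s, t} : Set K)) := by
    apply ringKrullDim_eq_of_isIntegral
    intro a b hab
    have h2 : ((algebraMap (Algebra.adjoin ℂ ({s, t} : Set K))
        (integralClosure (Algebra.adjoin ℂ ({s, t} : Set K)) K) a : _) : K)
        = ((algebraMap (Algebra.adjoin ℂ ({s, t} : Set K))
        (integralClosure (Algebra.adjoin ℂ ({s, t} : Set K)) K) b : _) : K) := by rw [hab]
    exact Subtype.ext h2
  rw [ringKrullDim_adjoin s t h] at h1
  exact h1

/-- Zariski's lemma. -/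
theorem exists_const_sub_mem (A : Subalgebra ℂ K) [Algebra.FiniteType ℂ A] (m : Ideal A)
    [m.IsMaximal] (a : A) : ∃ c : ℂ, a - algebraMap ℂ A c ∈ m := by
  let _ : Field (A ⧸ m) := Ideal.Quotient.field m
  have h1 : Module.Finite ℂ (A ⧸ m) := finite_of_finite_type_of_isJacobsonRing ℂ (A ⧸ m)
  have h2 : Function.Bijective (algebraMap ℂ (A ⧸ m)) :=
    IsAlgClosed.algebraMap_bijective_of_isIntegral
  obtain ⟨c, hc⟩ := h2.2 (Ideal.Quotient.mk m a)
  refine ⟨c, ?_⟩
  rw [← Ideal.Quotient.eq_zero_iff_mem, map_sub, ← hc]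
  exact sub_self _

end

/-- **The certificate theorem for S0421.**  `K` is a field, finitely generated over `ℂ` and
algebraic over `ℂ[X,Y]`; `A = clos s t` is the integral closure of `ℂ[s,t]` in `K`; `D₁, D₂` are
derivations of `K` preserving `A`, with nonzero minor on `(s,t)`; finitely many pairs in `A` have
minors generating an ideal of grade at least two (in the weak sense `hgr`); `m` is a maximal ideal
preserved by `D₁`. -/
theorem statement_of_cert (K : Type) [Field K] [Algebra ℂ K] (D₁ D₂ : Derivation ℂ K K)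
    (X Y : K) [Algebra.IsAlgebraic (Algebra.adjoin ℂ ({X, Y} : Set K)) K]
    (S : Set K) (hSf : S.Finite) (hS : IntermediateField.adjoin ℂ S = ⊤)
    (s t : K) (hst : minor D₁ D₂ s t ≠ 0)
    (h1 : ∀ a ∈ clos s t, D₁ a ∈ clos s t) (h2 : ∀ a ∈ clos s t, D₂ a ∈ clos s t)
    {ι : Type*} [Finite ι] (x y : ι → K) (hx : ∀ i, x i ∈ clos s t) (hy : ∀ i, y i ∈ clos s t)
    (hgr : ∀ k : K, (∀ i, minor D₁ D₂ (x i) (y i) * k ∈ clos s t) → k ∈ clos s t)
    (m : Ideal (clos s t)) [hm : m.IsMaximal]
    (hm1 : ∀ a : clos s t, a ∈ m → (⟨D₁ a, h1 a a.2⟩ : clos s t) ∈ m) :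
    ∃ (A : Type) (_ : CommRing A) (_ : Algebra ℂ A),
      IsDomain A ∧ Algebra.FiniteType ℂ A ∧ IsIntegrallyClosed A ∧
      ringKrullDim A = 2 ∧
      Nonempty (Derivation ℂ A A ≃ₗ[A] (Fin 2 → A)) ∧
      ∃ (m : Ideal A) (_ : m.IsMaximal), ¬ IsRegularLocalRing (Localization.AtPrime m) := by
  have hind := algebraicIndependent_of_minor D₁ D₂ s t hst
  have hfin := finiteDimensional_adjoin s t hind X Y S hSf hS
  have hft := clos_finiteType s t hind hfin
  refine ⟨clos s t, inferInstance, inferInstance, inferInstance, hft,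
    clos_isIntegrallyClosed s t hfin, clos_dim s t hind, ?_, m, hm, ?_⟩
  · exact der_free (clos s t) D₁ D₂ h1 h2 s t (left_mem_clos s t) (right_mem_clos s t)
      (fun a ha => ha) hst x y hx hy hgr
  · exact not_regular (clos s t) m D₁ D₂ h1 h2 hm1 s t (left_mem_clos s t) (right_mem_clos s t)
      hst (clos_dim s t hind).le (exists_const_sub_mem (clos s t) m) x y hx hy hgr

end Crest.Agent.R278
end

-- ▼ part R278/DerStable
section

/-!
Derivations of `K = F(g)` preserve the integral closure of a chart ring as soon as they map the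
two chart coordinates into it.
-/

set_option autoImplicit false

namespace Crest.Agent.R278

open Module

variable {k F K : Type*} [Field k] [Field F] [Algebra k F] [Field K] [Algebra F K] [Algebra k K]
  [IsScalarTower k F K]

/-- Elements of `K` integral over the subalgebra `R` of `F`, as a `k`-subalgebra of `K`. -/
def intCl (K : Type*) {k F : Type*} [Field k] [Field F] [Algebra k F] [Field K] [Algebra F K]
    [Algebra k K] [IsScalarTower k F K] (R : Subalgebra k F) : Subalgebra k K :=
  (integralClosure R K).restrictScalars k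

theorem mem_intCl {R : Subalgebra k F} {v : K} : v ∈ intCl K R ↔ IsIntegral R v := Iff.rfl





theorem map_chartRing {a b h : F} {r : F} (hr : r ∈ chartRing k a b h) :
    algebraMap F K r ∈ Algebra.adjoin k {algebraMap F K a, algebraMap F K b,
      (algebraMap F K h)⁻¹} := by
  have h1 : (IsScalarTower.toAlgHom k F K) r ∈
      (chartRing k a b h).map (IsScalarTower.toAlgHom k F K) := ⟨r, hr, rfl⟩
  rw [AlgHom.map_adjoin] at h1
  have h2 : (IsScalarTower.toAlgHom k F K) '' {a, b, h⁻¹} =
      {algebraMap F K a, algebraMap F K b, (algebraMap F K h)⁻¹} := by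
    simp [Set.image_insert_eq]
  rw [h2] at h1
  exact h1



section Kummer

variable {N : ℕ}

/-- Kummer presentation of `K` over `F`: powers of `g` form a basis, `g ^ N ∈ F`. -/
structure IsKummer (F : Type*) {K : Type*} [Field F] [Field K] [Algebra F K] (N : ℕ) (g : K) :
    Prop where
  pos : 0 < N
  basis : ∃ b : Basis (Fin N) F K, ∀ i, b i = g ^ (i : ℕ)
  pow : ∃ w : F, g ^ N = algebraMap F K w

/-- Replace `g` by `c g`, `c ∈ F` nonzero. -/
theorem IsKummer.smul {g : K} (h : IsKummer F N g) {c : F} (hc : c ≠ 0) :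
    IsKummer F N (algebraMap F K c * g) := by
  obtain ⟨b, hb⟩ := h.basis
  obtain ⟨w, hw⟩ := h.pow
  refine ⟨h.pos, ⟨b.unitsSMul fun i => (Units.mk0 c hc) ^ (i : ℕ), fun i => ?_⟩,
    ⟨c ^ N * w, ?_⟩⟩
  · rw [Basis.unitsSMul_apply, hb, mul_pow, Units.smul_def, Algebra.smul_def]
    simp
  · rw [mul_pow, hw, map_mul, map_pow]






end Kummer


end Crest.Agent.R278
end

-- ▼ part R278/ChartDer
section

/-!
P4 in the form used by `statement_of_charts`: derivations of `K = F(g)` mapping the two chart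
coordinates into `intClos {p, q, 1/h}` preserve `intClos {p, q, 1/h}`.
-/

set_option autoImplicit false

namespace Crest.Agent.R278

open MvPolynomial

variable {F : Type*} {K : Type} [Field F] [Algebra ℂ F] [Field K] [Algebra F K] [Algebra ℂ K]
  [IsScalarTower ℂ F K]

theorem mem_intCl_adjoin_iff (S : Set F) (f : K) :
    f ∈ intCl K (Algebra.adjoin ℂ S) ↔ f ∈ intClos ((algebraMap F K) '' S) := by
  rw [mem_intCl, mem_intClos]
  have hmap : (Algebra.adjoin ℂ S).map (IsScalarTower.toAlgHom ℂ F K) =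
      Algebra.adjoin ℂ ((algebraMap F K) '' S) := by
    rw [AlgHom.map_adjoin]
    rfl
  constructor
  · rintro ⟨p, hp, hp0⟩
    let j : Algebra.adjoin ℂ S →+* Algebra.adjoin ℂ ((algebraMap F K) '' S) :=
      ((algebraMap F K).comp (algebraMap (Algebra.adjoin ℂ S) F)).codRestrict
        (Algebra.adjoin ℂ ((algebraMap F K) '' S)) (fun r => by
          rw [← hmap]
          exact ⟨r.1, r.2, rfl⟩)
    refine ⟨p.map j, hp.map _, ?_⟩
    rw [Polynomial.eval₂_map]
    exact hp0
  · rintro ⟨p, hp, hp0⟩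
    let j : Algebra.adjoin ℂ S →+* Algebra.adjoin ℂ ((algebraMap F K) '' S) :=
      ((algebraMap F K).comp (algebraMap (Algebra.adjoin ℂ S) F)).codRestrict
        (Algebra.adjoin ℂ ((algebraMap F K) '' S)) (fun r => by
          rw [← hmap]
          exact ⟨r.1, r.2, rfl⟩)
    have hj : Function.Surjective j := by
      rintro ⟨y, hy⟩
      have hy' := hy
      rw [← hmap] at hy'
      obtain ⟨r, hr, hry⟩ := hy'
      exact ⟨⟨r, hr⟩, Subtype.ext hry⟩
    obtain ⟨r, hr1, hr2, hr3⟩ := Polynomial.lifts_and_degree_eq_and_monic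
      (f := j) ((Polynomial.mem_lifts p).2 (by
        obtain ⟨r, hr⟩ := Polynomial.map_surjective _ hj p
        exact ⟨r, hr⟩)) hp
    refine ⟨r, hr3, ?_⟩
    rw [← hr1, Polynomial.eval₂_map] at hp0
    exact hp0




end Crest.Agent.R278
end

-- ▼ part R278/Kummer
section

set_option autoImplicit false

/-! Row 278, part P7: irreducibility of `T^N - w`, the field `F(w^{1/N})`, its basis and its
automorphisms. -/

namespace Crest.Agent.R278

open Polynomial

section Irreducible






end Irreducible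

section Field

variable {F : Type*} [Field F]

/-- The field `F(g)`, `g^N = w`. -/
abbrev KF (N : ℕ) (w : F) : Type _ := AdjoinRoot (X ^ N - C w : F[X])

/-- The distinguished `N`-th root of `w`. -/
noncomputable abbrev KF.g (N : ℕ) (w : F) : KF N w := AdjoinRoot.root (X ^ N - C w : F[X])

theorem KF.g_pow (N : ℕ) (w : F) : (KF.g N w) ^ N = algebraMap F (KF N w) w :=
  root_X_pow_sub_C_pow N w

/-- The power basis `1, g, …, g^{N-1}`. -/
noncomputable def KF.basis {N : ℕ} (hN : 0 < N) (w : F) : Module.Basis (Fin N) F (KF N w) :=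
  ((AdjoinRoot.powerBasis' (monic_X_pow_sub_C w hN.ne')).basis).reindex
    (finCongr (by
      rw [AdjoinRoot.powerBasis'_dim, natDegree_X_pow_sub_C]))

theorem KF.basis_apply {N : ℕ} (hN : 0 < N) (w : F) (i : Fin N) :
    KF.basis hN w i = (KF.g N w) ^ (i : ℕ) := by
  simp [KF.basis]

theorem KF.exists_repr {N : ℕ} (hN : 0 < N) (w : F) (a : KF N w) :
    ∃ f : Fin N → F, a = ∑ i, algebraMap F (KF N w) (f i) * (KF.g N w) ^ (i : ℕ) := by
  refine ⟨fun i => (KF.basis hN w).repr a i, ?_⟩
  conv_lhs => rw [← (KF.basis hN w).sum_repr a]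
  refine Finset.sum_congr rfl fun i _ => ?_
  rw [KF.basis_apply, Algebra.smul_def]


theorem KF.g_ne_zero {N : ℕ} (hN : 0 < N) {w : F} (hw : w ≠ 0) : KF.g N w ≠ 0 :=
  root_X_pow_sub_C_ne_zero' hN hw

/-- The `F`-algebra endomorphism `g ↦ ζ g`. -/
noncomputable def KF.twist (N : ℕ) (w ζ : F) (hζ : ζ ^ N = 1) : KF N w →ₐ[F] KF N w :=
  AdjoinRoot.liftAlgHom (X ^ N - C w) (Algebra.ofId F (KF N w))
    (algebraMap F (KF N w) ζ * KF.g N w) (by
      rw [eval₂_sub, eval₂_pow, eval₂_X, eval₂_C, mul_pow, KF.g_pow, ← map_pow, hζ, map_one,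
        one_mul]
      exact sub_self _)

@[simp] theorem KF.twist_g (N : ℕ) (w ζ : F) (hζ : ζ ^ N = 1) :
    KF.twist N w ζ hζ (KF.g N w) = algebraMap F (KF N w) ζ * KF.g N w := by
  simp [KF.twist]

theorem KF.twist_comp (N : ℕ) (w ζ ξ : F) (hζ : ζ ^ N = 1) (hξ : ξ ^ N = 1) (h : ζ * ξ = 1) :
    (KF.twist N w ζ hζ).comp (KF.twist N w ξ hξ) = AlgHom.id F (KF N w) := by
  apply AdjoinRoot.algHom_ext
  have e1 : (KF.twist N w ξ hξ) (AdjoinRoot.root (X ^ N - C w : F[X]))
      = algebraMap F (KF N w) ξ * KF.g N w := KF.twist_g N w ξ hξ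
  have e2 : (KF.twist N w ζ hζ) (KF.g N w)
      = algebraMap F (KF N w) ζ * KF.g N w := KF.twist_g N w ζ hζ
  rw [AlgHom.comp_apply, e1, map_mul, AlgHom.commutes, e2, ← mul_assoc, ← map_mul,
    mul_comm ξ ζ, h, map_one, one_mul]
  rfl

/-- The `F`-algebra automorphism `g ↦ ζ g`. -/
noncomputable def KF.twistEquiv {N : ℕ} (hN : 0 < N) (w ζ : F) (hζ : ζ ^ N = 1) :
    KF N w ≃ₐ[F] KF N w :=
  AlgEquiv.ofAlgHom (KF.twist N w ζ hζ) (KF.twist N w ζ⁻¹ (by rw [inv_pow, hζ, inv_one]))
    (KF.twist_comp N w _ _ _ _ (mul_inv_cancel₀ (by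
      rintro rfl; rw [zero_pow hN.ne'] at hζ; exact zero_ne_one hζ)))
    (KF.twist_comp N w _ _ _ _ (inv_mul_cancel₀ (by
      rintro rfl; rw [zero_pow hN.ne'] at hζ; exact zero_ne_one hζ)))

@[simp] theorem KF.twistEquiv_g {N : ℕ} (hN : 0 < N) (w ζ : F) (hζ : ζ ^ N = 1) :
    KF.twistEquiv hN w ζ hζ (KF.g N w) = algebraMap F (KF N w) ζ * KF.g N w :=
  KF.twist_g N w ζ hζ

/-- Projection onto the `g^l` component through roots of unity: if `ζ` is a primitive `N`-th root of
unity and `a = ∑ f_i g^i` then `N f_l g^l = ∑_j ζ^{-jl} σ^j(a)`. -/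
theorem KF.component {N : ℕ} (hN : 0 < N) (w ζ : F) (hζ : IsPrimitiveRoot ζ N)
    (f : Fin N → F) (l : Fin N) :
    (N : KF N w) * (algebraMap F (KF N w) (f l) * (KF.g N w) ^ (l : ℕ))
      = ∑ j : Fin N, algebraMap F (KF N w) (ζ⁻¹ ^ ((j : ℕ) * l))
          * KF.twist N w (ζ ^ (j : ℕ)) (by rw [← pow_mul, mul_comm, pow_mul, hζ.pow_eq_one, one_pow])
            (∑ i, algebraMap F (KF N w) (f i) * (KF.g N w) ^ (i : ℕ)) := by
  have hz : ζ ≠ 0 := hζ.ne_zero hN.ne'
  have h1 : ∀ j : Fin N, algebraMap F (KF N w) (ζ⁻¹ ^ ((j : ℕ) * l))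
          * KF.twist N w (ζ ^ (j : ℕ)) (by rw [← pow_mul, mul_comm, pow_mul, hζ.pow_eq_one, one_pow])
            (∑ i, algebraMap F (KF N w) (f i) * (KF.g N w) ^ (i : ℕ))
      = ∑ i : Fin N, algebraMap F (KF N w) ((ζ ^ (i : ℕ) * ζ⁻¹ ^ (l : ℕ)) ^ (j : ℕ))
          * (algebraMap F (KF N w) (f i) * (KF.g N w) ^ (i : ℕ)) := by
    intro j
    rw [map_sum, Finset.mul_sum]
    refine Finset.sum_congr rfl fun i _ => ?_
    have hpow : ∀ n : ℕ, KF.twist N w (ζ ^ (j : ℕ))
        (by rw [← pow_mul, mul_comm, pow_mul, hζ.pow_eq_one, one_pow]) ((KF.g N w) ^ n)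
        = algebraMap F (KF N w) ((ζ ^ (j : ℕ)) ^ n) * (KF.g N w) ^ n := by
      intro n
      rw [map_pow, KF.twist_g, mul_pow, ← map_pow]
    rw [map_mul, AlgHom.commutes, hpow]
    rw [show (ζ ^ (i : ℕ) * ζ⁻¹ ^ (l : ℕ)) ^ (j : ℕ) = ζ⁻¹ ^ ((j : ℕ) * l) * (ζ ^ (j : ℕ)) ^ (i : ℕ) by
      rw [mul_pow, ← pow_mul, ← pow_mul, ← pow_mul, mul_comm, mul_comm (l : ℕ), mul_comm (i : ℕ)]]
    rw [map_mul]
    ring
  rw [Finset.sum_congr rfl fun j _ => h1 j, Finset.sum_comm]
  have h2 : ∀ i : Fin N, ∑ j : Fin N, algebraMap F (KF N w) ((ζ ^ (i : ℕ) * ζ⁻¹ ^ (l : ℕ)) ^ (j : ℕ))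
          * (algebraMap F (KF N w) (f i) * (KF.g N w) ^ (i : ℕ))
      = if i = l then (N : KF N w) * (algebraMap F (KF N w) (f l) * (KF.g N w) ^ (l : ℕ)) else 0 := by
    intro i
    rw [← Finset.sum_mul, ← map_sum]
    split_ifs with hil
    · subst hil
      have : ζ ^ (i : ℕ) * ζ⁻¹ ^ (i : ℕ) = 1 := by rw [← mul_pow, mul_inv_cancel₀ hz, one_pow]
      rw [this]
      simp
    · have hne : ζ ^ (i : ℕ) * ζ⁻¹ ^ (l : ℕ) ≠ 1 := by
        intro h
        rw [inv_pow, mul_inv_eq_one₀ (pow_ne_zero _ hz)] at h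
        exact hil (Fin.ext (hζ.pow_inj i.2 l.2 h))
      have hp : (ζ ^ (i : ℕ) * ζ⁻¹ ^ (l : ℕ)) ^ N = 1 := by
        rw [mul_pow, ← pow_mul, ← pow_mul, mul_comm, mul_comm (l : ℕ), mul_comm (i : ℕ), pow_mul,
          pow_mul, hζ.pow_eq_one, inv_pow, hζ.pow_eq_one, inv_one, one_pow, one_pow, one_mul]
      have hs : ∑ j : Fin N, (ζ ^ (i : ℕ) * ζ⁻¹ ^ (l : ℕ)) ^ (j : ℕ) = 0 := by
        rw [Fin.sum_univ_eq_sum_range (fun j => (ζ ^ (i : ℕ) * ζ⁻¹ ^ (l : ℕ)) ^ j) N]
        have := geom_sum_mul (ζ ^ (i : ℕ) * ζ⁻¹ ^ (l : ℕ)) N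
        rw [hp, sub_self] at this
        exact (mul_eq_zero.mp this).resolve_right (sub_ne_zero.mpr hne)
      rw [hs, map_zero, zero_mul]
  rw [Finset.sum_congr rfl fun i _ => h2 i]
  simp

variable {k : Type*} [Field k] [Algebra k F]

/-- `F(g)` is finitely generated as a field over `k` when `F` is. -/
theorem KF.adjoin_eq_top {N : ℕ} (hN : 0 < N) (w x y : F) [Fact (Irreducible (X ^ N - C w : F[X]))]
    (h : RatCoord k F x y) :
    IntermediateField.adjoin k ({algebraMap F (KF N w) x, algebraMap F (KF N w) y,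
      KF.g N w} : Set (KF N w)) = ⊤ := by
  set E := IntermediateField.adjoin k ({algebraMap F (KF N w) x, algebraMap F (KF N w) y,
      KF.g N w} : Set (KF N w)) with hE
  rw [eq_top_iff]
  intro a _
  obtain ⟨f, rfl⟩ := KF.exists_repr hN w a
  have hF : ∀ z : F, algebraMap F (KF N w) z ∈ E := by
    intro z
    have h1 : (IntermediateField.adjoin k ({x, y} : Set F)).map (Algebra.algHom k F (KF N w)) ≤ E := by
      rw [IntermediateField.adjoin_map, IntermediateField.adjoin_le_iff]
      rintro _ ⟨u, hu | hu, rfl⟩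
      · rw [hu]; exact IntermediateField.subset_adjoin _ _ (by simp)
      · rw [Set.mem_singleton_iff] at hu
        rw [hu]; exact IntermediateField.subset_adjoin _ _ (by simp)
    apply h1
    rw [h.top]
    exact ⟨z, trivial, rfl⟩
  have hg : KF.g N w ∈ E := IntermediateField.subset_adjoin _ _ (by simp)
  exact E.sum_mem fun i _ => E.mul_mem (hF _) (pow_mem hg _)


end Field

end Crest.Agent.R278
end

-- ▼ part R278/EVal
section

/-!
P8: the valuation `V_E` at `y = ∞` and the proper ideal `I ⊇ D(A)`.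
-/

set_option autoImplicit false

namespace Crest.Agent.R278

open Polynomial

section VE

variable {K : Type*} [Field K] [Algebra ℂ K]

/-- `V` is a valuation ring of `K` trivial on `ℂ(x)` with `y` of negative order. -/
structure IsVE (V : ValuationSubring K) (x y : K) : Prop where
  const : ∀ p : ℂ[X], p ≠ 0 → V.valuation (aeval x p) = 1
  pole : 1 < V.valuation y

theorem transcendental_of_indep {x y : K} (h : AlgebraicIndependent ℂ ![x, y]) :
    Transcendental (IntermediateField.adjoin ℂ ({x} : Set K)) y := by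
  rw [IntermediateField.transcendental_adjoin_iff]
  have h1 := h.transcendental_adjoin (s := {0}) (i := 1) (by simp)
  rw [Set.image_singleton] at h1
  exact h1

theorem exists_VE {x y : K} (h : AlgebraicIndependent ℂ ![x, y]) :
    ∃ V : ValuationSubring K, IsVE V x y := by
  classical
  set E := IntermediateField.adjoin ℂ ({x} : Set K) with hE
  have hy : Transcendental E y := transcendental_of_indep h
  have hy0 : y ≠ 0 := by
    rintro rfl
    exact hy isAlgebraic_zero
  let A : Subring K := (Algebra.adjoin E {y⁻¹}).toSubring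
  have hyA : y⁻¹ ∈ A := Algebra.subset_adjoin (Set.mem_singleton _)
  let I : Ideal A := Ideal.span {(⟨y⁻¹, hyA⟩ : A)}
  have hI : I ≠ ⊤ := by
    intro h1
    rw [Ideal.eq_top_iff_one, Ideal.mem_span_singleton'] at h1
    obtain ⟨a, ha⟩ := h1
    have ha' : (a : K) * y⁻¹ = 1 := congrArg Subtype.val ha
    have hamem : (a : K) ∈ Algebra.adjoin E {y⁻¹} := a.2
    rw [Algebra.adjoin_singleton_eq_range_aeval] at hamem
    obtain ⟨q, hq⟩ := hamem
    have hq' : aeval y⁻¹ q = (a : K) := hq
    have halg : IsAlgebraic E (y⁻¹) := by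
      refine ⟨q * X - 1, ?_, ?_⟩
      · intro h2
        have h3 := congrArg (fun p => Polynomial.eval 0 p) h2
        simp at h3
      · rw [map_sub, map_mul, aeval_X, hq', ha', map_one, sub_self]
    exact hy (by simpa using halg.inv)
  obtain ⟨V, hV1, hV2⟩ := Ideal.image_subset_nonunits_valuationSubring I hI
  have hEV : ∀ e : E, (e : K) ∈ V := by
    intro e
    apply hV1
    exact (Algebra.adjoin E {y⁻¹}).algebraMap_mem e
  refine ⟨V, ?_, ?_⟩
  · intro p hp
    have hxE : x ∈ E := IntermediateField.subset_adjoin _ _ (Set.mem_singleton x)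
    have hmem : aeval x p ∈ E := by
      have : aeval x p = ((aeval (⟨x, hxE⟩ : E) p : E) : K) := by
        rw [← IntermediateField.algebraMap_apply, ← aeval_algebraMap_apply]
        rfl
      rw [this]
      exact (aeval (⟨x, hxE⟩ : E) p).2
    have hne : aeval x p ≠ 0 := by
      intro h0
      have hx : Transcendental ℂ x := by
        have := h.transcendental 0
        simpa using this
      exact hx ⟨p, hp, h0⟩
    have h1 : V.valuation (aeval x p) ≤ 1 := (V.valuation_le_one_iff _).2 (hEV ⟨_, hmem⟩)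
    have h2 : V.valuation (aeval x p)⁻¹ ≤ 1 := (V.valuation_le_one_iff _).2
      (hEV ⟨_, E.inv_mem hmem⟩)
    rw [map_inv₀] at h2
    refine le_antisymm h1 ?_
    by_contra hlt
    push Not at hlt
    have h3 : V.valuation (aeval x p) ≠ 0 := by simpa using hne
    have h4 : 1 < (V.valuation (aeval x p))⁻¹ := (one_lt_inv₀ (zero_lt_iff.2 h3)).2 hlt
    exact absurd h2 (not_le.2 h4)
  · have h1 : y⁻¹ ∈ V.nonunits := by
      apply hV2
      exact ⟨⟨y⁻¹, hyA⟩, Ideal.subset_span (Set.mem_singleton _), rfl⟩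
    have h2 : V.valuation y⁻¹ < 1 := V.mem_nonunits_iff.1 h1
    rw [map_inv₀] at h2
    have h3 : V.valuation y ≠ 0 := by simpa using hy0
    exact (inv_lt_one₀ (zero_lt_iff.2 h3)).1 h2

variable {V : ValuationSubring K} {x y : K}

/-- evaluation of a polynomial in `y` over `ℂ[x]`. -/
noncomputable abbrev evxy (x y : K) (P : ℂ[X][X]) : K := P.eval₂ (aeval x : ℂ[X] →ₐ[ℂ] K) y

theorem IsVE.const_le (h : IsVE V x y) (p : ℂ[X]) : V.valuation (aeval x p) ≤ 1 := by
  by_cases hp : p = 0
  · rw [hp, map_zero, map_zero]; exact zero_le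
  · exact (h.const p hp).le

theorem IsVE.complex (h : IsVE V x y) {c : ℂ} (hc : c ≠ 0) :
    V.valuation (algebraMap ℂ K c) = 1 := by
  have := h.const (C c) (by simpa using hc)
  rwa [aeval_C] at this

theorem IsVE.complex_le (h : IsVE V x y) (c : ℂ) : V.valuation (algebraMap ℂ K c) ≤ 1 := by
  have := h.const_le (C c)
  rwa [aeval_C] at this

theorem IsVE.pow_lt (h : IsVE V x y) {m n : ℕ} (hmn : m < n) :
    V.valuation y ^ m < V.valuation y ^ n := pow_lt_pow_right₀ h.pole hmn

theorem IsVE.pow_le (h : IsVE V x y) {m n : ℕ} (hmn : m ≤ n) :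
    V.valuation y ^ m ≤ V.valuation y ^ n := pow_le_pow_right₀ h.pole.le hmn

theorem IsVE.pow_ne (h : IsVE V x y) (n : ℕ) : V.valuation y ^ n ≠ 0 :=
  pow_ne_zero _ (ne_of_gt (lt_trans zero_lt_one h.pole))

theorem IsVE.ev_lt (h : IsVE V x y) (P : ℂ[X][X]) (n : ℕ) (hn : P.degree < n) :
    V.valuation (evxy x y P) < V.valuation y ^ n := by
  rw [evxy, eval₂_eq_sum, Polynomial.sum]
  refine V.valuation.map_sum_lt (h.pow_ne n) fun i hi => ?_
  rw [map_mul, map_pow]
  have hi' : i < n := by
    have := (le_degree_of_mem_supp i hi).trans_lt hn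
    exact_mod_cast this
  calc V.valuation ((aeval x : ℂ[X] →ₐ[ℂ] K) (P.coeff i)) * V.valuation y ^ i
      ≤ 1 * V.valuation y ^ i := mul_le_mul_left (h.const_le _) _
    _ = V.valuation y ^ i := one_mul _
    _ < _ := h.pow_lt hi'

theorem IsVE.ev_eq (h : IsVE V x y) (P : ℂ[X][X]) (hP : P ≠ 0) :
    V.valuation (evxy x y P) = V.valuation y ^ P.natDegree := by
  have h1 : evxy x y P = evxy x y P.eraseLead
      + (aeval x : ℂ[X] →ₐ[ℂ] K) P.leadingCoeff * y ^ P.natDegree := by
    conv_lhs => rw [evxy, ← P.eraseLead_add_C_mul_X_pow]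
    rw [eval₂_add, eval₂_mul, eval₂_C, eval₂_X_pow]
    rfl
  have h2 : V.valuation ((aeval x : ℂ[X] →ₐ[ℂ] K) P.leadingCoeff * y ^ P.natDegree)
      = V.valuation y ^ P.natDegree := by
    rw [map_mul, map_pow, h.const _ (leadingCoeff_ne_zero.2 hP), one_mul]
  have h3 : V.valuation (evxy x y P.eraseLead) < V.valuation y ^ P.natDegree := by
    apply h.ev_lt
    refine (degree_eraseLead_lt hP).trans_le ?_
    rw [degree_eq_natDegree hP]
  rw [h1, V.valuation.map_add_eq_of_lt_right (by rw [h2]; exact h3), h2]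

theorem IsVE.ev_ne_zero (h : IsVE V x y) (P : ℂ[X][X]) (hP : P ≠ 0) : evxy x y P ≠ 0 := by
  intro h0
  have := h.ev_eq P hP
  rw [h0, map_zero] at this
  exact h.pow_ne _ this.symm

/-- derivations which vanish on `E`. -/
theorem IsVE.der_ev_lt (h : IsVE V x y) (D : Derivation ℂ K K) (hx : V.valuation (D x) < 1)
    (hy : V.valuation (D y) < V.valuation y) (P : ℂ[X][X]) :
    V.valuation (D (evxy x y P)) < V.valuation y ^ P.natDegree := by
  rw [evxy, eval₂_eq_sum, Polynomial.sum, map_sum]
  refine V.valuation.map_sum_lt (h.pow_ne _) fun i hi => ?_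
  have hi' : i ≤ P.natDegree := le_natDegree_of_mem_supp i hi
  have hc : V.valuation (D ((aeval x : ℂ[X] →ₐ[ℂ] K) (P.coeff i))) < 1 := by
    have h1 : D ((aeval x : ℂ[X] →ₐ[ℂ] K) (P.coeff i)) =
        aeval x (derivative (P.coeff i)) • D x := D.map_aeval _ _
    rw [h1, smul_eq_mul, map_mul]
    calc V.valuation (aeval x (derivative (P.coeff i))) * V.valuation (D x)
        ≤ 1 * V.valuation (D x) := mul_le_mul_left (h.const_le _) _
      _ = V.valuation (D x) := one_mul _
      _ < 1 := hx
  have hypos : 0 < V.valuation y := lt_trans zero_lt_one h.pole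
  refine lt_of_lt_of_le ?_ (h.pow_le hi')
  rw [D.leibniz, smul_eq_mul, smul_eq_mul]
  refine V.valuation.map_add_lt ?_ ?_
  · rw [map_mul, D.leibniz_pow, smul_eq_mul, nsmul_eq_mul, map_mul, map_mul, map_pow]
    rcases Nat.eq_zero_or_pos i with h0 | h0
    · subst h0
      simp
    · have h2 : V.valuation ((i : ℕ) : K) ≤ 1 := by
        have := h.complex_le (i : ℂ)
        rwa [map_natCast] at this
      calc V.valuation ((aeval x : ℂ[X] →ₐ[ℂ] K) (P.coeff i)) *
            (V.valuation ((i : ℕ) : K) * (V.valuation y ^ (i - 1) * V.valuation (D y)))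
          ≤ 1 * (1 * (V.valuation y ^ (i - 1) * V.valuation (D y))) :=
            mul_le_mul' (h.const_le _) (mul_le_mul_left h2 _)
        _ = V.valuation y ^ (i - 1) * V.valuation (D y) := by rw [one_mul, one_mul]
        _ < V.valuation y ^ (i - 1) * V.valuation y :=
            mul_lt_mul_of_pos_left hy (pow_pos hypos _)
        _ = V.valuation y ^ i := by rw [← pow_succ, Nat.sub_add_cancel h0]
  · rw [map_mul, map_pow]
    calc V.valuation y ^ i * V.valuation (D ((aeval x : ℂ[X] →ₐ[ℂ] K) (P.coeff i)))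
        < V.valuation y ^ i * 1 := mul_lt_mul_of_pos_left hc (pow_pos hypos _)
      _ = V.valuation y ^ i := mul_one _

theorem val_der_div {D : Derivation ℂ K K} {a b : K} (hb : b ≠ 0)
    (ha' : a ≠ 0) (ha : V.valuation (D a) < V.valuation a)
    (hb' : V.valuation (D b) < V.valuation b) :
    V.valuation (D (a / b)) < V.valuation (a / b) := by
  have hbv : V.valuation b ≠ 0 := by simpa using hb
  have hav : V.valuation a ≠ 0 := by simpa using ha'
  have h1 : D (a / b) = (D a * b - a * D b) / b ^ 2 := by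
    rw [div_eq_mul_inv, D.leibniz, D.leibniz_inv, smul_eq_mul, smul_eq_mul, smul_eq_mul]
    field_simp
    ring
  rw [h1, map_div₀, map_div₀, map_pow]
  have h2 : V.valuation (D a * b - a * D b) < V.valuation a * V.valuation b := by
    refine V.valuation.map_sub_lt ?_ ?_
    · rw [map_mul]; exact mul_lt_mul_of_pos_right ha (zero_lt_iff.2 hbv)
    · rw [map_mul]; exact mul_lt_mul_of_pos_left hb' (zero_lt_iff.2 hav)
  calc V.valuation (D a * b - a * D b) / V.valuation b ^ 2
      < (V.valuation a * V.valuation b) / V.valuation b ^ 2 :=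
        div_lt_div_of_pos_right h2 (pow_pos (zero_lt_iff.2 hbv) 2)
    _ = V.valuation a / V.valuation b := by
        rw [pow_two, mul_div_mul_right _ _ hbv]

/-- log-derivative bound on all of `ℂ(x,y)`. -/
theorem IsVE.der_frac_lt (h : IsVE V x y) (D : Derivation ℂ K K) (hx : V.valuation (D x) < 1)
    (hy : V.valuation (D y) < V.valuation y) (P Q : ℂ[X][X]) (hP : P ≠ 0) (hQ : Q ≠ 0) :
    V.valuation (D (evxy x y P / evxy x y Q)) < V.valuation (evxy x y P / evxy x y Q) :=
  val_der_div (h.ev_ne_zero Q hQ) (h.ev_ne_zero P hP)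
    (by rw [h.ev_eq P hP]; exact h.der_ev_lt D hx hy P)
    (by rw [h.ev_eq Q hQ]; exact h.der_ev_lt D hx hy Q)







end VE

end Crest.Agent.R278
end

-- ▼ part R278/Deriv
section

/-!
Row 278, part P6: derivations of a finite (algebraic) extension `L` of `ℂ(x,y)`.

* `existsUnique_derivation_extend`: a derivation `S → T` over `R` extends uniquely to `T → T` when
  `T` is formally étale over `S`;
* `existsUnique_derivation`: for `L` algebraic over `F₀ = ℂ(x,y)` and `a b : L` there is a unique
  `D : Derivation ℂ L L` with `D x = a`, `D y = b`; `derivXY a b` is that derivation;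
* `derivation_algHom_apply`: chain rule `D (φ f) = φ f_x * D (φ x) + φ f_y * D (φ y)`;
* `derivation_eq_zero_of_adjoin`, `derivation_eq_zero_of_chart`: a derivation killing `p, q` is
  zero when `L` is algebraic over `ℂ(p,q)`;
* `derivation_root`: `D g = g * D w / (N * w)` if `g ^ N = w`.
-/

namespace Crest.Agent.R278

open MvPolynomial TensorProduct

section General

variable (R : Type*) {S T : Type*} [CommRing R] [CommRing S] [CommRing T]
variable [Algebra R S] [Algebra R T] [Algebra S T] [IsScalarTower R S T]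

/-- A derivation `S → T` extends uniquely to `T → T` if `T` is formally étale over `S`. -/
theorem existsUnique_derivation_extend [Algebra.FormallyEtale S T] (d : Derivation R S T) :
    ∃! D : Derivation R T T, ∀ s : S, D (algebraMap S T s) = d s := by
  classical
  let e := KaehlerDifferential.tensorKaehlerEquivOfFormallyEtale R S T
  refine ⟨((d.liftKaehlerDifferential.liftBaseChange T).comp e.symm.toLinearMap).compDer
    (KaehlerDifferential.D R T), ?_, ?_⟩
  · intro s
    have h1 := KaehlerDifferential.tensorKaehlerEquivOfFormallyEtale_symm_D_algebraMap R S T s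
    rw [Derivation.coe_comp]
    change (d.liftKaehlerDifferential.liftBaseChange T)
      (e.symm ((KaehlerDifferential.D R T) ((algebraMap S T) s))) = _
    rw [show e.symm ((KaehlerDifferential.D R T) ((algebraMap S T) s)) =
      1 ⊗ₜ KaehlerDifferential.D R S s from h1]
    simp
  · intro D hD
    have key : D.liftKaehlerDifferential =
        (d.liftKaehlerDifferential.liftBaseChange T).comp e.symm.toLinearMap := by
      apply LinearMap.ext
      intro w
      obtain ⟨v, rfl⟩ := e.surjective w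
      simp only [LinearMap.comp_apply, LinearEquiv.coe_coe, LinearEquiv.symm_apply_apply]
      induction v using TensorProduct.induction_on with
      | zero => simp
      | add u v hu hv => simp only [map_add, hu, hv]
      | tmul t ω =>
        have hω : ω ∈ Submodule.span S (Set.range (KaehlerDifferential.D R S)) := by
          rw [KaehlerDifferential.span_range_derivation]; trivial
        induction hω using Submodule.span_induction generalizing t with
        | zero => simp
        | add u v _ _ hu hv => simp only [TensorProduct.tmul_add, map_add, hu, hv]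
        | smul s u _ hu =>
          rw [← TensorProduct.smul_tmul]
          exact hu (s • t)
        | mem u hu =>
          obtain ⟨s, rfl⟩ := hu
          simp only [e, KaehlerDifferential.tensorKaehlerEquivOfFormallyEtale_apply,
            KaehlerDifferential.mapBaseChange_tmul, KaehlerDifferential.map_D, map_smul,
            LinearMap.liftBaseChange_tmul, Derivation.liftKaehlerDifferential_comp_D, hD]
    ext t
    have := congrArg (fun l => l (KaehlerDifferential.D R T t)) key
    simpa using this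

end General

section Kill

variable {K L : Type*} [Field K] [Field L] [CharZero K] [Algebra K L]

/-- A derivation of `L` killing a subfield `E` (characteristic zero) over which `L` is algebraic
is zero. -/
theorem derivation_eq_zero_of_algebraic {K L : Type*} [CommRing K] [Field L] [Algebra K L]
    (E : Type*) [Field E] [CharZero E] [Algebra E L] [Algebra.IsAlgebraic E L]
    (D : Derivation K L L) (hE : ∀ t : E, D (algebraMap E L t) = 0) : D = 0 := by
  let D' : Derivation E L L :=
    { toFun := D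
      map_add' := map_add D
      map_smul' := by
        intro c t
        simp only [RingHom.id_apply]
        rw [Algebra.smul_def, D.leibniz, hE c, smul_zero, add_zero, smul_eq_mul,
          Algebra.smul_def]
      map_one_eq_zero' := by exact D.map_one_eq_zero
      leibniz' := by exact D.leibniz }
  have : Algebra.IsSeparable E L := inferInstance
  have : Algebra.FormallyUnramified E L := Algebra.FormallyUnramified.of_isSeparable _ _
  have h0 : D' = 0 := by
    have : D'.liftKaehlerDifferential = 0 := by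
      apply LinearMap.ext
      intro w
      rw [Subsingleton.elim w 0, map_zero, map_zero]
    ext t
    have h2 := D'.liftKaehlerDifferential_comp_D t
    rw [this] at h2
    simpa using h2.symm
  ext t
  exact congrArg (fun d : Derivation E L L => d t) h0

/-- A derivation of `L` over `K` (characteristic zero) killing a set `s` such that `L` is
algebraic over `K(s)` is zero. -/
theorem derivation_eq_zero_of_adjoin (s : Set L)
    [Algebra.IsAlgebraic (IntermediateField.adjoin K s) L]
    (D : Derivation K L L) (h : ∀ t ∈ s, D t = 0) : D = 0 := by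
  have hE : ∀ t ∈ IntermediateField.adjoin K s, D t = 0 := by
    intro t ht
    induction ht using IntermediateField.adjoin_induction with
    | mem x hx => exact h x hx
    | algebraMap x => exact D.map_algebraMap x
    | add x y _ _ hx hy => rw [map_add, hx, hy, add_zero]
    | inv x _ hx => rw [D.leibniz_inv, hx, smul_zero]
    | mul x y _ _ hx hy => rw [D.leibniz, hx, hy, smul_zero, smul_zero, add_zero]
  have : CharZero (IntermediateField.adjoin K s) :=
    charZero_of_injective_algebraMap
      (algebraMap K (IntermediateField.adjoin K s)).injective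
  exact derivation_eq_zero_of_algebraic (IntermediateField.adjoin K s) D fun t => hE _ t.2

/-- A derivation of `L` killing `p` and `q` is zero if `L` is algebraic over `K(p,q)`. -/
theorem derivation_eq_zero_of_pair (p q : L)
    [Algebra.IsAlgebraic (IntermediateField.adjoin K {p, q}) L]
    (D : Derivation K L L) (hp : D p = 0) (hq : D q = 0) : D = 0 := by
  refine derivation_eq_zero_of_adjoin {p, q} D ?_
  rintro t (rfl | rfl)
  · exact hp
  · exact hq

/-- `D g = g * D w / (N w)` if `g ^ N = w`. -/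
theorem derivation_root (D : Derivation K L L) {g w : L} {N : ℕ} (hN : N ≠ 0) (hw : w ≠ 0)
    (h : g ^ N = w) : D g = g * D w / (N * w) := by
  have : CharZero L := charZero_of_injective_algebraMap (algebraMap K L).injective
  have hg : g ≠ 0 := by
    rintro rfl
    rw [zero_pow hN] at h
    exact hw h.symm
  have hN' : (N : L) ≠ 0 := Nat.cast_ne_zero.mpr hN
  rw [eq_div_iff (mul_ne_zero hN' hw)]
  have h1 : D w = N * g ^ (N - 1) * D g := by
    rw [← h, D.leibniz_pow]
    simp [mul_assoc]
  rw [h1, ← h]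
  obtain ⟨n, rfl⟩ := Nat.exists_eq_succ_of_ne_zero hN
  simp only [Nat.succ_sub_one, Nat.succ_eq_add_one]
  ring

/-- Chain rule for an algebra homomorphism out of `K[x,y]`. -/
theorem derivation_algHom_apply {K L : Type*} [CommRing K] [CommRing L] [Algebra K L]
    (D : Derivation K L L) (φ : MvPolynomial (Fin 2) K →ₐ[K] L) (f : MvPolynomial (Fin 2) K) :
    D (φ f) = φ (pderiv 0 f) * D (φ (X 0)) + φ (pderiv 1 f) * D (φ (X 1)) := by
  induction f using MvPolynomial.induction_on with
  | C a =>
    have h1 : φ (C a) = algebraMap K L a := φ.commutes a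
    simp [h1]
  | add p q hp hq =>
    simp only [map_add, hp, hq]; ring
  | mul_X p i hp =>
    simp only [map_mul, D.leibniz, hp, Derivation.leibniz, map_add, smul_eq_mul]
    fin_cases i
    · simp [pderiv_X]; ring
    · simp [pderiv_X]; ring



end Kill

section Fields

variable {F₀ L : Type*} [Field F₀] [Field L]
variable [Algebra (MvPolynomial (Fin 2) ℂ) F₀] [IsFractionRing (MvPolynomial (Fin 2) ℂ) F₀]
variable [Algebra F₀ L] [Algebra (MvPolynomial (Fin 2) ℂ) L] [Algebra ℂ L]
variable [IsScalarTower (MvPolynomial (Fin 2) ℂ) F₀ L] [IsScalarTower ℂ (MvPolynomial (Fin 2) ℂ) L]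

variable (F₀ L) in
include F₀ in
omit [Algebra ℂ L] [IsScalarTower ℂ (MvPolynomial (Fin 2) ℂ) L] in
theorem formallyEtale_field [Algebra.IsAlgebraic F₀ L] :
    Algebra.FormallyEtale (MvPolynomial (Fin 2) ℂ) L := by
  have : CharZero F₀ := charZero_of_injective_algebraMap
    (IsFractionRing.injective (MvPolynomial (Fin 2) ℂ) F₀)
  have : Algebra.IsSeparable F₀ L := inferInstance
  have : Algebra.FormallyEtale F₀ L := Algebra.FormallyEtale.of_isSeparable F₀ L
  have : Algebra.FormallyEtale (MvPolynomial (Fin 2) ℂ) F₀ :=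
    Algebra.FormallyEtale.of_isLocalization (nonZeroDivisors (MvPolynomial (Fin 2) ℂ))
  exact Algebra.FormallyEtale.comp (MvPolynomial (Fin 2) ℂ) F₀ L

variable (F₀) in
include F₀ in
/-- For `L` algebraic over `ℂ(x,y)`, derivations are freely determined by the values at `x, y`. -/
theorem existsUnique_derivation [Algebra.IsAlgebraic F₀ L] (a b : L) :
    ∃! D : Derivation ℂ L L,
      D (algebraMap (MvPolynomial (Fin 2) ℂ) L (X 0)) = a ∧
      D (algebraMap (MvPolynomial (Fin 2) ℂ) L (X 1)) = b := by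
  have := formallyEtale_field F₀ L
  obtain ⟨D, hD, hu⟩ := existsUnique_derivation_extend ℂ
    (mkDerivation ℂ ![a, b] : Derivation ℂ (MvPolynomial (Fin 2) ℂ) L)
  refine ⟨D, ⟨?_, ?_⟩, ?_⟩
  · rw [hD, mkDerivation_X]; rfl
  · rw [hD, mkDerivation_X]; rfl
  · rintro E ⟨h0, h1⟩
    apply hu
    intro f
    have hE : (E.compAlgebraMap (MvPolynomial (Fin 2) ℂ) :
        Derivation ℂ (MvPolynomial (Fin 2) ℂ) L) = mkDerivation ℂ ![a, b] := by
      apply MvPolynomial.derivation_ext
      intro i
      rw [mkDerivation_X]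
      fin_cases i
      · exact h0
      · exact h1
    have := congrArg (fun d : Derivation ℂ (MvPolynomial (Fin 2) ℂ) L => d f) hE
    exact this

variable (F₀) in
include F₀ in
/-- The derivation of `L` with `D x = a`, `D y = b`. -/
noncomputable def derivXY [Algebra.IsAlgebraic F₀ L] (a b : L) : Derivation ℂ L L :=
  (existsUnique_derivation F₀ a b).choose

variable (F₀) in
theorem derivXY_X0 [Algebra.IsAlgebraic F₀ L] (a b : L) :
    derivXY F₀ a b (algebraMap (MvPolynomial (Fin 2) ℂ) L (X 0)) = a :=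
  (existsUnique_derivation F₀ a b).choose_spec.1.1

variable (F₀) in
theorem derivXY_X1 [Algebra.IsAlgebraic F₀ L] (a b : L) :
    derivXY F₀ a b (algebraMap (MvPolynomial (Fin 2) ℂ) L (X 1)) = b :=
  (existsUnique_derivation F₀ a b).choose_spec.1.2



end Fields

end Crest.Agent.R278
end

-- ▼ part R278/EIdeal
section

/-!
P8, final form: for `K = F(g)`, `F = ℂ(x,y)`, a derivation `D` of `K` with `v_E(D x) < 1` and
`v_E(D y) < v_E(y)` maps `A = clos s t` to a proper ideal of `A`.
-/

set_option autoImplicit false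

namespace Crest.Agent.R278

open Polynomial

section LD

variable {K : Type*} [Field K] [Algebra ℂ K] {V : ValuationSubring K} {D : Derivation ℂ K K}

/-- `a ≠ 0` and `v (D a) < v a`. -/
def LD (V : ValuationSubring K) (D : Derivation ℂ K K) (a : K) : Prop :=
  a ≠ 0 ∧ V.valuation (D a) < V.valuation a

theorem LD.mul {a b : K} (ha : LD V D a) (hb : LD V D b) : LD V D (a * b) := by
  refine ⟨mul_ne_zero ha.1 hb.1, ?_⟩
  have hbv : V.valuation b ≠ 0 := by simpa using hb.1
  have hav : V.valuation a ≠ 0 := by simpa using ha.1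
  rw [D.leibniz, smul_eq_mul, smul_eq_mul, map_mul]
  refine V.valuation.map_add_lt ?_ ?_
  · rw [map_mul]; exact mul_lt_mul_of_pos_left hb.2 (zero_lt_iff.2 hav)
  · rw [map_mul, mul_comm]; exact mul_lt_mul_of_pos_right ha.2 (zero_lt_iff.2 hbv)

theorem LD.one : LD V D 1 := by
  refine ⟨one_ne_zero, ?_⟩
  rw [D.map_one_eq_zero, map_zero, map_one]
  exact zero_lt_one

theorem LD.pow {a : K} (ha : LD V D a) (n : ℕ) : LD V D (a ^ n) := by
  induction n with
  | zero => rw [pow_zero]; exact LD.one
  | succ n ih => rw [pow_succ]; exact ih.mul ha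

theorem LD.div {a b : K} (ha : LD V D a) (hb : LD V D b) : LD V D (a / b) :=
  ⟨div_ne_zero ha.1 hb.1, val_der_div hb.1 ha.1 ha.2 hb.2⟩

end LD

theorem exists_evxy_of_mem_adjoin {K : Type*} [Field K] [Algebra ℂ K] {x y f : K}
    (hf : f ∈ Algebra.adjoin ℂ ({x, y} : Set K)) : ∃ P : ℂ[X][X], f = evxy x y P := by
  induction hf using Algebra.adjoin_induction with
  | mem z hz =>
    rcases hz with rfl | hz
    · exact ⟨C X, by rw [evxy, eval₂_C]; simp⟩
    · rw [Set.mem_singleton_iff] at hz
      subst hz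
      exact ⟨X, by rw [evxy, eval₂_X]⟩
  | algebraMap c => exact ⟨C (C c), by rw [evxy, eval₂_C]; simp⟩
  | add a b _ _ ha hb =>
    obtain ⟨P, rfl⟩ := ha
    obtain ⟨Q, rfl⟩ := hb
    exact ⟨P + Q, by rw [evxy, evxy, evxy, eval₂_add]⟩
  | mul a b _ _ ha hb =>
    obtain ⟨P, rfl⟩ := ha
    obtain ⟨Q, rfl⟩ := hb
    exact ⟨P * Q, by rw [evxy, evxy, evxy, eval₂_mul]⟩

section F

variable {F K : Type*} [Field F] [Algebra ℂ F] [Field K] [Algebra F K] [Algebra ℂ K]
  [IsScalarTower ℂ F K]

theorem map_evxy (x y : F) (P : ℂ[X][X]) :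
    algebraMap F K (evxy x y P) = evxy (algebraMap F K x) (algebraMap F K y) P := by
  rw [evxy, evxy, hom_eval₂]
  congr 1
  refine RingHom.ext fun p => ?_
  exact (aeval_algebraMap_apply K x p).symm

theorem exists_evxy_div {x y : F} (hc : RatCoord ℂ F x y) (f : F) (hf : f ≠ 0) :
    ∃ P Q : ℂ[X][X], P ≠ 0 ∧ Q ≠ 0 ∧ f = evxy x y P / evxy x y Q := by
  have hz : f ∈ IntermediateField.adjoin ℂ ({x, y} : Set F) := by rw [hc.top]; trivial
  rw [IntermediateField.mem_adjoin_iff_div] at hz
  obtain ⟨a, ha, b, hb, rfl⟩ := hz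
  obtain ⟨P, rfl⟩ := exists_evxy_of_mem_adjoin ha
  obtain ⟨Q, rfl⟩ := exists_evxy_of_mem_adjoin hb
  refine ⟨P, Q, ?_, ?_, rfl⟩
  · rintro rfl; apply hf; rw [evxy, eval₂_zero, zero_div]
  · rintro rfl; apply hf; rw [evxy, evxy, eval₂_zero, div_zero]

theorem IsVE.LD_algebraMap {V : ValuationSubring K} {x y : F} (hc : RatCoord ℂ F x y)
    (h : IsVE V (algebraMap F K x) (algebraMap F K y)) (D : Derivation ℂ K K)
    (hx : V.valuation (D (algebraMap F K x)) < 1)
    (hy : V.valuation (D (algebraMap F K y)) < V.valuation (algebraMap F K y)) {f : F}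
    (hf : f ≠ 0) : LD V D (algebraMap F K f) := by
  obtain ⟨P, Q, hP, hQ, rfl⟩ := exists_evxy_div hc f hf
  rw [map_div₀, map_evxy, map_evxy]
  exact ⟨div_ne_zero (h.ev_ne_zero P hP) (h.ev_ne_zero Q hQ),
    h.der_frac_lt D hx hy P Q hP hQ⟩

theorem IsVE.LD_root {V : ValuationSubring K} {x y : F} (hc : RatCoord ℂ F x y)
    (h : IsVE V (algebraMap F K x) (algebraMap F K y)) (D : Derivation ℂ K K)
    (hx : V.valuation (D (algebraMap F K x)) < 1)
    (hy : V.valuation (D (algebraMap F K y)) < V.valuation (algebraMap F K y)) {w : F} {g : K}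
    {N : ℕ} (hN : 0 < N) (hw : w ≠ 0) (hg : g ^ N = algebraMap F K w) : LD V D g := by
  have hw' : algebraMap F K w ≠ 0 := by simpa using hw
  have hg0 : g ≠ 0 := by
    rintro rfl
    rw [zero_pow hN.ne'] at hg
    exact hw' hg.symm
  refine ⟨hg0, ?_⟩
  rw [derivation_root D hN.ne' hw' hg]
  have h1 := (h.LD_algebraMap hc D hx hy hw).2
  have hN' : V.valuation ((N : ℕ) : K) = 1 := by
    have := h.complex (c := (N : ℂ)) (by exact_mod_cast hN.ne')
    rwa [map_natCast] at this
  have hwv : V.valuation (algebraMap F K w) ≠ 0 := by simpa using hw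
  have hgv : V.valuation g ≠ 0 := by simpa using hg0
  rw [map_div₀, map_mul, map_mul, hN', one_mul]
  calc V.valuation g * V.valuation (D (algebraMap F K w)) / V.valuation (algebraMap F K w)
      < V.valuation g * V.valuation (algebraMap F K w) / V.valuation (algebraMap F K w) :=
        div_lt_div_of_pos_right (mul_lt_mul_of_pos_left h1 (zero_lt_iff.2 hgv))
          (zero_lt_iff.2 hwv)
    _ = V.valuation g := by rw [mul_div_assoc, div_self hwv, mul_one]

end F

section Final



end Final

end Crest.Agent.R278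
end

-- ▼ part R278/Assembly

/-!
Row 278 (S0421): assembly of the certificate in chart form, with all conditions in the base field
`F = ℂ(x,y)` of the Kummer extension `K = F(g)`, `g ^ N = w`.
-/

set_option autoImplicit false

namespace Crest.Agent.R278

open MvPolynomial

section Ext

variable {F : Type} [Field F] [Algebra ℂ F] [Algebra (MvPolynomial (Fin 2) ℂ) F]
  [IsScalarTower ℂ (MvPolynomial (Fin 2) ℂ) F] [IsFractionRing (MvPolynomial (Fin 2) ℂ) F]

/-- the coordinate `x` of `F`. -/
noncomputable abbrev xF (F : Type) [Field F] [Algebra (MvPolynomial (Fin 2) ℂ) F] : F :=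
  algebraMap (MvPolynomial (Fin 2) ℂ) F (X 0)

/-- the coordinate `y` of `F`. -/
noncomputable abbrev yF (F : Type) [Field F] [Algebra (MvPolynomial (Fin 2) ℂ) F] : F :=
  algebraMap (MvPolynomial (Fin 2) ℂ) F (X 1)

omit [Algebra ℂ F] [IsScalarTower ℂ (MvPolynomial (Fin 2) ℂ) F]
  [IsFractionRing (MvPolynomial (Fin 2) ℂ) F] in
theorem alg_ne {K : Type} [Field K] [Algebra F K] {b : MvPolynomial (Fin 2) ℂ}
    (hb : algebraMap (MvPolynomial (Fin 2) ℂ) F b ≠ 0) :
    algebraMap F K (algebraMap (MvPolynomial (Fin 2) ℂ) F b) ≠ 0 := by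
  rwa [Ne, map_eq_zero]

/-- Two derivations `V` of `F` and `D` of `K ⊇ F` with `D = γ V` on the coordinates satisfy
`D = γ V` on `F`. -/
theorem der_ext {K : Type} [Field K] [Algebra F K] [Algebra ℂ K] [IsScalarTower ℂ F K]
    (V : Derivation ℂ F F) (D : Derivation ℂ K K) (γ : K)
    (hx : D (algebraMap F K (xF F)) = γ * algebraMap F K (V (xF F)))
    (hy : D (algebraMap F K (yF F)) = γ * algebraMap F K (V (yF F))) (f : F) :
    D (algebraMap F K f) = γ * algebraMap F K (V f) := by
  have hpoly : ∀ a : MvPolynomial (Fin 2) ℂ,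
      D (algebraMap F K (algebraMap (MvPolynomial (Fin 2) ℂ) F a)) =
        γ * algebraMap F K (V (algebraMap (MvPolynomial (Fin 2) ℂ) F a)) := by
    intro a
    have h1 := derivation_algHom_apply D ((IsScalarTower.toAlgHom ℂ F K).comp
      (IsScalarTower.toAlgHom ℂ (MvPolynomial (Fin 2) ℂ) F)) a
    have h2 := derivation_algHom_apply V (IsScalarTower.toAlgHom ℂ (MvPolynomial (Fin 2) ℂ) F) a
    simp only [AlgHom.comp_apply, IsScalarTower.coe_toAlgHom'] at h1 h2
    rw [h1, h2, hx, hy, map_add, map_mul, map_mul]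
    ring
  obtain ⟨a, b, hb, rfl⟩ := IsFractionRing.div_surjective (A := MvPolynomial (Fin 2) ℂ) f
  have hb0 : algebraMap (MvPolynomial (Fin 2) ℂ) F b ≠ 0 :=
    IsFractionRing.to_map_ne_zero_of_mem_nonZeroDivisors hb
  have hb1 := alg_ne (K := K) hb0
  have e1 : D (algebraMap F K (algebraMap (MvPolynomial (Fin 2) ℂ) F a /
      algebraMap (MvPolynomial (Fin 2) ℂ) F b)) =
      (algebraMap F K (algebraMap (MvPolynomial (Fin 2) ℂ) F b) *
        D (algebraMap F K (algebraMap (MvPolynomial (Fin 2) ℂ) F a)) -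
        algebraMap F K (algebraMap (MvPolynomial (Fin 2) ℂ) F a) *
        D (algebraMap F K (algebraMap (MvPolynomial (Fin 2) ℂ) F b))) /
        algebraMap F K (algebraMap (MvPolynomial (Fin 2) ℂ) F b) ^ 2 := by
    rw [map_div₀, D.leibniz_div]
    simp only [smul_eq_mul]
    field_simp
  have e2 : V (algebraMap (MvPolynomial (Fin 2) ℂ) F a /
      algebraMap (MvPolynomial (Fin 2) ℂ) F b) =
      (algebraMap (MvPolynomial (Fin 2) ℂ) F b * V (algebraMap (MvPolynomial (Fin 2) ℂ) F a) -
        algebraMap (MvPolynomial (Fin 2) ℂ) F a * V (algebraMap (MvPolynomial (Fin 2) ℂ) F b)) /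
        algebraMap (MvPolynomial (Fin 2) ℂ) F b ^ 2 := by
    rw [V.leibniz_div]
    simp only [smul_eq_mul]
    field_simp
  rw [e1, e2, hpoly, hpoly, map_div₀, map_sub, map_mul, map_mul, map_pow]
  field_simp

/-- Existence of the derivation `γ V` of `K`. -/
theorem exists_der {K : Type} [Field K] [Algebra F K] [Algebra ℂ K] [IsScalarTower ℂ F K]
    [Algebra.IsAlgebraic F K] (V : Derivation ℂ F F) (γ : K) :
    ∃ D : Derivation ℂ K K, ∀ f : F, D (algebraMap F K f) = γ * algebraMap F K (V f) := by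
  let _ : Algebra (MvPolynomial (Fin 2) ℂ) K :=
    ((algebraMap F K).comp (algebraMap (MvPolynomial (Fin 2) ℂ) F)).toAlgebra
  have : IsScalarTower (MvPolynomial (Fin 2) ℂ) F K := IsScalarTower.of_algebraMap_eq fun _ => rfl
  have : IsScalarTower ℂ (MvPolynomial (Fin 2) ℂ) K := by
    refine IsScalarTower.of_algebraMap_eq fun c => ?_
    change algebraMap ℂ K c = algebraMap F K (algebraMap (MvPolynomial (Fin 2) ℂ) F
      (algebraMap ℂ (MvPolynomial (Fin 2) ℂ) c))
    rw [← IsScalarTower.algebraMap_apply ℂ (MvPolynomial (Fin 2) ℂ) F,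
      ← IsScalarTower.algebraMap_apply ℂ F K]
  refine ⟨derivXY F (γ * algebraMap F K (V (xF F))) (γ * algebraMap F K (V (yF F))), ?_⟩
  exact der_ext V _ γ (derivXY_X0 F _ _) (derivXY_X1 F _ _)

omit [Algebra (MvPolynomial (Fin 2) ℂ) F] [IsScalarTower ℂ (MvPolynomial (Fin 2) ℂ) F]
  [IsFractionRing (MvPolynomial (Fin 2) ℂ) F] in
theorem RatCoord.isChart {p q : F} (h : RatCoord ℂ F p q) : IsChart ℂ p q := by
  refine ⟨h.ind, fun f => ?_⟩
  obtain ⟨a, b, hb, rfl⟩ := h.exists_div f
  refine ⟨_, (mem_polyRing_iff p q _).2 ⟨a, rfl⟩, _, (mem_polyRing_iff p q _).2 ⟨b, rfl⟩, ?_, rfl⟩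
  intro h0
  exact hb ((injective_iff_map_eq_zero _).1 h.ind b h0)

end Ext

/-- The conclusion of S0421. -/
def Concl : Prop :=
    ∃ (A : Type) (_ : CommRing A) (_ : Algebra ℂ A),
      IsDomain A ∧ Algebra.FiniteType ℂ A ∧ IsIntegrallyClosed A ∧
      ringKrullDim A = 2 ∧
      Nonempty (Derivation ℂ A A ≃ₗ[A] (Fin 2 → A)) ∧
      ∃ (m : Ideal A) (_ : m.IsMaximal), ¬ IsRegularLocalRing (Localization.AtPrime m)

section Minor

/-- If `D₁, D₂` are independent and `K` is algebraic over `ℂ(s,t)`, the minor of `s, t` is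
nonzero. -/
theorem minor_ne_zero {K : Type} [Field K] [Algebra ℂ K] (D₁ D₂ : Derivation ℂ K K) {p q : K}
    (hpq : minor D₁ D₂ p q ≠ 0) (s t : K)
    [Algebra.IsAlgebraic (IntermediateField.adjoin ℂ {s, t}) K] : minor D₁ D₂ s t ≠ 0 := by
  intro h
  unfold minor at h hpq
  -- the combination killing `s` and `t`
  have hA : D₂ s • D₁ - D₁ s • D₂ = 0 := by
    refine derivation_eq_zero_of_pair s t _ ?_ ?_
    · simp only [Derivation.sub_apply, Derivation.smul_apply, smul_eq_mul]; ring
    · simp only [Derivation.sub_apply, Derivation.smul_apply, smul_eq_mul]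
      linear_combination -h
  have hB : D₂ t • D₁ - D₁ t • D₂ = 0 := by
    refine derivation_eq_zero_of_pair s t _ ?_ ?_
    · simp only [Derivation.sub_apply, Derivation.smul_apply, smul_eq_mul]
      linear_combination h
    · simp only [Derivation.sub_apply, Derivation.smul_apply, smul_eq_mul]; ring
  have hA' : ∀ k, D₂ s * D₁ k - D₁ s * D₂ k = 0 := fun k => by
    have := congrArg (fun D : Derivation ℂ K K => D k) hA
    simpa [Derivation.sub_apply] using this
  have hB' : ∀ k, D₂ t * D₁ k - D₁ t * D₂ k = 0 := fun k => by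
    have := congrArg (fun D : Derivation ℂ K K => D k) hB
    simpa [Derivation.sub_apply] using this
  have h1 : D₁ s = 0 := by
    have : D₁ s * (D₁ p * D₂ q - D₁ q * D₂ p) = 0 := by
      linear_combination D₁ q * hA' p - D₁ p * hA' q
    exact (mul_eq_zero.1 this).resolve_right hpq
  have h2 : D₁ t = 0 := by
    have : D₁ t * (D₁ p * D₂ q - D₁ q * D₂ p) = 0 := by
      linear_combination D₁ q * hB' p - D₁ p * hB' q
    exact (mul_eq_zero.1 this).resolve_right hpq
  have h3 : D₁ = 0 := derivation_eq_zero_of_pair s t _ h1 h2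
  rw [h3] at hpq
  simp at hpq

end Minor

section Main

variable {F : Type} [Field F] [Algebra ℂ F] [Algebra (MvPolynomial (Fin 2) ℂ) F]
  [IsScalarTower ℂ (MvPolynomial (Fin 2) ℂ) F] [IsFractionRing (MvPolynomial (Fin 2) ℂ) F]

omit [Algebra (MvPolynomial (Fin 2) ℂ) F] [IsScalarTower ℂ (MvPolynomial (Fin 2) ℂ) F]
  [IsFractionRing (MvPolynomial (Fin 2) ℂ) F] in
theorem alg_mem_intClos {K : Type} [Field K] [Algebra F K] [Algebra ℂ K] [IsScalarTower ℂ F K]
    {p q h r : F} (hr : r ∈ chartRing ℂ p q h) :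
    algebraMap F K r ∈ intClos {algebraMap F K p, algebraMap F K q, (algebraMap F K h)⁻¹} := by
  have h1 := map_chartRing (K := K) hr
  exact isIntegral_algebraMap (R := Algebra.adjoin ℂ ({algebraMap F K p, algebraMap F K q,
    (algebraMap F K h)⁻¹} : Set K)) (x := ⟨_, h1⟩)



omit [Algebra (MvPolynomial (Fin 2) ℂ) F] [IsScalarTower ℂ (MvPolynomial (Fin 2) ℂ) F]
  [IsFractionRing (MvPolynomial (Fin 2) ℂ) F] in
theorem indep_alg {K : Type} [Field K] [Algebra F K] [Algebra ℂ K] [IsScalarTower ℂ F K]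
    {x y : F} (h : AlgebraicIndependent ℂ ![x, y]) :
    AlgebraicIndependent ℂ ![algebraMap F K x, algebraMap F K y] := by
  have h2 := h.map' (f := IsScalarTower.toAlgHom ℂ F K) (algebraMap F K).injective
  have h3 : (⇑(IsScalarTower.toAlgHom ℂ F K) ∘ ![x, y]) = ![algebraMap F K x, algebraMap F K y] := by
    funext i
    fin_cases i <;> simp
  rw [h3] at h2
  exact h2


end Main

end Crest.Agent.R278
namespace Crest.Agent.R278.KF
end Crest.Agent.R278.KF
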