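import Mathlib
import Crest.Agent.R278.Cover
import Crest.Agent.R278.ChartRing

-- ▼ part R278/Classify
section

set_option linter.style.haveILetI false
set_option autoImplicit false

/-! Row 278 (S0421): classification of the valuation rings of the punctured germ. -/

namespace Crest.Agent.R278

open MvPolynomial

/-- `ℂ[x,y]` -/
abbrev P2 := MvPolynomial (Fin 2) ℂ

/-- `p(y)` as an element of `ℂ[x,y]` -/
noncomputable def liftY (p : Polynomial ℂ) : P2 := Polynomial.aeval (X 1 : P2) p

/-- The plane curve data of the construction. -/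
structure PlaneData where
  r : ℕ
  r_pos : 0 < r
  a : Fin r → ℂ
  a_inj : Function.Injective a
  a_ne : ∀ i, a i ≠ 0
  M : Fin r → ℕ
  M_pos : ∀ i, 0 < M i
  n : ℕ
  n_pos : 0 < n
  z : P2
  z_deg : z.totalDegree ≤ n + ∑ i, M i
  z_y : z.coeff (Finsupp.single 1 (n + ∑ i, M i)) ≠ 0
  z_0 : z.coeff 0 ≠ 0
  p : Fin r → Polynomial ℂ
  p_monic : ∀ i, (p i).Monic
  p_sep : ∀ i, (p i).Separable
  c : Fin r → ℂ
  c_ne : ∀ i, c i ≠ 0
  w : Fin r → ℕ → P2
  hw : ∀ i, z = C (c i) * liftY (p i) ^ M i + ∑ k ∈ Finset.range (M i),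
    (X 0 - C (a i)) ^ (k + 1) * liftY (p i) ^ (M i - 1 - k) * w i k

variable {K : Type} [Field K] [Algebra ℂ K]

section valuation

variable (V : ValuationSubring K)

theorem val_const (hV : ∀ c : ℂ, algebraMap ℂ K c ∈ V) {c : ℂ} (hc : c ≠ 0) :
    V.valuation (algebraMap ℂ K c) = 1 := by
  apply le_antisymm
  · exact (V.valuation_le_one_iff _).2 (hV c)
  · have h1 := (V.valuation_le_one_iff _).2 (hV c⁻¹)
    rw [map_inv₀, map_inv₀] at h1
    have hne : V.valuation (algebraMap ℂ K c) ≠ 0 := by
      rw [V.valuation.ne_zero_iff, Ne, map_eq_zero]; exact hc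
    exact (inv_le_one₀ (zero_lt_iff.2 hne)).1 h1

theorem val_const_le (hV : ∀ c : ℂ, algebraMap ℂ K c ∈ V) (c : ℂ) :
    V.valuation (algebraMap ℂ K c) ≤ 1 := (V.valuation_le_one_iff _).2 (hV c)

theorem aeval_mem (hV : ∀ c : ℂ, algebraMap ℂ K c ∈ V) {x y : K} (hx : x ∈ V) (hy : y ∈ V)
    (P : P2) : aeval ![x, y] P ∈ V := by
  induction P using MvPolynomial.induction_on with
  | C a => rw [aeval_C]; exact hV a
  | add p q hp hq => rw [map_add]; exact V.add_mem _ _ hp hq
  | mul_X p i hp =>
    rw [map_mul, aeval_X]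
    refine V.mul_mem _ _ hp ?_
    fin_cases i
    · exact hx
    · exact hy

theorem aeval_liftY {x y : K} (p : Polynomial ℂ) :
    aeval ![x, y] (liftY p) = Polynomial.aeval y p := by
  rw [liftY, ← Polynomial.aeval_algHom_apply, aeval_X]
  rfl

/-- if `v(x - a) < 1` then `v(x - b) = 1` for `b ≠ a`. -/
theorem val_sub_const (hV : ∀ c : ℂ, algebraMap ℂ K c ∈ V) {x : K} {a b : ℂ} (hab : a ≠ b)
    (h : V.valuation (x - algebraMap ℂ K a) < 1) : V.valuation (x - algebraMap ℂ K b) = 1 := by
  have h1 : x - algebraMap ℂ K b = (x - algebraMap ℂ K a) + algebraMap ℂ K (a - b) := by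
    rw [map_sub]; ring
  have h2 : V.valuation (algebraMap ℂ K (a - b)) = 1 := val_const V hV (sub_ne_zero.2 hab)
  rw [h1, Valuation.map_add_eq_of_lt_right _ (by rw [h2]; exact h), h2]


theorem val_aeval_eq_of_dominant (hV : ∀ c : ℂ, algebraMap ℂ K c ∈ V) (x y : K) (P : P2)
    (d₀ : Fin 2 →₀ ℕ) (hd₀ : coeff d₀ P ≠ 0)
    (hne : V.valuation x ^ d₀ 0 * V.valuation y ^ d₀ 1 ≠ 0)
    (h : ∀ d ∈ P.support, d ≠ d₀ → V.valuation x ^ d 0 * V.valuation y ^ d 1 <
      V.valuation x ^ d₀ 0 * V.valuation y ^ d₀ 1) :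
    V.valuation (aeval ![x, y] P) = V.valuation x ^ d₀ 0 * V.valuation y ^ d₀ 1 := by
  have hterm : ∀ d, V.valuation (algebraMap ℂ K (coeff d P) * ∏ i, (![x, y] : Fin 2 → K) i ^ d i)
      = V.valuation (algebraMap ℂ K (coeff d P)) *
        (V.valuation x ^ d 0 * V.valuation y ^ d 1) := by
    intro d
    rw [map_mul, Fin.prod_univ_two, map_mul, map_pow, map_pow]
    rfl
  have h0 : V.valuation (algebraMap ℂ K (coeff d₀ P) * ∏ i, (![x, y] : Fin 2 → K) i ^ d₀ i)
      = V.valuation x ^ d₀ 0 * V.valuation y ^ d₀ 1 := by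
    rw [hterm, val_const V hV hd₀, one_mul]
  rw [aeval_def, eval₂_eq', ← Finset.add_sum_erase _ _ (mem_support_iff.2 hd₀)]
  have h1 : V.valuation (∑ d ∈ P.support.erase d₀,
      algebraMap ℂ K (coeff d P) * ∏ i, (![x, y] : Fin 2 → K) i ^ d i) <
      V.valuation (algebraMap ℂ K (coeff d₀ P) * ∏ i, (![x, y] : Fin 2 → K) i ^ d₀ i) := by
    refine Valuation.map_sum_lt _ ?_ ?_
    · rw [h0]; exact hne
    · intro d hd
      rw [h0, hterm]
      have h2 := h d (Finset.mem_of_mem_erase hd) (Finset.ne_of_mem_erase hd)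
      calc V.valuation (algebraMap ℂ K (coeff d P)) * (V.valuation x ^ d 0 * V.valuation y ^ d 1)
          ≤ 1 * (V.valuation x ^ d 0 * V.valuation y ^ d 1) := by
            gcongr
            exact val_const_le V hV _
        _ < _ := by rw [one_mul]; exact h2
  rw [Valuation.map_add_eq_of_lt_left _ h1, h0]

theorem degree_eq (d : Fin 2 →₀ ℕ) : (d.sum fun _ e => e) = d 0 + d 1 := by
  rw [Finsupp.sum_fintype _ _ (fun _ => rfl), Fin.sum_univ_two]

end valuation

namespace PlaneData

variable (P : PlaneData) (x y : K)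

/-- the evaluation `ℂ[x,y] → K` -/
noncomputable abbrev ev : P2 →ₐ[ℂ] K := aeval ![x, y]

/-- `x - x_i` -/
noncomputable def Xi (i : Fin P.r) : K := x - algebraMap ℂ K (P.a i)

/-- `∏ (x - x_i)^{M_i}` -/
noncomputable def PP : K := ∏ i, P.Xi x i ^ P.M i

noncomputable def zz : K := ev x y P.z

noncomputable def D : ℕ := P.n + ∑ i, P.M i

noncomputable def s : K := P.PP x * x ^ P.n / P.zz x y
noncomputable def t : K := P.PP x * y ^ P.n / P.zz x y

/-- generators of the affine chart -/
noncomputable def G0 : Set K := {x, y, (P.zz x y * P.PP x)⁻¹}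

/-- generators of the chart at infinity -/
noncomputable def Ginf : Set K :=
  {x⁻¹, y / x, (P.zz x y / x ^ P.D * ∏ i, (1 - algebraMap ℂ K (P.a i) / x))⁻¹}

/-- the cofactor `p_i(y)/(y-b)` -/
noncomputable def q (i : Fin P.r) (b : ℂ) : Polynomial ℂ := P.p i /ₘ (Polynomial.X - Polynomial.C b)

/-- generators of the blow-up chart at `(x_i, b)` -/
noncomputable def Gb (i : Fin P.r) (b : ℂ) : Set K :=
  {P.Xi x i, (y - algebraMap ℂ K b) / P.Xi x i,
    (P.zz x y / P.Xi x i ^ P.M i * (∏ k ∈ Finset.univ.erase i, P.Xi x k) *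
      Polynomial.aeval y (P.q i b) * Polynomial.aeval y (Polynomial.derivative (P.p i)))⁻¹}

variable {x y}
variable (V : ValuationSubring K) (hV : ∀ c : ℂ, algebraMap ℂ K c ∈ V)

include hV

theorem val_zz_infty (hxy : V.valuation y ≤ V.valuation x) (hx : 1 < V.valuation x) :
    V.valuation (P.zz x y) ≤ V.valuation x ^ P.D := by
  unfold zz ev
  rw [aeval_def, eval₂_eq']
  refine Valuation.map_sum_le _ ?_
  intro d hd
  rw [map_mul, Fin.prod_univ_two, map_mul, map_pow, map_pow]
  have h1 : V.valuation (algebraMap ℂ K (coeff d P.z)) ≤ 1 := val_const_le V hV _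
  have h2 : d 0 + d 1 ≤ P.D := by
    have h3 := le_totalDegree hd
    rw [degree_eq] at h3
    exact h3.trans P.z_deg
  have h5 : V.valuation ((![x, y] : Fin 2 → K) 0) = V.valuation x := rfl
  have h6 : V.valuation ((![x, y] : Fin 2 → K) 1) = V.valuation y := rfl
  rw [h5, h6]
  calc V.valuation (algebraMap ℂ K (coeff d P.z)) * (V.valuation x ^ d 0 * V.valuation y ^ d 1)
      ≤ 1 * (V.valuation x ^ d 0 * V.valuation x ^ d 1) := by gcongr
    _ = V.valuation x ^ (d 0 + d 1) := by rw [one_mul, pow_add]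
    _ ≤ V.valuation x ^ P.D := pow_le_pow_right₀ hx.le h2

/-- `v(y) > 1`, `v(x) < v(y)`: then `v(z) = v(y)^D`. -/
theorem val_zz_y (hxy : V.valuation x < V.valuation y) (hy : 1 < V.valuation y) :
    V.valuation (P.zz x y) = V.valuation y ^ P.D := by
  have hy0 : V.valuation y ≠ 0 := (zero_lt_one.trans hy).ne'
  have h := val_aeval_eq_of_dominant V hV x y P.z (Finsupp.single 1 P.D) P.z_y
    (by simp [hy0]) ?_
  · unfold zz ev
    rw [h]
    simp
  · intro d hd hne
    have h3 := le_totalDegree hd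
    rw [degree_eq] at h3
    have h2 : d 0 + d 1 ≤ P.D := h3.trans P.z_deg
    simp only [Finsupp.single_apply, if_true]
    have e1 : ((1 : Fin 2) = 0) = False := by simp
    simp only [e1, if_false, pow_zero, one_mul]
    rcases Nat.eq_zero_or_pos (d 0) with h0 | h0
    · rw [h0, pow_zero, one_mul]
      have h4 : d 1 < P.D := by
        rcases Nat.lt_or_ge (d 1) P.D with h5 | h5
        · exact h5
        · exfalso
          apply hne
          have h6 : d 1 = P.D := by omega
          ext i
          fin_cases i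
          · simp [h0]
          · simp [h6]
      exact pow_lt_pow_right₀ hy h4
    · calc V.valuation x ^ d 0 * V.valuation y ^ d 1
          < V.valuation y ^ d 0 * V.valuation y ^ d 1 := by
            have h7 : V.valuation x ^ d 0 < V.valuation y ^ d 0 :=
              pow_lt_pow_left₀ hxy zero_le (by omega)
            exact mul_lt_mul_of_pos_right h7 (pow_pos (zero_lt_iff.2 hy0) _)
        _ = V.valuation y ^ (d 0 + d 1) := by rw [pow_add]
        _ ≤ V.valuation y ^ P.D := pow_le_pow_right₀ hy.le h2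

/-- `v(x) < 1`, `v(y) < 1`: then `v(z) = 1`. -/
theorem val_zz_origin (hx : V.valuation x < 1) (hy : V.valuation y < 1) :
    V.valuation (P.zz x y) = 1 := by
  have h := val_aeval_eq_of_dominant V hV x y P.z 0 P.z_0 (by simp) ?_
  · unfold zz ev
    rw [h]
    simp
  · intro d hd hne
    simp only [Finsupp.coe_zero, Pi.zero_apply, pow_zero, mul_one]
    rcases Nat.eq_zero_or_pos (d 0) with h0 | h0
    · have h4 : 0 < d 1 := by
        rcases Nat.eq_zero_or_pos (d 1) with h5 | h5
        · exfalso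
          apply hne
          ext i
          fin_cases i
          · simp [h0]
          · simp [h5]
        · exact h5
      rw [h0, pow_zero, one_mul]
      exact pow_lt_one₀ zero_le hy (by omega)
    · have h6 : V.valuation x ^ d 0 < 1 := pow_lt_one₀ zero_le hx (by omega)
      have h7 : V.valuation y ^ d 1 ≤ 1 := pow_le_one₀ zero_le hy.le
      exact mul_lt_one_of_lt_of_le h6 h7

theorem val_Xi_of_one_lt (hx : 1 < V.valuation x) (i : Fin P.r) :
    V.valuation (P.Xi x i) = V.valuation x := by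
  unfold Xi
  rw [sub_eq_add_neg, Valuation.map_add_eq_of_lt_left]
  rw [Valuation.map_neg]
  exact (val_const_le V hV _).trans_lt hx

theorem val_Xi_le (i : Fin P.r) : V.valuation (P.Xi x i) ≤ max (V.valuation x) 1 := by
  unfold Xi
  refine (V.valuation.map_sub _ _).trans ?_
  exact max_le_max le_rfl (val_const_le V hV _)

theorem val_Xi_of_lt_one (hx : V.valuation x < 1) (i : Fin P.r) :
    V.valuation (P.Xi x i) = 1 := by
  have h := val_sub_const V hV (x := x) (a := 0) (b := P.a i) (P.a_ne i).symm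
    (by rw [map_zero, sub_zero]; exact hx)
  exact h

omit hV in
theorem val_PP : V.valuation (P.PP x) = ∏ i, V.valuation (P.Xi x i) ^ P.M i := by
  unfold PP
  rw [map_prod]
  exact Finset.prod_congr rfl fun i _ => map_pow _ _ _

omit hV in
theorem val_s : V.valuation (P.s x y) =
    V.valuation (P.PP x) * V.valuation x ^ P.n / V.valuation (P.zz x y) := by
  unfold s
  rw [map_div₀, map_mul, map_pow]

omit hV in
theorem val_t : V.valuation (P.t x y) =
    V.valuation (P.PP x) * V.valuation y ^ P.n / V.valuation (P.zz x y) := by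
  unfold t
  rw [map_div₀, map_mul, map_pow]

omit hV in
/-- `max (v s) (v t) = 1` -/
theorem max_val (hs : P.s x y ∈ V) (ht : P.t x y ∈ V) (hs0 : P.s x y ≠ 0) (ht0 : P.t x y ≠ 0)
    (hst : (P.s x y)⁻¹ ∈ V ∨ (P.t x y)⁻¹ ∈ V) :
    V.valuation (P.s x y) ≤ 1 ∧ V.valuation (P.t x y) ≤ 1 ∧
      (V.valuation (P.s x y) = 1 ∨ V.valuation (P.t x y) = 1) := by
  have h1 := (V.valuation_le_one_iff _).2 hs
  have h2 := (V.valuation_le_one_iff _).2 ht
  refine ⟨h1, h2, ?_⟩
  rcases hst with h | h
  · left
    have h3 := (V.valuation_le_one_iff _).2 h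
    rw [map_inv₀] at h3
    have hne : V.valuation (P.s x y) ≠ 0 := V.valuation.ne_zero_iff.2 hs0
    exact le_antisymm h1 ((inv_le_one₀ (zero_lt_iff.2 hne)).1 h3)
  · right
    have h3 := (V.valuation_le_one_iff _).2 h
    rw [map_inv₀] at h3
    have hne : V.valuation (P.t x y) ≠ 0 := V.valuation.ne_zero_iff.2 ht0
    exact le_antisymm h2 ((inv_le_one₀ (zero_lt_iff.2 hne)).1 h3)

/-- finite case: `v(∏ X_i^{M_i}) = v(z)`. -/
theorem val_PP_eq_zz (hx : V.valuation x ≤ 1) (hy : V.valuation y ≤ 1)
    (hzz : P.zz x y ≠ 0)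
    (hs : V.valuation (P.s x y) ≤ 1) (ht : V.valuation (P.t x y) ≤ 1)
    (hst : V.valuation (P.s x y) = 1 ∨ V.valuation (P.t x y) = 1) :
    V.valuation (P.PP x) = V.valuation (P.zz x y) := by
  have hz : V.valuation (P.zz x y) ≠ 0 := V.valuation.ne_zero_iff.2 hzz
  have hzpos := zero_lt_iff.2 hz
  rw [val_s] at hs hst
  rw [val_t] at ht hst
  by_cases hx1 : V.valuation x = 1
  · rw [hx1, one_pow, mul_one] at hs hst
    rw [div_le_one₀ hzpos] at hs
    apply le_antisymm hs
    rcases hst with h | h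
    · rw [div_eq_one_iff_eq hz] at h
      exact h.ge
    · rw [div_eq_one_iff_eq hz] at h
      rw [← h]
      calc V.valuation (P.PP x) * V.valuation y ^ P.n ≤ V.valuation (P.PP x) * 1 := by
            gcongr
            exact pow_le_one₀ zero_le hy
        _ = _ := mul_one _
  · by_cases hy1 : V.valuation y = 1
    · rw [hy1, one_pow, mul_one] at ht hst
      rw [div_le_one₀ hzpos] at ht
      apply le_antisymm ht
      rcases hst with h | h
      · rw [div_eq_one_iff_eq hz] at h
        rw [← h]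
        calc V.valuation (P.PP x) * V.valuation x ^ P.n ≤ V.valuation (P.PP x) * 1 := by
              gcongr
              exact pow_le_one₀ zero_le hx
          _ = _ := mul_one _
      · rw [div_eq_one_iff_eq hz] at h
        exact h.ge
    · exfalso
      have hx2 := lt_of_le_of_ne hx hx1
      have hy2 := lt_of_le_of_ne hy hy1
      have h1 : V.valuation (P.PP x) = 1 := by
        rw [val_PP]
        refine Finset.prod_eq_one fun i _ => ?_
        rw [P.val_Xi_of_lt_one V hV hx2, one_pow]
      have h2 := P.val_zz_origin V hV hx2 hy2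
      rw [h1, h2, one_mul, one_mul, div_one, div_one] at hst
      rcases hst with h | h
      · exact absurd h (pow_lt_one₀ zero_le hx2 P.n_pos.ne').ne
      · exact absurd h (pow_lt_one₀ zero_le hy2 P.n_pos.ne').ne

/-- infinity: `v(x) > 1`, `v(y) ≤ v(x)`: the valuation ring contains the chart at infinity. -/
theorem ginf_mem (hxy : V.valuation y ≤ V.valuation x) (hx : 1 < V.valuation x)
    (hzz : P.zz x y ≠ 0) (hs : V.valuation (P.s x y) ≤ 1) : ∀ g ∈ P.Ginf x y, g ∈ V := by
  have hz : V.valuation (P.zz x y) ≠ 0 := V.valuation.ne_zero_iff.2 hzz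
  have hzpos := zero_lt_iff.2 hz
  have hx0 : V.valuation x ≠ 0 := (zero_lt_one.trans hx).ne'
  have hxne : x ≠ 0 := V.valuation.ne_zero_iff.1 hx0
  have h1 : V.valuation (P.PP x) = V.valuation x ^ (∑ i, P.M i) := by
    rw [val_PP, ← Finset.prod_pow_eq_pow_sum]
    refine Finset.prod_congr rfl fun i _ => ?_
    rw [P.val_Xi_of_one_lt V hV hx]
  have h2 : V.valuation (P.zz x y) = V.valuation x ^ P.D := by
    apply le_antisymm (P.val_zz_infty V hV hxy hx)
    rw [val_s, h1, div_le_one₀ hzpos, ← pow_add] at hs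
    rw [D, add_comm]
    exact hs
  have hxinv : V.valuation x⁻¹ < 1 := by
    rw [map_inv₀]; exact inv_lt_one_of_one_lt₀ hx
  intro g hg
  rcases hg with rfl | rfl | rfl
  · rw [← V.valuation_le_one_iff]; exact hxinv.le
  · rw [← V.valuation_le_one_iff, map_div₀, div_le_one₀ (zero_lt_iff.2 hx0)]; exact hxy
  · rw [← V.valuation_le_one_iff, map_inv₀, map_mul, map_div₀, map_pow, h2,
      div_self (pow_ne_zero _ hx0), one_mul, map_prod, Finset.prod_eq_one, inv_one]
    intro i _
    rw [sub_eq_add_neg, Valuation.map_add_eq_of_lt_left, map_one]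
    rw [Valuation.map_neg, map_one, div_eq_mul_inv, map_mul]
    exact Right.mul_lt_one_of_le_of_lt (val_const_le V hV _) hxinv

/-- the case `v(y) > v(x)`, `v(y) > 1` is impossible. -/
theorem not_third (hxy : V.valuation x < V.valuation y) (hy : 1 < V.valuation y)
    (hst : V.valuation (P.s x y) = 1 ∨ V.valuation (P.t x y) = 1) : False := by
  have hy0 : V.valuation y ≠ 0 := (zero_lt_one.trans hy).ne'
  have hypos := zero_lt_iff.2 hy0
  have h2 := P.val_zz_y V hV hxy hy
  have hXi : ∀ i, V.valuation (P.Xi x i) < V.valuation y := fun i =>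
    (P.val_Xi_le V hV i).trans_lt (max_lt hxy hy)
  have hPP : V.valuation (P.PP x) < V.valuation y ^ (∑ i, P.M i) := by
    rw [val_PP, ← Finset.prod_pow_eq_pow_sum]
    haveI : Nonempty (Fin P.r) := ⟨⟨0, P.r_pos⟩⟩
    by_cases h0 : ∃ i, V.valuation (P.Xi x i) = 0
    · obtain ⟨i, hi⟩ := h0
      rw [Finset.prod_eq_zero (Finset.mem_univ i)]
      · exact Finset.prod_pos fun i _ => pow_pos hypos _
      · rw [hi, zero_pow (P.M_pos i).ne']
    · push Not at h0
      refine Finset.prod_lt_prod_of_nonempty ?_ ?_ Finset.univ_nonempty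
      · intro i _
        exact pow_pos (zero_lt_iff.2 (h0 i)) _
      · intro i _
        exact pow_lt_pow_left₀ (hXi i) zero_le (P.M_pos i).ne'
  have hD : V.valuation y ^ (∑ i, P.M i) * V.valuation y ^ P.n = V.valuation y ^ P.D := by
    rw [← pow_add, D, add_comm]
  rcases hst with h | h
  · rw [val_s, h2, div_eq_one_iff_eq (pow_ne_zero _ hy0)] at h
    have h3 : V.valuation (P.PP x) * V.valuation x ^ P.n < V.valuation y ^ P.D := by
      calc V.valuation (P.PP x) * V.valuation x ^ P.n
          ≤ V.valuation (P.PP x) * V.valuation y ^ P.n := by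
            gcongr
        _ < V.valuation y ^ (∑ i, P.M i) * V.valuation y ^ P.n :=
            mul_lt_mul_of_pos_right hPP (pow_pos hypos _)
        _ = _ := hD
    exact absurd h h3.ne
  · rw [val_t, h2, div_eq_one_iff_eq (pow_ne_zero _ hy0)] at h
    have h3 : V.valuation (P.PP x) * V.valuation y ^ P.n < V.valuation y ^ P.D := by
      rw [← hD]
      exact mul_lt_mul_of_pos_right hPP (pow_pos hypos _)
    exact absurd h h3.ne

omit hV in
/-- the affine chart: all `v(X_i) = 1`. -/
theorem g0_mem (hx : V.valuation x ≤ 1) (hy : V.valuation y ≤ 1)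
    (hPz : V.valuation (P.PP x) = V.valuation (P.zz x y))
    (h : ∀ i, V.valuation (P.Xi x i) = 1) : ∀ g ∈ P.G0 x y, g ∈ V := by
  have h1 : V.valuation (P.PP x) = 1 := by
    rw [val_PP]
    exact Finset.prod_eq_one fun i _ => by rw [h, one_pow]
  intro g hg
  rcases hg with rfl | rfl | rfl
  · exact (V.valuation_le_one_iff _).1 hx
  · exact (V.valuation_le_one_iff _).1 hy
  · rw [← V.valuation_le_one_iff, map_inv₀, map_mul, ← hPz, h1]
    simp

/-- the blow-up charts. -/
theorem gb_mem (hx : V.valuation x ≤ 1) (hy : V.valuation y ≤ 1)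
    (hPz : V.valuation (P.PP x) = V.valuation (P.zz x y))
    (i : Fin P.r) (hi : V.valuation (P.Xi x i) < 1) (hi0 : P.Xi x i ≠ 0) :
    ∃ b : ℂ, (P.p i).IsRoot b ∧ ∀ g ∈ P.Gb x y i b, g ∈ V := by
  classical
  have hxV := (V.valuation_le_one_iff _).1 hx
  have hyV := (V.valuation_le_one_iff _).1 hy
  have hX0 : V.valuation (P.Xi x i) ≠ 0 := V.valuation.ne_zero_iff.2 hi0
  have hXpos := zero_lt_iff.2 hX0
  -- the other `X_k` are units
  have hk : ∀ k, k ≠ i → V.valuation (P.Xi x k) = 1 := fun k hk =>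
    val_sub_const V hV (fun h => hk (P.a_inj h).symm) hi
  have hPP : V.valuation (P.PP x) = V.valuation (P.Xi x i) ^ P.M i := by
    rw [val_PP, ← Finset.mul_prod_erase _ _ (Finset.mem_univ i), Finset.prod_eq_one, mul_one]
    intro k hk'
    rw [hk k (Finset.ne_of_mem_erase hk'), one_pow]
  have hz : V.valuation (P.zz x y) = V.valuation (P.Xi x i) ^ P.M i := by rw [← hPz, hPP]
  -- the value of `p_i(y)`
  set e : K := Polynomial.aeval y (P.p i) with he
  have hpoly : ∀ q : Polynomial ℂ, V.valuation (Polynomial.aeval y q) ≤ 1 := by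
    intro q
    have h1 := aeval_mem V hV hxV hyV (liftY q)
    rw [aeval_liftY] at h1
    exact (V.valuation_le_one_iff _).2 h1
  have hw : ∀ k, V.valuation (ev x y (P.w i k)) ≤ 1 := fun k =>
    (V.valuation_le_one_iff _).2 (aeval_mem V hV hxV hyV _)
  have hzeq : P.zz x y = algebraMap ℂ K (P.c i) * e ^ P.M i +
      ∑ k ∈ Finset.range (P.M i), P.Xi x i ^ (k + 1) * e ^ (P.M i - 1 - k) * ev x y (P.w i k) := by
    unfold zz
    conv_lhs => rw [P.hw i]
    rw [map_add, map_mul, map_pow, aeval_liftY, map_sum, aeval_C]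
    congr 1
    refine Finset.sum_congr rfl fun k _ => ?_
    rw [map_mul, map_mul, map_pow, map_pow, aeval_liftY, map_sub, aeval_X, aeval_C]
    rfl
  have heX : V.valuation e ≤ V.valuation (P.Xi x i) := by
    by_contra hcon
    push Not at hcon
    have he0 : V.valuation e ≠ 0 := (hXpos.trans hcon).ne'
    have hepos := zero_lt_iff.2 he0
    have h1 : V.valuation (algebraMap ℂ K (P.c i) * e ^ P.M i) = V.valuation e ^ P.M i := by
      rw [map_mul, val_const V hV (P.c_ne i), one_mul, map_pow]
    have h2 : V.valuation (∑ k ∈ Finset.range (P.M i),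
        P.Xi x i ^ (k + 1) * e ^ (P.M i - 1 - k) * ev x y (P.w i k)) <
        V.valuation (algebraMap ℂ K (P.c i) * e ^ P.M i) := by
      rw [h1]
      refine Valuation.map_sum_lt _ (pow_ne_zero _ he0) fun k hk => ?_
      rw [Finset.mem_range] at hk
      rw [map_mul, map_mul, map_pow, map_pow]
      calc V.valuation (P.Xi x i) ^ (k + 1) * V.valuation e ^ (P.M i - 1 - k) *
            V.valuation (ev x y (P.w i k))
          ≤ V.valuation (P.Xi x i) ^ (k + 1) * V.valuation e ^ (P.M i - 1 - k) * 1 := by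
            gcongr
            exact hw k
        _ = V.valuation (P.Xi x i) ^ (k + 1) * V.valuation e ^ (P.M i - 1 - k) := mul_one _
        _ < V.valuation e ^ (k + 1) * V.valuation e ^ (P.M i - 1 - k) := by
            refine mul_lt_mul_of_pos_right ?_ (pow_pos hepos _)
            exact pow_lt_pow_left₀ hcon zero_le (by omega)
        _ = V.valuation e ^ P.M i := by
            rw [← pow_add]; congr 1; omega
    have h3 : V.valuation (P.zz x y) = V.valuation e ^ P.M i := by
      rw [hzeq, Valuation.map_add_eq_of_lt_left _ h2, h1]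
    rw [hz] at h3
    exact absurd h3 (pow_lt_pow_left₀ hcon zero_le (P.M_pos i).ne').ne
  have he1 : V.valuation e < 1 := heX.trans_lt hi
  -- a root
  have hsplit : (P.p i) = (((P.p i).roots).map fun b => Polynomial.X - Polynomial.C b).prod :=
    (IsAlgClosed.splits (P.p i)).eq_prod_roots_of_monic (P.p_monic i)
  have hroot : ∃ b ∈ (P.p i).roots, V.valuation (y - algebraMap ℂ K b) < 1 := by
    by_contra hcon
    push Not at hcon
    have h1 : V.valuation e = 1 := by
      rw [he, hsplit, map_multiset_prod, map_multiset_prod, Multiset.map_map, Multiset.map_map]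
      refine Multiset.prod_eq_one fun g hg => ?_
      rw [Multiset.mem_map] at hg
      obtain ⟨b, hb, rfl⟩ := hg
      simp only [Function.comp_apply, map_sub, Polynomial.aeval_X, Polynomial.aeval_C]
      refine le_antisymm ?_ (hcon b hb)
      refine (V.valuation.map_sub _ _).trans (max_le hy (val_const_le V hV _))
    exact absurd h1 he1.ne
  obtain ⟨b, hb, hbv⟩ := hroot
  have hbroot : (P.p i).IsRoot b := (Polynomial.mem_roots (P.p_monic i).ne_zero).1 hb
  refine ⟨b, hbroot, ?_⟩
  -- `p = (X - b) q`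
  have hpq : (Polynomial.X - Polynomial.C b) * P.q i b = P.p i :=
    Polynomial.mul_divByMonic_eq_iff_isRoot.2 hbroot
  have hder : Polynomial.derivative (P.p i) = P.q i b +
      (Polynomial.X - Polynomial.C b) * Polynomial.derivative (P.q i b) := by
    conv_lhs => rw [← hpq]
    rw [Polynomial.derivative_mul]
    simp
  -- `q(b) ≠ 0`
  have hqb : (P.q i b).eval b ≠ 0 := by
    intro h0
    have h1 : (Polynomial.derivative (P.p i)).eval b = 0 := by
      rw [hder]
      simp [h0]
    have h2 := (P.p_sep i)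
    rw [Polynomial.Separable] at h2
    obtain ⟨u, v, huv⟩ := h2
    have h3 := congrArg (Polynomial.eval b) huv
    rw [Polynomial.eval_add, Polynomial.eval_mul, Polynomial.eval_mul, h1, hbroot.eq_zero] at h3
    simp at h3
  have hev : ∀ q : Polynomial ℂ, q.eval b ≠ 0 → V.valuation (Polynomial.aeval y q) = 1 := by
    intro q hq
    have h1 : q = (Polynomial.X - Polynomial.C b) * (q /ₘ (Polynomial.X - Polynomial.C b)) +
        Polynomial.C (q.eval b) := by
      have := Polynomial.modByMonic_add_div q (Polynomial.X - Polynomial.C b)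
      rw [Polynomial.modByMonic_X_sub_C_eq_C_eval] at this
      rw [add_comm]
      exact this.symm
    have h2 : Polynomial.aeval y q = (y - algebraMap ℂ K b) *
        Polynomial.aeval y (q /ₘ (Polynomial.X - Polynomial.C b)) +
        algebraMap ℂ K (q.eval b) := by
      conv_lhs => rw [h1]
      simp
    have h3 : V.valuation ((y - algebraMap ℂ K b) *
        Polynomial.aeval y (q /ₘ (Polynomial.X - Polynomial.C b))) < 1 := by
      rw [map_mul]
      exact mul_lt_one_of_lt_of_le hbv (hpoly _)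
    rw [h2, Valuation.map_add_eq_of_lt_right, val_const V hV hq]
    rw [val_const V hV hq]
    exact h3
  have hq1 : V.valuation (Polynomial.aeval y (P.q i b)) = 1 := hev _ hqb
  have hd1 : V.valuation (Polynomial.aeval y (Polynomial.derivative (P.p i))) = 1 := by
    refine hev _ ?_
    rw [hder]
    simpa using hqb
  have heq : V.valuation e = V.valuation (y - algebraMap ℂ K b) := by
    rw [he, ← hpq, map_mul, map_mul, hq1, mul_one]
    simp
  have hzX : V.valuation (P.zz x y / P.Xi x i ^ P.M i) = 1 := by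
    rw [map_div₀, map_pow, hz, div_self (pow_ne_zero _ hX0)]
  intro g hg
  rcases hg with rfl | rfl | rfl
  · exact (V.valuation_le_one_iff _).1 hi.le
  · rw [← V.valuation_le_one_iff, map_div₀, div_le_one₀ hXpos, ← heq]
    exact heX
  · rw [← V.valuation_le_one_iff, map_inv₀, map_mul, map_mul, map_mul, hzX, hq1, hd1, map_prod,
      Finset.prod_eq_one fun k hk' => hk k (Finset.ne_of_mem_erase hk')]
    simp

/-- **classification.** -/
theorem cover (hzz : P.zz x y ≠ 0) (hX0 : ∀ i, P.Xi x i ≠ 0) (hs0 : P.s x y ≠ 0)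
    (ht0 : P.t x y ≠ 0) (hs : P.s x y ∈ V) (ht : P.t x y ∈ V)
    (hst : (P.s x y)⁻¹ ∈ V ∨ (P.t x y)⁻¹ ∈ V) :
    (∀ g ∈ P.G0 x y, g ∈ V) ∨ (∀ g ∈ P.Ginf x y, g ∈ V) ∨
      ∃ i b, (P.p i).IsRoot b ∧ ∀ g ∈ P.Gb x y i b, g ∈ V := by
  obtain ⟨hs1, ht1, hst1⟩ := P.max_val V hs ht hs0 ht0 hst
  by_cases hx : V.valuation x ≤ 1
  · by_cases hy : V.valuation y ≤ 1
    · have hPz := P.val_PP_eq_zz V hV hx hy hzz hs1 ht1 hst1
      by_cases h : ∀ i, V.valuation (P.Xi x i) = 1
      · exact Or.inl (P.g0_mem V hx hy hPz h)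
      · push Not at h
        obtain ⟨i, hi⟩ := h
        have h1 := P.val_Xi_le V hV (x := x) i
        rw [max_eq_right hx] at h1
        exact Or.inr (Or.inr ⟨i, P.gb_mem V hV hx hy hPz i (lt_of_le_of_ne h1 hi) (hX0 i)⟩)
    · push Not at hy
      exact (P.not_third V hV (hx.trans_lt hy) hy hst1).elim
  · push Not at hx
    by_cases hxy : V.valuation y ≤ V.valuation x
    · exact Or.inr (Or.inl (P.ginf_mem V hV hxy hx hzz hs1))
    · push Not at hxy
      exact (P.not_third V hV hxy (hx.trans hxy) hst1).elim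

end PlaneData

end Crest.Agent.R278
end

-- ▼ part R278/Plane2

set_option autoImplicit false

/-!
Row 278 (S0421): plane data with individual multiplicities; local expansions at the points.
-/

namespace Crest.Agent.R278

open MvPolynomial

section Sub

/-- the maximal ideal of the point `(a,b)` -/
noncomputable def mI (a b : ℂ) : Ideal P2 := Ideal.span {X 0 - C a, X 1 - C b}

/-- translation -/
noncomputable def tl (a b : ℂ) : P2 →ₐ[ℂ] P2 := aeval ![C a + X 0, C b + X 1]

/-- blow-up substitution -/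
noncomputable def bl (a b : ℂ) : P2 →ₐ[ℂ] P2 := aeval ![C a + X 0, C b + X 0 * X 1]

/-- restriction to the arm `x = a` -/
noncomputable def rs (a : ℂ) : P2 →ₐ[ℂ] Polynomial ℂ := aeval ![Polynomial.C a, Polynomial.X]

theorem ev_tl {K : Type*} [Field K] [Algebra ℂ K] (x y : K) (a b : ℂ) (f : P2) :
    aeval ![x - algebraMap ℂ K a, y - algebraMap ℂ K b] (tl a b f) = aeval ![x, y] f := by
  rw [tl, ← AlgHom.comp_apply]
  congr 1
  apply MvPolynomial.algHom_ext
  intro i
  fin_cases i
  · simp [← algebraMap_eq]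
  · simp [← algebraMap_eq]

theorem ev_bl {K : Type*} [Field K] [Algebra ℂ K] (x y : K) (a b : ℂ)
    (hx : x - algebraMap ℂ K a ≠ 0) (f : P2) :
    aeval ![x - algebraMap ℂ K a, (y - algebraMap ℂ K b) / (x - algebraMap ℂ K a)] (bl a b f) =
      aeval ![x, y] f := by
  rw [bl, ← AlgHom.comp_apply]
  congr 1
  apply MvPolynomial.algHom_ext
  intro i
  fin_cases i
  · simp [← algebraMap_eq]
  · simp [← algebraMap_eq, mul_div_cancel₀ _ hx]

theorem tl_mem {a b : ℂ} {m : ℕ} {f : P2} (hf : f ∈ mI a b ^ m) :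
    tl a b f ∈ idealOfVars (Fin 2) ℂ ^ m := by
  have h1 : (mI a b).map (tl a b : P2 →+* P2) ≤ idealOfVars (Fin 2) ℂ := by
    rw [mI, Ideal.map_span, Ideal.span_le]
    rintro z ⟨w, hw, rfl⟩
    have h0 : ∀ i, (X i : P2) ∈ idealOfVars (Fin 2) ℂ := fun i => Ideal.subset_span ⟨i, rfl⟩
    rcases hw with rfl | hw
    · have : (tl a b : P2 →+* P2) (X 0 - C a) = X 0 := by
        simp [tl, ← algebraMap_eq]
      rw [this]; exact h0 0
    · rw [Set.mem_singleton_iff] at hw
      subst hw
      have : (tl a b : P2 →+* P2) (X 1 - C b) = X 1 := by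
        simp [tl, ← algebraMap_eq]
      rw [this]; exact h0 1
  have h2 : (tl a b : P2 →+* P2) f ∈ (mI a b ^ m).map (tl a b : P2 →+* P2) :=
    Ideal.mem_map_of_mem _ hf
  rw [Ideal.map_pow] at h2
  exact Ideal.pow_right_mono h1 m h2

theorem bl_dvd {a b : ℂ} {m : ℕ} {f : P2} (hf : f ∈ mI a b ^ m) :
    (X 0 : P2) ^ m ∣ bl a b f := by
  have h1 : (mI a b).map (bl a b : P2 →+* P2) ≤ Ideal.span {X 0} := by
    rw [mI, Ideal.map_span, Ideal.span_le]
    rintro z ⟨w, hw, rfl⟩
    rcases hw with rfl | hw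
    · have : (bl a b : P2 →+* P2) (X 0 - C a) = X 0 := by
        simp [bl, ← algebraMap_eq]
      rw [this]; exact Ideal.subset_span rfl
    · rw [Set.mem_singleton_iff] at hw
      subst hw
      have : (bl a b : P2 →+* P2) (X 1 - C b) = X 0 * X 1 := by
        simp [bl, ← algebraMap_eq]
      rw [this]; exact Ideal.mul_mem_right _ _ (Ideal.subset_span rfl)
  have h2 : (bl a b : P2 →+* P2) f ∈ (mI a b ^ m).map (bl a b : P2 →+* P2) :=
    Ideal.mem_map_of_mem _ hf
  rw [Ideal.map_pow] at h2
  have h3 := Ideal.pow_right_mono h1 m h2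
  rw [Ideal.span_singleton_pow, Ideal.mem_span_singleton] at h3
  exact h3

theorem rs_dvd {a b : ℂ} {m : ℕ} {f : P2} (hf : f ∈ mI a b ^ m) :
    (Polynomial.X - Polynomial.C b) ^ m ∣ rs a f := by
  have h1 : (mI a b).map (rs a : P2 →+* Polynomial ℂ) ≤
      Ideal.span {Polynomial.X - Polynomial.C b} := by
    rw [mI, Ideal.map_span, Ideal.span_le]
    rintro z ⟨w, hw, rfl⟩
    rcases hw with rfl | hw
    · have : (rs a : P2 →+* Polynomial ℂ) (X 0 - C a) = 0 := by
        simp [rs, ← algebraMap_eq]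
      rw [this]; exact Ideal.zero_mem _
    · rw [Set.mem_singleton_iff] at hw
      subst hw
      have : (rs a : P2 →+* Polynomial ℂ) (X 1 - C b) = Polynomial.X - Polynomial.C b := by
        simp [rs, ← algebraMap_eq]
      rw [this]; exact Ideal.subset_span rfl
  have h2 : (rs a : P2 →+* Polynomial ℂ) f ∈ (mI a b ^ m).map (rs a : P2 →+* Polynomial ℂ) :=
    Ideal.mem_map_of_mem _ hf
  rw [Ideal.map_pow] at h2
  have h3 := Ideal.pow_right_mono h1 m h2
  rw [Ideal.span_singleton_pow, Ideal.mem_span_singleton] at h3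
  exact h3

theorem rs_eq_sum (a : ℂ) (f : P2) : rs a f =
    ∑ s ∈ f.support, Polynomial.C (coeff s f * a ^ s 0) * Polynomial.X ^ s 1 := by
  rw [rs, aeval_def, eval₂_eq']
  refine Finset.sum_congr rfl fun s _ => ?_
  rw [Fin.prod_univ_two, map_mul, map_pow]
  simp only [Matrix.cons_val_zero, Matrix.cons_val_one]
  rw [mul_assoc]
  rfl

theorem rs_coeff_top {a : ℂ} {f : P2} {d : ℕ} (hd : f.totalDegree ≤ d) :
    (rs a f).coeff d = coeff (Finsupp.single 1 d) f := by
  classical
  rw [rs_eq_sum, Polynomial.finsetSum_coeff]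
  simp only [Polynomial.coeff_C_mul, Polynomial.coeff_X_pow]
  rw [Finset.sum_eq_single (Finsupp.single 1 d)]
  · simp
  · intro s hs hne
    have h3 := (le_totalDegree hs).trans hd
    rw [degree_eq] at h3
    rw [if_neg, mul_zero]
    intro h
    apply hne
    ext i
    fin_cases i
    · simp; omega
    · simp [h]
  · intro h
    rw [notMem_support_iff] at h
    simp [h]

theorem rs_natDegree_le {a : ℂ} {f : P2} {d : ℕ} (hd : f.totalDegree ≤ d) :
    (rs a f).natDegree ≤ d := by
  rw [rs_eq_sum]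
  refine Polynomial.natDegree_sum_le_of_forall_le _ _ fun s hs => ?_
  have h3 := (le_totalDegree hs).trans hd
  rw [degree_eq] at h3
  refine (Polynomial.natDegree_C_mul_X_pow_le _ _).trans (by omega)

theorem rs_zero_coeff (g : P2) (k : ℕ) :
    (rs 0 g).coeff k = coeff (Finsupp.single 1 k) g := by
  classical
  rw [rs_eq_sum, Polynomial.finsetSum_coeff]
  simp only [Polynomial.coeff_C_mul, Polynomial.coeff_X_pow]
  rw [Finset.sum_eq_single (Finsupp.single 1 k)]
  · simp
  · intro s hs hne
    by_cases h0 : s 0 = 0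
    · rw [if_neg, mul_zero]
      intro h
      apply hne
      ext i
      fin_cases i
      · simp [h0]
      · simp [h]
    · rw [zero_pow h0]; simp
  · intro h
    rw [notMem_support_iff] at h
    simp [h]

theorem rs_tl (a b : ℂ) (f : P2) :
    rs 0 (tl a b f) = (rs a f).comp (Polynomial.X + Polynomial.C b) := by
  have h1 : (rs a f).comp (Polynomial.X + Polynomial.C b) =
      (Polynomial.compRingHom (Polynomial.X + Polynomial.C b)) (rs a f) := rfl
  rw [h1]
  have h2 : ((rs 0 : P2 →ₐ[ℂ] Polynomial ℂ).comp (tl a b)).toRingHom =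
      (Polynomial.compRingHom (Polynomial.X + Polynomial.C b)).comp (rs a).toRingHom := by
    apply MvPolynomial.ringHom_ext
    · intro c
      simp [rs, tl, ← algebraMap_eq]
    · intro i
      fin_cases i
      · simp [rs, tl, ← algebraMap_eq]
      · simp [rs, tl, ← algebraMap_eq, add_comm]
  exact RingHom.congr_fun h2 f

end Sub

/-- `f` is a plane curve of degree `d` with multiplicities `m i b` at the points `(a_i, b)`,
which does not pass through the point at infinity of the arms and meets the arms only in the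
given points. -/
structure Good {r : ℕ} (a : Fin r → ℂ) (S : Fin r → Finset ℂ) (f : P2) (d : ℕ)
    (m : Fin r → ℂ → ℕ) : Prop where
  deg : f.totalDegree ≤ d
  lead : coeff (Finsupp.single 1 d) f ≠ 0
  mult : ∀ i, ∀ b ∈ S i, f ∈ mI (a i) b ^ m i b
  sum : ∀ i, ∑ b ∈ S i, m i b = d

namespace Good

variable {r : ℕ} {a : Fin r → ℂ} {S : Fin r → Finset ℂ} {f g : P2} {d e : ℕ}
  {m n : Fin r → ℂ → ℕ}

theorem coeff_mul_top {f g : P2} {d e : ℕ} (hf : f.totalDegree ≤ d) (hg : g.totalDegree ≤ e) :
    coeff (Finsupp.single 1 (d + e)) (f * g) =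
      coeff (Finsupp.single 1 d) f * coeff (Finsupp.single 1 e) g := by
  have h1 := rs_coeff_top (a := 0) (f := f * g) (d := d + e)
    ((totalDegree_mul _ _).trans (Nat.add_le_add hf hg))
  rw [← h1, ← rs_coeff_top (a := 0) hf, ← rs_coeff_top (a := 0) hg, map_mul]
  exact Polynomial.coeff_mul_add_eq_of_natDegree_le (rs_natDegree_le hf) (rs_natDegree_le hg)

theorem mul (hf : Good a S f d m) (hg : Good a S g e n) :
    Good a S (f * g) (d + e) (fun i b => m i b + n i b) where
  deg := (totalDegree_mul _ _).trans (Nat.add_le_add hf.deg hg.deg)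
  lead := by
    rw [coeff_mul_top hf.deg hg.deg]
    exact mul_ne_zero hf.lead hg.lead
  mult i b hb := by
    rw [pow_add]
    exact Ideal.mul_mem_mul (hf.mult i b hb) (hg.mult i b hb)
  sum i := by rw [Finset.sum_add_distrib, hf.sum, hg.sum]

theorem pow (hf : Good a S f d m) (k : ℕ) :
    Good a S (f ^ k) (k * d) (fun i b => k * m i b) := by
  induction k with
  | zero =>
    refine ⟨by simp, by simp, fun i b _ => by simp, fun i => by simp⟩
  | succ k ih =>
    have h := ih.mul hf
    have e1 : (fun i b => k * m i b + m i b) = fun i b => (k + 1) * m i b := by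
      funext i b; ring
    rw [← pow_succ, e1, show k * d + d = (k + 1) * d by ring] at h
    exact h

theorem ne_zero (hf : Good a S f d m) : f ≠ 0 := by
  rintro rfl
  exact hf.lead (by simp)

/-- restriction to an arm -/
theorem rs_eq (hf : Good a S f d m) (i : Fin r) : rs (a i) f =
    Polynomial.C (coeff (Finsupp.single 1 d) f) *
      ∏ b ∈ S i, (Polynomial.X - Polynomial.C b) ^ m i b := by
  classical
  have hdvd : (∏ b ∈ S i, (Polynomial.X - Polynomial.C b) ^ m i b) ∣ rs (a i) f := by
    refine Finset.prod_dvd_of_coprime ?_ ?_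
    · intro b _ c _ hbc
      exact (Polynomial.isCoprime_X_sub_C_of_isUnit_sub
        (isUnit_iff_ne_zero.2 (sub_ne_zero.2 hbc))).pow
    · intro b hb
      exact rs_dvd (hf.mult i b hb)
  obtain ⟨q, hq⟩ := hdvd
  set p : Polynomial ℂ := ∏ b ∈ S i, (Polynomial.X - Polynomial.C b) ^ m i b with hp
  have hpm : p.Monic := Polynomial.monic_prod_of_monic _ _ fun b _ =>
    (Polynomial.monic_X_sub_C b).pow _
  have hpd : p.natDegree = d := by
    rw [hp, Polynomial.natDegree_prod_of_monic _ _ fun b _ =>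
      (Polynomial.monic_X_sub_C b).pow _, ← hf.sum i]
    refine Finset.sum_congr rfl fun b _ => ?_
    rw [Polynomial.natDegree_pow, Polynomial.natDegree_X_sub_C, mul_one]
  have hrs : (rs (a i) f).natDegree = d := by
    refine le_antisymm (rs_natDegree_le hf.deg) ?_
    refine Polynomial.le_natDegree_of_ne_zero ?_
    rw [rs_coeff_top hf.deg]
    exact hf.lead
  have hq0 : q ≠ 0 := by
    rintro rfl
    rw [mul_zero] at hq
    have := rs_coeff_top (a := a i) hf.deg
    rw [hq, Polynomial.coeff_zero] at this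
    exact hf.lead this.symm
  have hqd : q.natDegree = 0 := by
    have h1 : (p * q).natDegree = p.natDegree + q.natDegree :=
      Polynomial.natDegree_mul hpm.ne_zero hq0
    rw [← hq, hrs, hpd] at h1
    omega
  obtain ⟨c, hc⟩ : ∃ c, q = Polynomial.C c := ⟨_, Polynomial.eq_C_of_natDegree_eq_zero hqd⟩
  have hc2 : c = coeff (Finsupp.single 1 d) f := by
    have := rs_coeff_top (a := a i) hf.deg
    rw [hq, hc, mul_comm, Polynomial.coeff_C_mul] at this
    rw [← this]
    have h2 : p.coeff d = 1 := by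
      have := hpm.coeff_natDegree
      rwa [hpd] at this
    rw [h2, mul_one]
  rw [hq, hc, hc2, mul_comm]

/-- the coefficient of `Y^m` at the point `(a_i, b)` -/
theorem coeff_tl_ne (hf : Good a S f d m) (i : Fin r) {b : ℂ} (hb : b ∈ S i) :
    coeff (Finsupp.single 1 (m i b)) (tl (a i) b f) ≠ 0 := by
  classical
  rw [← rs_zero_coeff, rs_tl, hf.rs_eq i, ← Finset.mul_prod_erase _ _ hb]
  have h1 : (Polynomial.C (coeff (Finsupp.single 1 d) f) *
      ((Polynomial.X - Polynomial.C b) ^ m i b *
        ∏ b' ∈ (S i).erase b, (Polynomial.X - Polynomial.C b') ^ m i b')).comp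
          (Polynomial.X + Polynomial.C b) =
      (Polynomial.C (coeff (Finsupp.single 1 d) f) *
        ∏ b' ∈ (S i).erase b, (Polynomial.X + Polynomial.C (b - b')) ^ m i b') *
          Polynomial.X ^ m i b := by
    rw [Polynomial.mul_comp, Polynomial.mul_comp, Polynomial.pow_comp, Polynomial.sub_comp,
      Polynomial.X_comp, Polynomial.C_comp, Polynomial.C_comp, add_sub_cancel_right,
      Polynomial.prod_comp]
    have h2 : ∀ b' ∈ (S i).erase b, ((Polynomial.X - Polynomial.C b') ^ m i b').comp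
        (Polynomial.X + Polynomial.C b) = (Polynomial.X + Polynomial.C (b - b')) ^ m i b' := by
      intro b' _
      rw [Polynomial.pow_comp, Polynomial.sub_comp, Polynomial.X_comp, Polynomial.C_comp,
        Polynomial.C_sub]
      ring
    rw [Finset.prod_congr rfl h2]
    ring
  rw [h1]
  have h3 := Polynomial.coeff_mul_X_pow (Polynomial.C (coeff (Finsupp.single 1 d) f) *
        ∏ b' ∈ (S i).erase b, (Polynomial.X + Polynomial.C (b - b')) ^ m i b') (m i b) 0
  rw [zero_add] at h3
  rw [h3, Polynomial.coeff_zero_eq_eval_zero, Polynomial.eval_mul, Polynomial.eval_C,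
    Polynomial.eval_prod]
  refine mul_ne_zero hf.lead (Finset.prod_ne_zero_iff.2 fun b' hb' => ?_)
  rw [Polynomial.eval_pow, Polynomial.eval_add, Polynomial.eval_X, Polynomial.eval_C, zero_add]
  exact pow_ne_zero _ (sub_ne_zero.2 (Finset.ne_of_mem_erase hb').symm)

end Good

end Crest.Agent.R278
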