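import Mathlib
import Crest.Agent.R278.Plane2Cover
import Crest.Agent.R278.Plane2
import Crest.Agent.R278.ChartMap

-- ▼ part R278/Plane2Mult
section

set_option autoImplicit false

/-!
Row 278 (S0421): the multipliers of the charts, valuation part.
-/

namespace Crest.Agent.R278

open MvPolynomial

namespace Plane2

variable (P : Plane2)

/-- the exponent `k` of the multipliers -/
def kk : ℕ := P.r + (∑ i, (P.S i).card) + 1

section K

variable {K : Type} [Field K] [Algebra ℂ K] (x y : K)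

/-- the multipliers -/
noncomputable def mlt : P.L → K
  | Sum.inl 0 => (P.Pμ x / P.th x y) ^ P.kk * ∏ i, P.X x i
  | Sum.inl 1 => (P.Pμ x * x ^ P.n / P.th x y) ^ P.kk * ((∏ i, P.X x i) / x ^ P.r)
  | Sum.inr p => (P.Nn x y p.1 p.2 / P.th x y) ^ P.kk *
      (∏ b' ∈ (P.S p.1).erase p.2, (y - algebraMap ℂ K b')) *
      ∏ k ∈ Finset.univ.erase p.1, P.X x k

variable {x y} (V : ValuationSubring K) (hV : ∀ c : ℂ, algebraMap ℂ K c ∈ V)

omit [Algebra ℂ K] in
theorem unit_of_mul {u v : K} (hu : V.valuation u ≤ 1) (hv : V.valuation v ≤ 1)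
    (huv : V.valuation (u * v) = 1) : V.valuation u = 1 ∧ V.valuation v = 1 := by
  rw [map_mul] at huv
  constructor
  · refine le_antisymm hu ?_
    by_contra h
    push Not at h
    exact absurd huv (mul_lt_one_of_lt_of_le h hv).ne
  · refine le_antisymm hv ?_
    by_contra h
    push Not at h
    rw [mul_comm] at huv
    exact absurd huv (mul_lt_one_of_lt_of_le h hu).ne

omit [Algebra ℂ K] in
theorem unit_of_prod {ι : Type*} (s : Finset ι) (u : ι → K)
    (hu : ∀ i ∈ s, V.valuation (u i) ≤ 1) (h : V.valuation (∏ i ∈ s, u i) = 1) :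
    ∀ i ∈ s, V.valuation (u i) = 1 := by
  classical
  intro i hi
  rw [← Finset.mul_prod_erase _ _ hi] at h
  refine (unit_of_mul V (hu i hi) ?_ h).1
  rw [map_prod]
  exact Finset.prod_le_one' fun j hj => hu j (Finset.mem_of_mem_erase hj)

omit [Algebra ℂ K] in
theorem unit_of_pow {u : K} {k : ℕ} (hk : 0 < k) (h : V.valuation (u ^ k) = 1) :
    V.valuation u = 1 := by
  rw [map_pow] at h
  exact (pow_eq_one_iff_of_nonneg zero_le hk.ne').1 h

include hV

/-- bound of `Θ` from below if `x` is not in `V`. -/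
theorem le_th_of_x (hth : P.th x y ≠ 0) (hx : 1 < V.valuation x) (h1 : P.sec x y (Sum.inl 1) ∈ V) :
    V.valuation x ^ P.D ≤ V.valuation (P.th x y) := by
  have hth0 : V.valuation (P.th x y) ≠ 0 := V.valuation.ne_zero_iff.2 hth
  have h2 := (V.valuation_le_one_iff _).2 h1
  change V.valuation (P.Pμ x * x ^ P.n / P.th x y) ≤ 1 at h2
  rw [map_div₀, div_le_one₀ (zero_lt_iff.2 hth0), map_mul, map_pow] at h2
  have h3 : V.valuation (P.Pμ x) = V.valuation x ^ (∑ i, P.μ i) := by
    rw [val_Pμ, ← Finset.prod_pow_eq_pow_sum]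
    refine Finset.prod_congr rfl fun i _ => ?_
    rw [P.val_X_of_one_lt V hV hx]
  rw [h3, ← pow_add] at h2
  have h4 : ∑ i, P.μ i + P.n = P.D := by
    have := P.hμD
    rw [n]; omega
  rwa [h4] at h2

omit hV in
theorem D_pos : 0 < P.D := (Nat.zero_le _).trans_lt P.hμD

omit hV in
theorem kk_pos : 0 < P.kk := Nat.succ_pos _

omit hV in
theorem n_pos : 0 < P.n := by
  have := P.hμD
  rw [n]; omega

omit hV in
theorem r_lt : P.r < P.kk * P.n := by
  have h1 := P.n_pos
  have h2 : P.r < P.kk := by rw [kk]; omega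
  nlinarith

/-- the affine multiplier -/
theorem mlt_aff (hth : P.th x y ≠ 0) (hsec : ∀ j, P.sec x y j ∈ V)
    (hm : V.valuation (P.mlt x y (Sum.inl 0)) = 1) :
    x ∈ V ∧ y ∈ V ∧ (P.ch x y (Sum.inl 0))⁻¹ ∈ V := by
  have hth0 : V.valuation (P.th x y) ≠ 0 := V.valuation.ne_zero_iff.2 hth
  have hthpos := zero_lt_iff.2 hth0
  change V.valuation ((P.Pμ x / P.th x y) ^ P.kk * ∏ i, P.X x i) = 1 at hm
  have hD := P.hμD
  rcases lt_or_ge 1 (V.valuation x) with hx | hx
  · exfalso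
    have hx0 : V.valuation x ≠ 0 := (zero_lt_one.trans hx).ne'
    have h1 := P.le_th_of_x V hV hth hx (hsec _)
    have h3 : V.valuation (P.Pμ x) = V.valuation x ^ (∑ i, P.μ i) := by
      rw [val_Pμ, ← Finset.prod_pow_eq_pow_sum]
      refine Finset.prod_congr rfl fun i _ => ?_
      rw [P.val_X_of_one_lt V hV hx]
    have h4 : V.valuation (∏ i, P.X x i) = V.valuation x ^ P.r := by
      rw [map_prod, Finset.prod_congr rfl fun i _ => P.val_X_of_one_lt V hV hx i]
      simp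
    rw [map_mul, map_pow, map_div₀, h3, h4, div_pow, div_mul_eq_mul_div, ← pow_mul, ← pow_add,
      div_eq_one_iff_eq (pow_ne_zero _ hth0)] at hm
    have h5 : V.valuation x ^ (P.D * P.kk) ≤ V.valuation (P.th x y) ^ P.kk := by
      rw [pow_mul]
      exact pow_le_pow_left₀ zero_le h1 _
    rw [← hm] at h5
    have h6 : (∑ i, P.μ i) * P.kk + P.r < P.D * P.kk := by
      have : P.r < P.kk := by rw [kk]; omega
      nlinarith
    exact absurd (pow_lt_pow_right₀ hx h6) (not_lt.2 h5)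
  · have hxV := (V.valuation_le_one_iff _).1 hx
    have hX1 : ∀ i, V.valuation (P.X x i) ≤ 1 := fun i =>
      (V.valuation_le_one_iff _).2 (sub_mem hxV (hV _))
    have hs0 : V.valuation (P.Pμ x / P.th x y) ≤ 1 := (V.valuation_le_one_iff _).2 (hsec (Sum.inl 0))
    obtain ⟨h1, h2⟩ := unit_of_mul V (by rw [map_pow]; exact pow_le_one₀ zero_le hs0)
      (by rw [map_prod]; exact Finset.prod_le_one' fun i _ => hX1 i) hm
    have h3 := unit_of_prod V Finset.univ _ (fun i _ => hX1 i) h2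
    have h4 := unit_of_pow V P.kk_pos h1
    have h5 : V.valuation (P.Pμ x) = 1 := by
      rw [val_Pμ]
      exact Finset.prod_eq_one fun i hi => by rw [h3 i hi, one_pow]
    have h6 : V.valuation (P.th x y) = 1 := by
      rw [map_div₀, h5, one_div, inv_eq_one] at h4
      exact h4
    have hy : V.valuation y ≤ 1 := by
      by_contra hy
      push Not at hy
      have h7 := P.good.val_y V hV (hx.trans_lt hy) hy
      change V.valuation (P.th x y) = _ at h7
      rw [h6] at h7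
      exact absurd h7 (one_lt_pow₀ hy P.D_pos.ne').ne
    refine ⟨hxV, (V.valuation_le_one_iff _).1 hy, ?_⟩
    change (P.th x y * ∏ i, P.X x i)⁻¹ ∈ V
    rw [← V.valuation_le_one_iff, map_inv₀, map_mul, h6, h2]
    simp

/-- the multiplier of the chart at infinity -/
theorem mlt_inf (hth : P.th x y ≠ 0) (hx00 : x ≠ 0) (hsec : ∀ j, P.sec x y j ∈ V)
    (hm : V.valuation (P.mlt x y (Sum.inl 1)) = 1) :
    x⁻¹ ∈ V ∧ y / x ∈ V ∧ (P.ch x y (Sum.inl 1))⁻¹ ∈ V := by
  have hth0 : V.valuation (P.th x y) ≠ 0 := V.valuation.ne_zero_iff.2 hth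
  have hthpos := zero_lt_iff.2 hth0
  have hx0 : V.valuation x ≠ 0 := V.valuation.ne_zero_iff.2 hx00
  change V.valuation ((P.Pμ x * x ^ P.n / P.th x y) ^ P.kk * ((∏ i, P.X x i) / x ^ P.r)) = 1 at hm
  have hD := P.hμD
  -- it suffices: `v(x) ≥ 1`, `v(y) ≤ v(x)`, `v(Θ) = v(x)^D`, `v(X_i) = v(x)`
  have key : 1 ≤ V.valuation x → V.valuation y ≤ V.valuation x →
      V.valuation (P.th x y) = V.valuation x ^ P.D →
      (∀ i, V.valuation (P.X x i) = V.valuation x) →
      x⁻¹ ∈ V ∧ y / x ∈ V ∧ (P.ch x y (Sum.inl 1))⁻¹ ∈ V := by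
    intro k1 k2 k3 k4
    refine ⟨?_, ?_, ?_⟩
    · rw [← V.valuation_le_one_iff, map_inv₀, inv_le_one₀ (zero_lt_iff.2 hx0)]; exact k1
    · rw [← V.valuation_le_one_iff, map_div₀, div_le_one₀ (zero_lt_iff.2 hx0)]; exact k2
    · change (P.th x y / x ^ P.D * ∏ i, (1 - algebraMap ℂ K (P.a i) / x))⁻¹ ∈ V
      have h1 : ∀ i, (1 - algebraMap ℂ K (P.a i) / x) = P.X x i / x := by
        intro i
        rw [X]
        field_simp
      rw [← V.valuation_le_one_iff, map_inv₀, map_mul, map_div₀, map_pow, k3,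
        div_self (pow_ne_zero _ hx0), one_mul, map_prod, Finset.prod_eq_one, inv_one]
      intro i _
      rw [h1, map_div₀, k4, div_self hx0]
  rcases lt_or_ge 1 (V.valuation x) with hx | hx
  · have h0 := P.le_th_of_x V hV hth hx (hsec _)
    have hXx : ∀ i, V.valuation (P.X x i) = V.valuation x := P.val_X_of_one_lt V hV hx
    have h4 : V.valuation ((∏ i, P.X x i) / x ^ P.r) = 1 := by
      rw [map_div₀, map_pow, map_prod, Finset.prod_congr rfl fun i _ => hXx i]
      simp [hx0]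
    rw [map_mul, h4, mul_one] at hm
    have h5 := unit_of_pow V P.kk_pos hm
    have h3 : V.valuation (P.Pμ x) = V.valuation x ^ (∑ i, P.μ i) := by
      rw [val_Pμ, ← Finset.prod_pow_eq_pow_sum]
      exact Finset.prod_congr rfl fun i _ => by rw [hXx i]
    have h6 : V.valuation (P.th x y) = V.valuation x ^ P.D := by
      rw [map_div₀, div_eq_one_iff_eq hth0, map_mul, map_pow, h3, ← pow_add] at h5
      have h4 : ∑ i, P.μ i + P.n = P.D := by
        rw [n]; omega
      rw [h4] at h5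
      exact h5.symm
    refine key hx.le ?_ h6 hXx
    by_contra hy
    push Not at hy
    have h7 := P.good.val_y V hV hy (hx.trans hy)
    change V.valuation (P.th x y) = _ at h7
    rw [h6] at h7
    exact absurd h7 (pow_lt_pow_left₀ hy zero_le P.D_pos.ne').ne
  · have hxV := (V.valuation_le_one_iff _).1 hx
    have hX1 : ∀ i, V.valuation (P.X x i) ≤ 1 := fun i =>
      (V.valuation_le_one_iff _).2 (sub_mem hxV (hV _))
    have hs0 : V.valuation (P.Pμ x / P.th x y) ≤ 1 := (V.valuation_le_one_iff _).2 (hsec (Sum.inl 0))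
    have e1 : (P.Pμ x * x ^ P.n / P.th x y) ^ P.kk * ((∏ i, P.X x i) / x ^ P.r) =
        ((P.Pμ x / P.th x y) ^ P.kk * ∏ i, P.X x i) * x ^ (P.kk * P.n - P.r) := by
      have e2 : P.kk * P.n = (P.kk * P.n - P.r) + P.r := by
        have := P.r_lt; omega
      have e3 : (x ^ P.n) ^ P.kk = x ^ (P.kk * P.n - P.r) * x ^ P.r := by
        rw [← pow_mul, ← pow_add, ← e2, mul_comm]
      rw [div_pow, div_pow, mul_pow, e3]
      field_simp
    rw [e1] at hm
    have hxp : V.valuation (x ^ (P.kk * P.n - P.r)) ≤ 1 := by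
      rw [map_pow]; exact pow_le_one₀ zero_le hx
    have h12 : V.valuation ((P.Pμ x / P.th x y) ^ P.kk * ∏ i, P.X x i) ≤ 1 := by
      rw [map_mul, map_pow, map_prod]
      exact mul_le_one' (pow_le_one₀ zero_le hs0) (Finset.prod_le_one' fun i _ => hX1 i)
    obtain ⟨h10, h11⟩ := unit_of_mul V h12 hxp hm
    obtain ⟨h1, h2⟩ := unit_of_mul V (by rw [map_pow]; exact pow_le_one₀ zero_le hs0)
      (by rw [map_prod]; exact Finset.prod_le_one' fun i _ => hX1 i) h10
    have h3 := unit_of_prod V Finset.univ _ (fun i _ => hX1 i) h2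
    have h4 := unit_of_pow V P.kk_pos h1
    have hxu : V.valuation x = 1 := unit_of_pow V (by have := P.r_lt; omega) h11
    have h5 : V.valuation (P.Pμ x) = 1 := by
      rw [val_Pμ]
      exact Finset.prod_eq_one fun i hi => by rw [h3 i hi, one_pow]
    have h6 : V.valuation (P.th x y) = 1 := by
      rw [map_div₀, h5, one_div, inv_eq_one] at h4
      exact h4
    have hy : V.valuation y ≤ 1 := by
      by_contra hy
      push Not at hy
      have h7 := P.good.val_y V hV (hx.trans_lt hy) hy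
      change V.valuation (P.th x y) = _ at h7
      rw [h6] at h7
      exact absurd h7 (one_lt_pow₀ hy P.D_pos.ne').ne
    refine key hxu.ge (by rw [hxu]; exact hy) (by rw [h6, hxu, one_pow]) fun i => ?_
    rw [h3 i (Finset.mem_univ i), hxu]

omit hV in
/-- the degree of the numerator of a point multiplier -/
theorem mlt_deg (i : Fin P.r) {b : ℂ} (hb : b ∈ P.S i) :
    (P.M i b + ∑ b' ∈ (P.S i).erase b, (P.M i b' - P.M i b) +
      ∑ k ∈ Finset.univ.erase i, P.μ k) * P.kk + ((P.S i).erase b).card +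
      (Finset.univ.erase i).card < P.D * P.kk := by
  classical
  have h1 := P.hN i b hb
  set N := P.M i b + ∑ b' ∈ (P.S i).erase b, (P.M i b' - P.M i b) +
    ∑ k ∈ Finset.univ.erase i, P.μ k
  have h2 : ((P.S i).erase b).card < (P.S i).card := Finset.card_erase_lt_of_mem hb
  have h3 : (Finset.univ.erase i).card ≤ P.r := by
    refine (Finset.card_le_card (Finset.erase_subset _ _)).trans ?_
    simp
  have h4 : (P.S i).card ≤ ∑ i, (P.S i).card :=
    Finset.single_le_sum (f := fun i => (P.S i).card) (fun _ _ => Nat.zero_le _)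
      (Finset.mem_univ i)
  have h5 : N * P.kk + P.kk ≤ P.D * P.kk := by nlinarith
  have h6 : ((P.S i).erase b).card + (Finset.univ.erase i).card < P.kk := by
    rw [kk]; omega
  omega

/-- the multipliers of the points -/
theorem mlt_pt (hth : P.th x y ≠ 0) (hX0 : ∀ i, P.X x i ≠ 0)
    (hsec : ∀ j, P.sec x y j ∈ V) (i : Fin P.r) {b : ℂ} (hb : b ∈ P.S i)
    (hm : V.valuation (P.mlt x y (Sum.inr ⟨i, b, hb⟩)) = 1) :
    P.X x i ∈ V ∧ (y - algebraMap ℂ K b) / P.X x i ∈ V ∧
      (P.ch x y (Sum.inr ⟨i, b, hb⟩))⁻¹ ∈ V := by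
  classical
  have hth0 : V.valuation (P.th x y) ≠ 0 := V.valuation.ne_zero_iff.2 hth
  have hthpos := zero_lt_iff.2 hth0
  change V.valuation ((P.Nn x y i b / P.th x y) ^ P.kk *
      (∏ b' ∈ (P.S i).erase b, (y - algebraMap ℂ K b')) *
      ∏ k ∈ Finset.univ.erase i, P.X x k) = 1 at hm
  have hdeg := P.mlt_deg i hb
  -- the infinite cases
  have hinf : ∀ ρ : V.ValueGroup, 1 < ρ → V.valuation x ≤ ρ → V.valuation y ≤ ρ →
      ρ ^ P.D ≤ V.valuation (P.th x y) → False := by
    intro ρ hρ hxρ hyρ hthρ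
    have hρ0 : ρ ≠ 0 := (zero_lt_one.trans hρ).ne'
    have hXρ : ∀ k, V.valuation (P.X x k) ≤ ρ := fun k =>
      (P.val_X_le V hV k).trans (max_le hxρ hρ.le)
    have hYρ : ∀ b' : ℂ, V.valuation (y - algebraMap ℂ K b') ≤ ρ := fun b' =>
      (V.valuation.map_sub _ _).trans (max_le hyρ ((val_const_le V hV _).trans hρ.le))
    have hN : V.valuation (P.Nn x y i b) ≤ ρ ^ (P.M i b +
        ∑ b' ∈ (P.S i).erase b, (P.M i b' - P.M i b) + ∑ k ∈ Finset.univ.erase i, P.μ k) := by
      unfold Nn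
      rw [map_mul, map_mul, map_pow, map_prod, map_prod, pow_add, pow_add,
        ← Finset.prod_pow_eq_pow_sum, ← Finset.prod_pow_eq_pow_sum]
      refine mul_le_mul' (mul_le_mul' (pow_le_pow_left₀ zero_le (hXρ i) _) ?_) ?_
      · refine Finset.prod_le_prod' fun b' _ => ?_
        rw [map_pow]
        exact pow_le_pow_left₀ zero_le (hYρ b') _
      · refine Finset.prod_le_prod' fun k _ => ?_
        rw [map_pow]
        exact pow_le_pow_left₀ zero_le (hXρ k) _
    have h1 : V.valuation (∏ b' ∈ (P.S i).erase b, (y - algebraMap ℂ K b')) ≤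
        ρ ^ ((P.S i).erase b).card := by
      rw [map_prod, ← Finset.prod_const]
      exact Finset.prod_le_prod' fun b' _ => hYρ b'
    have h2 : V.valuation (∏ k ∈ Finset.univ.erase i, P.X x k) ≤
        ρ ^ (Finset.univ.erase i).card := by
      rw [map_prod, ← Finset.prod_const]
      exact Finset.prod_le_prod' fun k _ => hXρ k
    rw [map_mul, map_mul, map_pow, map_div₀, div_pow, div_mul_eq_mul_div, div_mul_eq_mul_div,
      div_eq_one_iff_eq (pow_ne_zero _ hth0)] at hm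
    have h3 : V.valuation (P.th x y) ^ P.kk ≤ ρ ^ ((P.M i b +
        ∑ b' ∈ (P.S i).erase b, (P.M i b' - P.M i b) + ∑ k ∈ Finset.univ.erase i, P.μ k) *
          P.kk + ((P.S i).erase b).card + (Finset.univ.erase i).card) := by
      rw [← hm, pow_add, pow_add, pow_mul]
      exact mul_le_mul' (mul_le_mul' (pow_le_pow_left₀ zero_le hN _) h1) h2
    have h4 : ρ ^ (P.D * P.kk) ≤ V.valuation (P.th x y) ^ P.kk := by
      rw [pow_mul]
      exact pow_le_pow_left₀ zero_le hthρ _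
    exact absurd (h4.trans h3) (not_le.2 (pow_lt_pow_right₀ hρ hdeg))
  rcases lt_or_ge 1 (V.valuation x) with hx | hx
  · rcases lt_or_ge (V.valuation x) (V.valuation y) with hxy | hyx
    · exact (hinf _ (hx.trans hxy) hxy.le le_rfl
        (P.good.val_y V hV hxy (hx.trans hxy)).ge).elim
    · exact (hinf _ hx le_rfl hyx (P.le_th_of_x V hV hth hx (hsec _))).elim
  rcases lt_or_ge 1 (V.valuation y) with hy | hy
  · exact (hinf _ hy (hx.trans hy.le) le_rfl (P.good.val_y V hV (hx.trans_lt hy) hy).ge).elim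
  -- the finite case
  have hxV := (V.valuation_le_one_iff _).1 hx
  have hyV := (V.valuation_le_one_iff _).1 hy
  have hXV : ∀ k, P.X x k ∈ V := fun k => sub_mem hxV (hV _)
  have hX1 : ∀ k, V.valuation (P.X x k) ≤ 1 := fun k => (V.valuation_le_one_iff _).2 (hXV k)
  have hYV : ∀ b' : ℂ, y - algebraMap ℂ K b' ∈ V := fun b' => sub_mem hyV (hV _)
  have hY1 : ∀ b' : ℂ, V.valuation (y - algebraMap ℂ K b') ≤ 1 := fun b' =>
    (V.valuation_le_one_iff _).2 (hYV b')
  have hs1 : V.valuation (P.Nn x y i b / P.th x y) ≤ 1 :=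
    (V.valuation_le_one_iff _).2 (hsec (Sum.inr ⟨i, b, hb⟩))
  have hs2 : V.valuation ((P.Nn x y i b / P.th x y) ^ P.kk) ≤ 1 := by
    rw [map_pow]; exact pow_le_one₀ zero_le hs1
  have hs3 : V.valuation (∏ b' ∈ (P.S i).erase b, (y - algebraMap ℂ K b')) ≤ 1 := by
    rw [map_prod]; exact Finset.prod_le_one' fun b' _ => hY1 b'
  have hs4 : V.valuation (∏ k ∈ Finset.univ.erase i, P.X x k) ≤ 1 := by
    rw [map_prod]; exact Finset.prod_le_one' fun k _ => hX1 k
  obtain ⟨h1, h2⟩ := unit_of_mul V (by rw [map_mul]; exact mul_le_one' hs2 hs3) hs4 hm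
  obtain ⟨h3, h4⟩ := unit_of_mul V hs2 hs3 h1
  have h5 := unit_of_pow V P.kk_pos h3
  have h6 := unit_of_prod V _ _ (fun b' _ => hY1 b') h4
  have h7 := unit_of_prod V _ _ (fun k _ => hX1 k) h2
  have hXi0 : V.valuation (P.X x i) ≠ 0 := V.valuation.ne_zero_iff.2 (hX0 i)
  have h8 : V.valuation (P.th x y) = V.valuation (P.X x i) ^ P.M i b := by
    have hE : V.valuation (∏ k ∈ Finset.univ.erase i, P.X x k ^ P.μ k) = 1 := by
      rw [map_prod]
      refine Finset.prod_eq_one fun k hk' => ?_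
      rw [map_pow, h7 k hk', one_pow]
    have hE2 : V.valuation (∏ b' ∈ (P.S i).erase b,
        (y - algebraMap ℂ K b') ^ (P.M i b' - P.M i b)) = 1 := by
      rw [map_prod]
      refine Finset.prod_eq_one fun b' hb'' => ?_
      rw [map_pow, h6 b' hb'', one_pow]
    rw [map_div₀, div_eq_one_iff_eq hth0] at h5
    unfold Nn at h5
    rw [map_mul, map_mul, hE, hE2, mul_one, mul_one, map_pow] at h5
    exact h5.symm
  have hYX : V.valuation (y - algebraMap ℂ K b) ≤ V.valuation (P.X x i) := by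
    by_contra hcon
    push Not at hcon
    have hXi : V.valuation (P.X x i) < 1 := hcon.trans_le (hY1 b)
    rcases lt_or_ge (V.valuation (y - algebraMap ℂ K b)) 1 with hYb | hYb
    · have h9 : V.valuation (P.th x y) = V.valuation (y - algebraMap ℂ K b) ^ P.M i b :=
        P.good.val_dir V hV i hb hcon hYb
      rw [h8] at h9
      exact absurd h9 (pow_lt_pow_left₀ hcon zero_le (P.M_pos i b hb).ne').ne
    · have h9 : V.valuation (P.th x y) = 1 := by
        refine P.good.val_arm V hV i hXi hyV fun b' hb' => ?_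
        by_cases hbb : b' = b
        · rw [hbb]; exact le_antisymm (hY1 b) hYb
        · exact h6 b' (Finset.mem_erase.2 ⟨hbb, hb'⟩)
      rw [h8] at h9
      exact absurd h9 (pow_lt_one₀ zero_le hXi (P.M_pos i b hb).ne').ne
  refine ⟨hXV i, ?_, ?_⟩
  · rw [← V.valuation_le_one_iff, map_div₀, div_le_one₀ (zero_lt_iff.2 hXi0)]
    exact hYX
  · change (P.th x y / P.X x i ^ P.M i b * (∏ k ∈ Finset.univ.erase i, P.X x k) *
      ∏ b' ∈ (P.S i).erase b, (y - algebraMap ℂ K b'))⁻¹ ∈ V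
    rw [← V.valuation_le_one_iff, map_inv₀, map_mul, map_mul, map_div₀, map_pow, h8,
      div_self (pow_ne_zero _ hXi0), one_mul, h2, h4]
    simp

/-- **the valuation property of the multipliers.** -/
theorem mlt_val (hth : P.th x y ≠ 0) (hx0 : x ≠ 0) (hX0 : ∀ i, P.X x i ≠ 0)
    (hsec : ∀ j, P.sec x y j ∈ V) (l : P.L) (h1 : P.mlt x y l ∈ V)
    (h2 : (P.mlt x y l)⁻¹ ∈ V) (h0 : P.mlt x y l ≠ 0) :
    P.cp x l ∈ V ∧ P.cq x y l ∈ V ∧ (P.ch x y l)⁻¹ ∈ V := by
  have hm : V.valuation (P.mlt x y l) = 1 := by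
    refine le_antisymm ((V.valuation_le_one_iff _).2 h1) ?_
    have h3 := (V.valuation_le_one_iff _).2 h2
    rwa [map_inv₀, inv_le_one₀ (zero_lt_iff.2 (V.valuation.ne_zero_iff.2 h0))] at h3
  match l with
  | Sum.inl 0 => exact P.mlt_aff V hV hth hsec hm
  | Sum.inl 1 => exact P.mlt_inf V hV hth hx0 hsec hm
  | Sum.inr ⟨i, b, hb⟩ => exact P.mlt_pt V hV hth hX0 hsec i hb hm

end K

end Plane2

end Crest.Agent.R278
end

-- ▼ part R278/Plane2Reg

/-!
Row 278 (S0421): regularity of the sections `Q / Theta ^ k` in the three types of charts.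
-/

set_option autoImplicit false

namespace Crest.Agent.R278

open MvPolynomial

section Reg

variable {F : Type*} [Field F] [Algebra ℂ F] (x y : F)
variable {r : ℕ} (a : Fin r → ℂ) (S : Fin r → Finset ℂ) (T : P2) (D : ℕ) (M : Fin r → ℂ → ℕ)

/-- `h` of the affine chart `(x, y)` -/
noncomputable def hAff : F := aeval ![x, y] T * ∏ i, (x - algebraMap ℂ F (a i))

/-- `h` of the chart at infinity `(1/x, y/x)` -/
noncomputable def hInf : F := aeval ![x, y] T / x ^ D * ∏ i, (1 - algebraMap ℂ F (a i) / x)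

/-- `h` of the chart at the point `(i, b)` -/
noncomputable def hPt (i : Fin r) (b : ℂ) : F :=
  aeval ![x, y] T / (x - algebraMap ℂ F (a i)) ^ M i b *
    (∏ k ∈ Finset.univ.erase i, (x - algebraMap ℂ F (a k))) *
    ∏ b' ∈ (S i).erase b, (y - algebraMap ℂ F b')

variable {x y a S T D M}

theorem aeval_mem_polyRing (p q : F) (f : P2) : aeval ![p, q] f ∈ polyRing ℂ p q :=
  (mem_polyRing_iff p q _).2 ⟨f, rfl⟩

theorem left_mem_polyRing (p q : F) : p ∈ polyRing ℂ p q := Algebra.subset_adjoin (Or.inl rfl)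

theorem right_mem_polyRing (p q : F) : q ∈ polyRing ℂ p q := Algebra.subset_adjoin (Or.inr rfl)

theorem const_mem_polyRing (p q : F) (c : ℂ) : algebraMap ℂ F c ∈ polyRing ℂ p q :=
  Subalgebra.algebraMap_mem _ c

theorem RatCoord.aeval_ne {p q : F} (h : RatCoord ℂ F p q) {f : P2} (hf : f ≠ 0) :
    aeval ![p, q] f ≠ 0 := by
  intro h0
  exact hf ((injective_iff_map_eq_zero _).mp h.ind _ h0)

theorem RatCoord.sub_ne {p q : F} (h : RatCoord ℂ F p q) (c : ℂ) :
    p - algebraMap ℂ F c ≠ 0 := by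
  have h1 : (X 0 - C c : P2) ≠ 0 := by
    intro h0
    have h3 := congrArg (MvPolynomial.eval (fun _ : Fin 2 => c + 1)) h0
    simp at h3
  have h2 := h.aeval_ne h1
  rw [map_sub, aeval_X, aeval_C] at h2
  exact h2

theorem RatCoord.sub_ne' {p q : F} (h : RatCoord ℂ F p q) (c : ℂ) :
    q - algebraMap ℂ F c ≠ 0 := h.swap.sub_ne c


/-! ### the affine chart -/



theorem reg_aff (h : RatCoord ℂ F x y) (hT : T ≠ 0) (Q : P2) (k : ℕ) :
    aeval ![x, y] Q / aeval ![x, y] T ^ k ∈ chartRing ℂ x y (hAff x y a T) := by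
  have hT' := h.aeval_ne hT
  have hP : (∏ i, (x - algebraMap ℂ F (a i))) ≠ 0 :=
    Finset.prod_ne_zero_iff.2 fun i _ => h.sub_ne (a i)
  have h1 : aeval ![x, y] Q / aeval ![x, y] T ^ k
      = aeval ![x, y] Q * (∏ i, (x - algebraMap ℂ F (a i))) ^ k * ((hAff x y a T)⁻¹) ^ k := by
    unfold hAff
    generalize (∏ i, (x - algebraMap ℂ F (a i))) = P at hP ⊢
    rw [mul_inv, mul_pow, inv_pow, inv_pow]
    field_simp
  rw [h1]
  have hle := polyRing_le_chartRing (k := ℂ) x y (hAff x y a T)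
  refine mul_mem (mul_mem (hle (aeval_mem_polyRing x y Q)) (pow_mem (hle ?_) k))
    (pow_mem (inv_mem_chartRing _ _ _) k)
  exact prod_mem fun i _ => sub_mem (left_mem_polyRing x y) (const_mem_polyRing x y _)

/-! ### the chart at infinity -/

theorem div_pow_mem_polyRing {Q : P2} {d : ℕ} (hx : x ≠ 0) (hQ : Q.totalDegree ≤ d) :
    aeval ![x, y] Q / x ^ d ∈ polyRing ℂ x⁻¹ (y / x) := by
  rw [aeval_def, eval₂_eq', Finset.sum_div]
  refine sum_mem fun s hs => ?_
  have h1 := (le_totalDegree hs).trans hQ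
  rw [degree_eq] at h1
  rw [Fin.prod_univ_two]
  simp only [Matrix.cons_val_zero, Matrix.cons_val_one]
  obtain ⟨e, he⟩ := Nat.exists_eq_add_of_le h1
  have h2 : algebraMap ℂ F (coeff s Q) * (x ^ s 0 * y ^ s 1) / x ^ d
      = algebraMap ℂ F (coeff s Q) * ((x⁻¹) ^ e * (y / x) ^ s 1) := by
    rw [he, div_pow, inv_pow, pow_add, pow_add]
    field_simp
  rw [h2]
  exact mul_mem (const_mem_polyRing _ _ _) (mul_mem (pow_mem (left_mem_polyRing _ _) _)
    (pow_mem (right_mem_polyRing _ _) _))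

theorem one_sub_div_mem (c : ℂ) : 1 - algebraMap ℂ F c / x ∈ polyRing ℂ x⁻¹ (y / x) := by
  rw [div_eq_mul_inv (algebraMap ℂ F c)]
  exact sub_mem (one_mem _) (mul_mem (const_mem_polyRing _ _ _) (left_mem_polyRing _ _))

theorem one_sub_div_ne (h : RatCoord ℂ F x y) (c : ℂ) : 1 - algebraMap ℂ F c / x ≠ 0 := by
  have hx := h.left_ne_zero
  have h1 := h.sub_ne c
  intro h0
  apply h1
  have h2 : (1 - algebraMap ℂ F c / x) * x = x - algebraMap ℂ F c := by field_simp
  rw [← h2, h0, zero_mul]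



theorem reg_inf (h : RatCoord ℂ F x y) (hT : T ≠ 0) {Q : P2} {k : ℕ}
    (hQ : Q.totalDegree ≤ k * D) :
    aeval ![x, y] Q / aeval ![x, y] T ^ k ∈ chartRing ℂ x⁻¹ (y / x) (hInf x y a T D) := by
  have hT' := h.aeval_ne hT
  have hx := h.left_ne_zero
  have hP : (∏ i, (1 - algebraMap ℂ F (a i) / x)) ≠ 0 :=
    Finset.prod_ne_zero_iff.2 fun i _ => one_sub_div_ne h (a i)
  have h1 : aeval ![x, y] Q / aeval ![x, y] T ^ k
      = (aeval ![x, y] Q / x ^ (k * D)) * (∏ i, (1 - algebraMap ℂ F (a i) / x)) ^ k *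
        ((hInf x y a T D)⁻¹) ^ k := by
    unfold hInf
    rw [mul_comm k D, pow_mul]
    generalize (∏ i, (1 - algebraMap ℂ F (a i) / x)) = P at hP ⊢
    have hxD : x ^ D ≠ 0 := pow_ne_zero _ hx
    generalize x ^ D = X at hxD ⊢
    rw [mul_inv, mul_pow, inv_div, inv_pow, div_pow]
    field_simp
  rw [h1]
  have hle := polyRing_le_chartRing (k := ℂ) x⁻¹ (y / x) (hInf x y a T D)
  refine mul_mem (mul_mem (hle (div_pow_mem_polyRing hx hQ)) (pow_mem (hle ?_) k))
    (pow_mem (inv_mem_chartRing _ _ _) k)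
  exact prod_mem fun i _ => one_sub_div_mem (a i)

/-! ### the charts at the points -/

section Pt

variable (i : Fin r) {b : ℂ}

theorem pt_quot (h : RatCoord ℂ F x y) (b : ℂ) {Q : P2} {m : ℕ} (hQ : Q ∈ mI (a i) b ^ m) :
    aeval ![x, y] Q / (x - algebraMap ℂ F (a i)) ^ m ∈
      polyRing ℂ (x - algebraMap ℂ F (a i))
        ((y - algebraMap ℂ F b) / (x - algebraMap ℂ F (a i))) := by
  have hX := h.sub_ne (a i)
  obtain ⟨t, ht⟩ := bl_dvd hQ
  rw [← ev_bl x y (a i) b hX, ht, map_mul, map_pow, aeval_X]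
  simp only [Matrix.cons_val_zero]
  rw [mul_div_cancel_left₀ _ (pow_ne_zero _ hX)]
  exact aeval_mem_polyRing _ _ t

theorem pt_X (b : ℂ) (k : Fin r) : x - algebraMap ℂ F (a k) ∈
    polyRing ℂ (x - algebraMap ℂ F (a i))
      ((y - algebraMap ℂ F b) / (x - algebraMap ℂ F (a i))) := by
  have h1 : x - algebraMap ℂ F (a k)
      = (x - algebraMap ℂ F (a i)) + algebraMap ℂ F (a i - a k) := by
    rw [map_sub]; ring
  rw [h1]
  exact add_mem (left_mem_polyRing _ _) (const_mem_polyRing _ _ _)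

theorem pt_y (h : RatCoord ℂ F x y) (b b' : ℂ) : y - algebraMap ℂ F b' ∈
    polyRing ℂ (x - algebraMap ℂ F (a i))
      ((y - algebraMap ℂ F b) / (x - algebraMap ℂ F (a i))) := by
  have hX := h.sub_ne (a i)
  have h1 : y - algebraMap ℂ F b'
      = (x - algebraMap ℂ F (a i)) * ((y - algebraMap ℂ F b) / (x - algebraMap ℂ F (a i)))
        + algebraMap ℂ F (b - b') := by
    rw [map_sub, mul_div_cancel₀ _ hX]; ring
  rw [h1]
  exact add_mem (mul_mem (left_mem_polyRing _ _) (right_mem_polyRing _ _))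
    (const_mem_polyRing _ _ _)



theorem reg_pt (h : RatCoord ℂ F x y) (hT : T ≠ 0) {Q : P2} {k : ℕ}
    (hQ : Q ∈ mI (a i) b ^ (k * M i b)) :
    aeval ![x, y] Q / aeval ![x, y] T ^ k ∈
      chartRing ℂ (x - algebraMap ℂ F (a i))
        ((y - algebraMap ℂ F b) / (x - algebraMap ℂ F (a i))) (hPt x y a S T M i b) := by
  have hT' := h.aeval_ne hT
  have hX := h.sub_ne (a i)
  have hP : (∏ k ∈ Finset.univ.erase i, (x - algebraMap ℂ F (a k))) ≠ 0 :=
    Finset.prod_ne_zero_iff.2 fun k _ => h.sub_ne (a k)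
  have hR : (∏ b' ∈ (S i).erase b, (y - algebraMap ℂ F b')) ≠ 0 :=
    Finset.prod_ne_zero_iff.2 fun b' _ => h.sub_ne' b'
  have h1 : aeval ![x, y] Q / aeval ![x, y] T ^ k
      = (aeval ![x, y] Q / (x - algebraMap ℂ F (a i)) ^ (k * M i b)) *
        (∏ k ∈ Finset.univ.erase i, (x - algebraMap ℂ F (a k))) ^ k *
        (∏ b' ∈ (S i).erase b, (y - algebraMap ℂ F b')) ^ k *
        ((hPt x y a S T M i b)⁻¹) ^ k := by
    unfold hPt
    rw [mul_comm k (M i b), pow_mul]
    generalize (∏ k ∈ Finset.univ.erase i, (x - algebraMap ℂ F (a k))) = P at hP ⊢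
    generalize (∏ b' ∈ (S i).erase b, (y - algebraMap ℂ F b')) = R at hR ⊢
    have hXM : (x - algebraMap ℂ F (a i)) ^ M i b ≠ 0 := pow_ne_zero _ hX
    generalize (x - algebraMap ℂ F (a i)) ^ M i b = X at hXM ⊢
    rw [mul_inv, mul_pow, mul_inv, mul_pow, inv_div, inv_pow, inv_pow, div_pow]
    field_simp
  rw [h1]
  have hle := polyRing_le_chartRing (k := ℂ) (x - algebraMap ℂ F (a i))
    ((y - algebraMap ℂ F b) / (x - algebraMap ℂ F (a i))) (hPt x y a S T M i b)
  refine mul_mem (mul_mem (mul_mem (hle (pt_quot i h b hQ)) (pow_mem (hle ?_) k))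
    (pow_mem (hle ?_) k)) (pow_mem (inv_mem_chartRing _ _ _) k)
  · exact prod_mem fun k _ => pt_X i b k
  · exact prod_mem fun b' _ => pt_y i h b b'

end Pt

/-! ### units -/


theorem aff_inv_X_mem (h : RatCoord ℂ F x y) (hT : T ≠ 0) (j : Fin r) :
    (x - algebraMap ℂ F (a j))⁻¹ ∈ chartRing ℂ x y (hAff x y a T) := by
  have hT' := h.aeval_ne hT
  have hX := h.sub_ne (a j)
  have hP : (∏ k ∈ Finset.univ.erase j, (x - algebraMap ℂ F (a k))) ≠ 0 :=
    Finset.prod_ne_zero_iff.2 fun k _ => h.sub_ne (a k)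
  have h1 : (x - algebraMap ℂ F (a j))⁻¹ = aeval ![x, y] T *
      (∏ k ∈ Finset.univ.erase j, (x - algebraMap ℂ F (a k))) * (hAff x y a T)⁻¹ := by
    unfold hAff
    rw [← Finset.mul_prod_erase Finset.univ _ (Finset.mem_univ j)]
    generalize (∏ k ∈ Finset.univ.erase j, (x - algebraMap ℂ F (a k))) = P at hP ⊢
    field_simp
  rw [h1]
  have hle := polyRing_le_chartRing (k := ℂ) x y (hAff x y a T)
  refine mul_mem (hle (mul_mem (aeval_mem_polyRing x y T) ?_)) (inv_mem_chartRing _ _ _)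
  exact prod_mem fun i _ => sub_mem (left_mem_polyRing x y) (const_mem_polyRing x y _)


theorem inf_inv_X_mem (h : RatCoord ℂ F x y) (hT : T ≠ 0) (hd : T.totalDegree ≤ D) (j : Fin r) :
    (1 - algebraMap ℂ F (a j) / x)⁻¹ ∈ chartRing ℂ x⁻¹ (y / x) (hInf x y a T D) := by
  have hT' := h.aeval_ne hT
  have hx := h.left_ne_zero
  have hX := one_sub_div_ne h (a j)
  have hP : (∏ k ∈ Finset.univ.erase j, (1 - algebraMap ℂ F (a k) / x)) ≠ 0 :=
    Finset.prod_ne_zero_iff.2 fun i _ => one_sub_div_ne h (a i)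
  have h1 : (1 - algebraMap ℂ F (a j) / x)⁻¹ = (aeval ![x, y] T / x ^ D) *
      (∏ k ∈ Finset.univ.erase j, (1 - algebraMap ℂ F (a k) / x)) * (hInf x y a T D)⁻¹ := by
    unfold hInf
    rw [← Finset.mul_prod_erase Finset.univ _ (Finset.mem_univ j)]
    generalize (∏ k ∈ Finset.univ.erase j, (1 - algebraMap ℂ F (a k) / x)) = P at hP ⊢
    have hxD : x ^ D ≠ 0 := pow_ne_zero _ hx
    generalize (1 - algebraMap ℂ F (a j) / x) = X at hX ⊢
    generalize x ^ D = Z at hxD ⊢
    field_simp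
  rw [h1]
  have hle := polyRing_le_chartRing (k := ℂ) x⁻¹ (y / x) (hInf x y a T D)
  refine mul_mem (hle (mul_mem (div_pow_mem_polyRing hx hd) ?_)) (inv_mem_chartRing _ _ _)
  exact prod_mem fun i _ => one_sub_div_mem (a i)

section PtUnits

variable (i : Fin r) {b : ℂ}


theorem pt_inv_X_mem (h : RatCoord ℂ F x y) (hT : T ∈ mI (a i) b ^ M i b) (hT0 : T ≠ 0)
    {j : Fin r} (hj : j ≠ i) :
    (x - algebraMap ℂ F (a j))⁻¹ ∈
      chartRing ℂ (x - algebraMap ℂ F (a i))
        ((y - algebraMap ℂ F b) / (x - algebraMap ℂ F (a i))) (hPt x y a S T M i b) := by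
  have hT' := h.aeval_ne hT0
  have hX := h.sub_ne (a i)
  have hXj := h.sub_ne (a j)
  have hP : (∏ k ∈ (Finset.univ.erase i).erase j, (x - algebraMap ℂ F (a k))) ≠ 0 :=
    Finset.prod_ne_zero_iff.2 fun k _ => h.sub_ne (a k)
  have hR : (∏ b' ∈ (S i).erase b, (y - algebraMap ℂ F b')) ≠ 0 :=
    Finset.prod_ne_zero_iff.2 fun b' _ => h.sub_ne' b'
  have h1 : (x - algebraMap ℂ F (a j))⁻¹ =
      aeval ![x, y] T / (x - algebraMap ℂ F (a i)) ^ M i b *
      (∏ k ∈ (Finset.univ.erase i).erase j, (x - algebraMap ℂ F (a k))) *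
        (∏ b' ∈ (S i).erase b, (y - algebraMap ℂ F b')) * (hPt x y a S T M i b)⁻¹ := by
    unfold hPt
    rw [← Finset.mul_prod_erase (Finset.univ.erase i) _
      (Finset.mem_erase.2 ⟨hj, Finset.mem_univ j⟩)]
    generalize (∏ k ∈ (Finset.univ.erase i).erase j, (x - algebraMap ℂ F (a k))) = P at hP ⊢
    generalize (∏ b' ∈ (S i).erase b, (y - algebraMap ℂ F b')) = R at hR ⊢
    have hXM : (x - algebraMap ℂ F (a i)) ^ M i b ≠ 0 := pow_ne_zero _ hX
    generalize (x - algebraMap ℂ F (a i)) ^ M i b = X at hXM ⊢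
    field_simp
  rw [h1]
  have hle := polyRing_le_chartRing (k := ℂ) (x - algebraMap ℂ F (a i))
    ((y - algebraMap ℂ F b) / (x - algebraMap ℂ F (a i))) (hPt x y a S T M i b)
  refine mul_mem (hle (mul_mem (mul_mem (pt_quot i h b hT) ?_) ?_)) (inv_mem_chartRing _ _ _)
  · exact prod_mem fun k _ => pt_X i b k
  · exact prod_mem fun b' _ => pt_y i h b b'

theorem pt_inv_y_mem (h : RatCoord ℂ F x y) (hT : T ∈ mI (a i) b ^ M i b) (hT0 : T ≠ 0)
    {b' : ℂ} (hb' : b' ∈ (S i).erase b) :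
    (y - algebraMap ℂ F b')⁻¹ ∈
      chartRing ℂ (x - algebraMap ℂ F (a i))
        ((y - algebraMap ℂ F b) / (x - algebraMap ℂ F (a i))) (hPt x y a S T M i b) := by
  classical
  have hT' := h.aeval_ne hT0
  have hX := h.sub_ne (a i)
  have hYj := h.sub_ne' b'
  have hP : (∏ k ∈ Finset.univ.erase i, (x - algebraMap ℂ F (a k))) ≠ 0 :=
    Finset.prod_ne_zero_iff.2 fun k _ => h.sub_ne (a k)
  have hR : (∏ c ∈ ((S i).erase b).erase b', (y - algebraMap ℂ F c)) ≠ 0 :=
    Finset.prod_ne_zero_iff.2 fun b' _ => h.sub_ne' b'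
  have h1 : (y - algebraMap ℂ F b')⁻¹ =
      aeval ![x, y] T / (x - algebraMap ℂ F (a i)) ^ M i b *
      (∏ k ∈ Finset.univ.erase i, (x - algebraMap ℂ F (a k))) *
        (∏ c ∈ ((S i).erase b).erase b', (y - algebraMap ℂ F c)) *
        (hPt x y a S T M i b)⁻¹ := by
    unfold hPt
    rw [← Finset.mul_prod_erase ((S i).erase b) _ hb']
    generalize (∏ k ∈ Finset.univ.erase i, (x - algebraMap ℂ F (a k))) = P at hP ⊢
    generalize (∏ c ∈ ((S i).erase b).erase b', (y - algebraMap ℂ F c)) = R at hR ⊢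
    have hXM : (x - algebraMap ℂ F (a i)) ^ M i b ≠ 0 := pow_ne_zero _ hX
    generalize (x - algebraMap ℂ F (a i)) ^ M i b = X at hXM ⊢
    field_simp
  rw [h1]
  have hle := polyRing_le_chartRing (k := ℂ) (x - algebraMap ℂ F (a i))
    ((y - algebraMap ℂ F b) / (x - algebraMap ℂ F (a i))) (hPt x y a S T M i b)
  refine mul_mem (hle (mul_mem (mul_mem (pt_quot i h b hT) ?_) ?_)) (inv_mem_chartRing _ _ _)
  · exact prod_mem fun k _ => pt_X i b k
  · exact prod_mem fun c _ => pt_y i h b c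

end PtUnits

end Reg

end Crest.Agent.R278
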