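import Crest.Agent.R278.Assembly
import Mathlib
import Crest.Agent.R278.Cover

-- ▼ part R278/Ramified
section

/-!
Row 278 (S0421): ramified Kummer charts.  `K = F(g)`, `g ^ N = w`, chart ring
`R = ℂ[p,q,1/h]` of `F`, `e ^ N w = p ^ r ω` with `ω` a unit of `R`.
-/

set_option autoImplicit false

namespace Crest.Agent.R278

open MvPolynomial

section Comp

variable {F : Type} [Field F] [Algebra ℂ F]

/-- `KF`-components of elements integral over a subring of `F` are integral. -/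
theorem component_mem_intClos {N : ℕ} (hN : 0 < N) (w : F)
    [Fact (Irreducible (Polynomial.X ^ N - Polynomial.C w : Polynomial F))] (G : Set F)
    (c : Fin N → F)
    (hf : ∑ i, algebraMap F (KF N w) (c i) * (KF.g N w) ^ (i : ℕ) ∈
      intClos (algebraMap F (KF N w) '' G)) (l : Fin N) :
    algebraMap F (KF N w) (c l) * (KF.g N w) ^ (l : ℕ) ∈ intClos (algebraMap F (KF N w) '' G) := by
  set ζ : F := algebraMap ℂ F (Complex.exp (2 * Real.pi * Complex.I / N)) with hζdef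
  have hζ : IsPrimitiveRoot ζ N :=
    (Complex.isPrimitiveRoot_exp N hN.ne').map_of_injective (algebraMap ℂ F).injective
  have hcomp := KF.component hN w ζ hζ c l
  have hNK : (N : KF N w) ≠ 0 := by
    have : CharZero (KF N w) :=
      charZero_of_injective_algebraMap (algebraMap ℂ (KF N w)).injective
    exact_mod_cast hN.ne'
  set R := Algebra.adjoin ℂ (algebraMap F (KF N w) '' G) with hR
  have hRF : ∀ r ∈ R, ∃ r0 : F, algebraMap F (KF N w) r0 = r := by
    intro r hr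
    have h1 : R ≤ (IsScalarTower.toAlgHom ℂ F (KF N w)).range := by
      rw [hR, Algebra.adjoin_le_iff]
      rintro z ⟨z0, _, rfl⟩
      exact ⟨z0, rfl⟩
    obtain ⟨r0, hr0⟩ := h1 hr
    exact ⟨r0, hr0⟩
  have htw : ∀ (ξ : F) (hξ : ξ ^ N = 1) (v : KF N w), v ∈ intClos (algebraMap F (KF N w) '' G) →
      KF.twist N w ξ hξ v ∈ intClos (algebraMap F (KF N w) '' G) := by
    intro ξ hξ v hv
    rw [mem_intClos] at hv ⊢
    let σ : KF N w →ₐ[R] KF N w :=
      { (KF.twist N w ξ hξ : KF N w →+* KF N w) with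
        commutes' := by
          intro r
          obtain ⟨r0, hr0⟩ := hRF r r.2
          have : (algebraMap R (KF N w) r) = algebraMap F (KF N w) r0 := hr0.symm
          simp only [RingHom.toMonoidHom_eq_coe, OneHom.toFun_eq_coe, MonoidHom.toOneHom_coe,
            MonoidHom.coe_coe, RingHom.coe_coe]
          rw [this]
          exact AlgHom.commutes _ _ }
    exact hv.map σ
  have hsum : (N : KF N w) * (algebraMap F (KF N w) (c l) * (KF.g N w) ^ (l : ℕ)) ∈
      intClos (algebraMap F (KF N w) '' G) := by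
    rw [hcomp]
    refine sum_mem fun j _ => mul_mem ?_ (htw _ _ _ hf)
    have : algebraMap F (KF N w) (ζ⁻¹ ^ ((j : ℕ) * l)) = algebraMap ℂ (KF N w)
        ((Complex.exp (2 * Real.pi * Complex.I / N))⁻¹ ^ ((j : ℕ) * l)) := by
      rw [hζdef, ← map_inv₀, ← map_pow, ← IsScalarTower.algebraMap_apply ℂ F (KF N w)]
    rw [this]
    exact Subalgebra.algebraMap_mem _ _
  have h2 : algebraMap F (KF N w) (c l) * (KF.g N w) ^ (l : ℕ) = algebraMap ℂ (KF N w) (N : ℂ)⁻¹ *
      ((N : KF N w) * (algebraMap F (KF N w) (c l) * (KF.g N w) ^ (l : ℕ))) := by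
    rw [map_inv₀, map_natCast, ← mul_assoc, inv_mul_cancel₀ hNK, one_mul]
  rw [h2]
  exact mul_mem (Subalgebra.algebraMap_mem _ _) hsum

end Comp

section Chart

variable {F : Type} [Field F] [Algebra ℂ F]

omit [Algebra ℂ F] in
theorem image_G {K : Type} [Field K] [Algebra F K] (p q h : F) :
    (algebraMap F K) '' {p, q, h⁻¹} =
      {algebraMap F K p, algebraMap F K q, (algebraMap F K h)⁻¹} := by
  simp [Set.image_insert_eq]

/-- elements of `F` integral over the chart ring lie in the chart ring. -/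
theorem mem_chartRing_of_intClos {K : Type} [Field K] [Algebra F K] [Algebra ℂ K]
    [IsScalarTower ℂ F K] {p q h r : F} (hc : IsChart ℂ p q) (hh : h ∈ polyRing ℂ p q)
    (h0 : h ≠ 0)
    (hr : algebraMap F K r ∈
      intClos {algebraMap F K p, algebraMap F K q, (algebraMap F K h)⁻¹}) :
    r ∈ chartRing ℂ p q h := by
  rw [← image_G, ← mem_intCl_adjoin_iff, mem_intCl] at hr
  have := hc.chartRing_isIntegrallyClosed hh h0
  have := hc.chartRing_isFractionRing (h := h)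
  have h1 : IsIntegral (chartRing ℂ p q h) r :=
    (isIntegral_algebraMap_iff (A := F) (B := K) (algebraMap F K).injective).1 hr
  obtain ⟨a, ha⟩ := IsIntegrallyClosed.isIntegral_iff.1 h1
  rw [← ha]
  exact a.2

/-- elements of `F` integral over the chart ring lie in the chart ring, in form of a power. -/
theorem mem_chartRing_of_pow {p q h r : F} (hc : IsChart ℂ p q) (hh : h ∈ polyRing ℂ p q)
    (h0 : h ≠ 0) {N : ℕ} (hN : 0 < N) (hr : r ^ N ∈ chartRing ℂ p q h) :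
    r ∈ chartRing ℂ p q h := by
  have := hc.chartRing_isIntegrallyClosed hh h0
  have := hc.chartRing_isFractionRing (h := h)
  have h1 : IsIntegral (chartRing ℂ p q h) r := by
    apply IsIntegral.of_pow hN
    exact isIntegral_algebraMap (x := (⟨_, hr⟩ : chartRing ℂ p q h))
  obtain ⟨a, ha⟩ := IsIntegrallyClosed.isIntegral_iff.1 h1
  rw [← ha]
  exact a.2

/-- the first coordinate is prime in the chart ring (in the form needed). -/
theorem chart_prime {p q h : F} (hc : IsChart ℂ p q) (hh : h ∈ polyRing ℂ p q) (h0 : h ≠ 0)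
    (hp0 : p ≠ 0) (hd : h / p ∉ polyRing ℂ p q) {N : ℕ} {m : F}
    (hm : m ∈ chartRing ℂ p q h) (hmN : m ^ N / p ∈ chartRing ℂ p q h) :
    m / p ∈ chartRing ℂ p q h := by
  obtain ⟨P, hP, n, hn⟩ := chartRing_exists hh h0 hm
  obtain ⟨P', hP', k, hk⟩ := chartRing_exists hh h0 hmN
  obtain ⟨P0, rfl⟩ := (mem_polyRing_iff p q P).1 hP
  obtain ⟨P1, rfl⟩ := (mem_polyRing_iff p q P').1 hP'
  obtain ⟨H, rfl⟩ := (mem_polyRing_iff p q h).1 hh
  have hX : aeval ![p, q] (X 0 : MvPolynomial (Fin 2) ℂ) = p := by rw [aeval_X]; rfl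
  -- `X 0 ∣ P0 ^ N * H ^ k`
  have h1 : aeval ![p, q] (P0 ^ N * H ^ k) = aeval ![p, q] (X 0 * (P1 * H ^ (n * N))) := by
    rw [map_mul, map_mul, map_mul, map_pow, map_pow, map_pow, hX, ← hn, ← hk]
    field_simp
    rw [mul_pow, ← pow_mul]
  have h2 : P0 ^ N * H ^ k = X 0 * (P1 * H ^ (n * N)) := hc.indep h1
  have hXp : Prime (X 0 : MvPolynomial (Fin 2) ℂ) := MvPolynomial.X_prime
  have hdH : ¬ (X 0 : MvPolynomial (Fin 2) ℂ) ∣ H := by
    rintro ⟨H', rfl⟩
    apply hd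
    rw [map_mul, hX, mul_div_cancel_left₀ _ hp0]
    exact (mem_polyRing_iff p q _).2 ⟨H', rfl⟩
  have h3 : (X 0 : MvPolynomial (Fin 2) ℂ) ∣ P0 := by
    rcases hXp.dvd_or_dvd (Dvd.intro _ h2.symm) with h | h
    · exact hXp.dvd_of_dvd_pow h
    · exact absurd (hXp.dvd_of_dvd_pow h) hdH
  obtain ⟨P2, rfl⟩ := h3
  have h4 : m / p = aeval ![p, q] P2 * (aeval ![p, q] H)⁻¹ ^ n := by
    rw [map_mul, hX] at hn
    have : m = p * aeval ![p, q] P2 * (aeval ![p, q] H)⁻¹ ^ n := by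
      rw [← hn, inv_pow, mul_assoc, mul_inv_cancel₀ (pow_ne_zero _ h0), mul_one]
    rw [this, mul_assoc, mul_div_cancel_left₀ _ hp0]
  rw [h4]
  exact Subalgebra.mul_mem _ (polyRing_le_chartRing _ _ _ ((mem_polyRing_iff p q _).2 ⟨P2, rfl⟩))
    (Subalgebra.pow_mem _ (inv_mem_chartRing _ _ _) _)

/-- `p`-adic floor: `f^N p^c ∈ R` implies `f p^(c/N) ∈ R`. -/
theorem floor_mem {p q h : F} (hc : IsChart ℂ p q) (hh : h ∈ polyRing ℂ p q) (h0 : h ≠ 0)
    (hp0 : p ≠ 0) (hd : h / p ∉ polyRing ℂ p q) {N : ℕ} (hN : 0 < N) {f : F} {c : ℤ}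
    (hf : f ^ N * p ^ c ∈ chartRing ℂ p q h) : f * p ^ (c / N) ∈ chartRing ℂ p q h := by
  have hpR : p ∈ chartRing ℂ p q h := Algebra.subset_adjoin (by simp)
  have hN' : (0 : ℤ) < N := by exact_mod_cast hN
  have hmod0 : 0 ≤ c % N := Int.emod_nonneg _ hN'.ne'
  have hmod1 : c % N < N := Int.emod_lt_of_pos _ hN'
  obtain ⟨ρ, hρ⟩ := Int.eq_ofNat_of_zero_le hmod0
  have hρN : ρ < N := by rw [hρ] at hmod1; exact_mod_cast hmod1
  set f' := f * p ^ (c / N) with hf'
  have h1 : f ^ N * p ^ c = f' ^ N * p ^ ρ := by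
    have : c = (c / N) * N + ρ := by rw [← hρ]; exact (Int.ediv_mul_add_emod c N).symm
    conv_lhs => rw [this, zpow_add₀ hp0, zpow_mul, zpow_natCast, zpow_natCast]
    rw [hf', mul_pow]
    ring
  rw [h1] at hf
  have h2 : (f' * p) ∈ chartRing ℂ p q h := by
    refine mem_chartRing_of_pow hc hh h0 hN ?_
    have : (f' * p) ^ N = f' ^ N * p ^ ρ * p ^ (N - ρ) := by
      rw [mul_pow, mul_assoc, ← pow_add]; congr 2; omega
    rw [this]
    exact Subalgebra.mul_mem _ hf (Subalgebra.pow_mem _ hpR _)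
  have h3 : (f' * p) ^ N / p ∈ chartRing ℂ p q h := by
    have : (f' * p) ^ N / p = f' ^ N * p ^ ρ * p ^ (N - ρ - 1) := by
      have e1 : p ^ N = p ^ ρ * (p ^ (N - ρ - 1) * p) := by
        rw [← pow_succ, ← pow_add]; congr 1; omega
      rw [mul_pow, e1]
      field_simp
    rw [this]
    exact Subalgebra.mul_mem _ hf (Subalgebra.pow_mem _ hpR _)
  have h4 := chart_prime hc hh h0 hp0 hd h2 h3
  rwa [mul_div_cancel_right₀ _ hp0] at h4

/-- The (possibly) ramified Kummer chart data: `e ^ N w = p ^ r ω`. -/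
structure RamChart (N : ℕ) (w p q h e ω : F) (r : ℤ) : Prop where
  hc : IsChart ℂ p q
  hh : h ∈ polyRing ℂ p q
  h0 : h ≠ 0
  hp0 : p ≠ 0
  he : e ≠ 0
  hω : ω ∈ chartRing ℂ p q h
  hω' : ω⁻¹ ∈ chartRing ℂ p q h
  hω0 : ω ≠ 0
  hw : e ^ N * w = p ^ r * ω
  hd : r = 0 ∨ h / p ∉ polyRing ℂ p q

/-- `f^N p^c ∈ R` implies `f p^(c/N) ∈ R` if `r ∣ c`. -/
theorem RamChart.floor_mem {N : ℕ} {w p q h e ω : F} {r : ℤ} (H : RamChart N w p q h e ω r)
    (hN : 0 < N) {f : F} {c : ℤ} (hc : r ∣ c)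
    (hf : f ^ N * p ^ c ∈ chartRing ℂ p q h) : f * p ^ (c / N) ∈ chartRing ℂ p q h := by
  rcases H.hd with h1 | h1
  · subst h1
    rw [zero_dvd_iff] at hc
    subst hc
    rw [zpow_zero, mul_one] at hf
    rw [Int.zero_ediv, zpow_zero, mul_one]
    exact mem_chartRing_of_pow H.hc H.hh H.h0 hN hf
  · exact Crest.Agent.R278.floor_mem H.hc H.hh H.h0 H.hp0 h1 hN hf

variable {N : ℕ} {w p q h e ω : F} {r : ℤ}

/-- the chart ring upstairs -/
noncomputable abbrev CK (K : Type) [Field K] [Algebra F K] [Algebra ℂ K] (p q h : F) :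
    Subalgebra ℂ K :=
  intClos {algebraMap F K p, algebraMap F K q, (algebraMap F K h)⁻¹}

section K

variable {K : Type} [Field K] [Algebra F K] [Algebra ℂ K] [IsScalarTower ℂ F K] {g : K}

omit [Algebra ℂ K] [IsScalarTower ℂ F K] in
/-- the `N`-th power of `f (e g)^k`. -/
theorem RamChart.pow_eq (H : RamChart N w p q h e ω r) (hg : g ^ N = algebraMap F K w) (f : F)
    (k : ℕ) : (algebraMap F K f * (algebraMap F K e * g) ^ k) ^ N =
      algebraMap F K (f ^ N * p ^ (r * k) * ω ^ k) := by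
  have h1 : (algebraMap F K e * g) ^ N = algebraMap F K (p ^ r * ω) := by
    rw [mul_pow, hg, ← H.hw, map_mul, map_pow]
  rw [mul_pow, ← pow_mul, mul_comm k N, pow_mul, h1, ← map_pow, ← map_pow, ← map_mul, mul_pow,
    mul_assoc, zpow_mul, zpow_natCast]

/-- membership criterion, sufficient direction. -/
theorem RamChart.mem_of (H : RamChart N w p q h e ω r) (hN : 0 < N)
    (hg : g ^ N = algebraMap F K w) {f : F} {k : ℕ}
    (hf : f ^ N * p ^ (r * k) ∈ chartRing ℂ p q h) :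
    algebraMap F K f * (algebraMap F K e * g) ^ k ∈ CK K p q h := by
  have h1 : (algebraMap F K f * (algebraMap F K e * g) ^ k) ^ N ∈ CK K p q h := by
    rw [H.pow_eq hg]
    exact alg_mem_intClos (Subalgebra.mul_mem _ hf (Subalgebra.pow_mem _ H.hω _))
  exact IsIntegral.of_pow hN h1

/-- membership criterion, necessary direction. -/
theorem RamChart.of_mem (H : RamChart N w p q h e ω r)
    (hg : g ^ N = algebraMap F K w) {f : F} {k : ℕ}
    (hf : algebraMap F K f * (algebraMap F K e * g) ^ k ∈ CK K p q h) :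
    f ^ N * p ^ (r * k) ∈ chartRing ℂ p q h := by
  have h1 : (algebraMap F K f * (algebraMap F K e * g) ^ k) ^ N ∈ CK K p q h :=
    Subalgebra.pow_mem _ hf N
  rw [H.pow_eq hg] at h1
  have h2 := mem_chartRing_of_intClos H.hc H.hh H.h0 h1
  have h3 : f ^ N * p ^ (r * k) = f ^ N * p ^ (r * k) * ω ^ k * (ω⁻¹) ^ k := by
    rw [mul_assoc, ← mul_pow, mul_inv_cancel₀ H.hω0, one_pow, mul_one]
  rw [h3]
  exact Subalgebra.mul_mem _ h2 (Subalgebra.pow_mem _ H.hω' _)

/-- `γ_i = p^(-⌊ri/N⌋) (e g)^i`. -/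
noncomputable def gam (p e : F) (r : ℤ) (N : ℕ) (g : K) (i : ℕ) : K :=
  algebraMap F K (p ^ (-(r * i / N))) * (algebraMap F K e * g) ^ i

theorem RamChart.gam_mem (H : RamChart N w p q h e ω r) (hN : 0 < N)
    (hg : g ^ N = algebraMap F K w) (i : ℕ) : gam p e r N g i ∈ CK K p q h := by
  refine H.mem_of hN hg ?_
  have hN' : (0 : ℤ) < N := by exact_mod_cast hN
  have hmod0 : 0 ≤ (r * i) % N := Int.emod_nonneg _ hN'.ne'
  obtain ⟨ρ, hρ⟩ := Int.eq_ofNat_of_zero_le hmod0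
  have h1 : (p ^ (-(r * i / N))) ^ N * p ^ (r * i) = p ^ ρ := by
    rw [← zpow_natCast (p ^ (-(r * i / N))), ← zpow_mul, ← zpow_add₀ H.hp0, ← zpow_natCast p ρ]
    congr 1
    have := Int.ediv_mul_add_emod (r * i) N
    rw [← hρ]
    linarith
  rw [h1]
  exact Subalgebra.pow_mem _ (Algebra.subset_adjoin (by simp)) _

/-- Derivations in terms of the two chart coordinates. -/
theorem exists_partials {r : F} (hh : h ∈ polyRing ℂ p q) (h0 : h ≠ 0)
    (hr : r ∈ chartRing ℂ p q h) :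
    ∃ a ∈ chartRing ℂ p q h, ∃ b ∈ chartRing ℂ p q h, ∀ D : Derivation ℂ K K,
      D (algebraMap F K r) = algebraMap F K a * D (algebraMap F K p) +
        algebraMap F K b * D (algebraMap F K q) := by
  have hle := polyRing_le_chartRing (k := ℂ) p q h
  have hpoly : ∀ r ∈ polyRing ℂ p q, ∃ a ∈ chartRing ℂ p q h, ∃ b ∈ chartRing ℂ p q h,
      ∀ D : Derivation ℂ K K,
      D (algebraMap F K r) = algebraMap F K a * D (algebraMap F K p) +
        algebraMap F K b * D (algebraMap F K q) := by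
    intro r hr
    induction hr using Algebra.adjoin_induction with
    | mem z hz =>
      rcases hz with rfl | hz
      · exact ⟨1, Subalgebra.one_mem _, 0, Subalgebra.zero_mem _, fun D => by simp⟩
      · rw [Set.mem_singleton_iff] at hz
        subst hz
        exact ⟨0, Subalgebra.zero_mem _, 1, Subalgebra.one_mem _, fun D => by simp⟩
    | algebraMap c =>
      refine ⟨0, Subalgebra.zero_mem _, 0, Subalgebra.zero_mem _, fun D => ?_⟩
      rw [← IsScalarTower.algebraMap_apply ℂ F K, D.map_algebraMap]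
      simp
    | add u v _ _ hu hv =>
      obtain ⟨a, ha, b, hb, H1⟩ := hu
      obtain ⟨a', ha', b', hb', H2⟩ := hv
      refine ⟨a + a', Subalgebra.add_mem _ ha ha', b + b', Subalgebra.add_mem _ hb hb',
        fun D => ?_⟩
      rw [map_add, map_add, H1, H2, map_add, map_add]; ring
    | mul u v hu' hv' hu hv =>
      obtain ⟨a, ha, b, hb, H1⟩ := hu
      obtain ⟨a', ha', b', hb', H2⟩ := hv
      refine ⟨u * a' + v * a, Subalgebra.add_mem _ (Subalgebra.mul_mem _ (hle hu') ha')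
        (Subalgebra.mul_mem _ (hle hv') ha), u * b' + v * b,
        Subalgebra.add_mem _ (Subalgebra.mul_mem _ (hle hu') hb')
        (Subalgebra.mul_mem _ (hle hv') hb), fun D => ?_⟩
      rw [map_mul, D.leibniz, H1, H2, smul_eq_mul, smul_eq_mul, map_add, map_add, map_mul,
        map_mul, map_mul, map_mul]
      ring
  obtain ⟨P, hP, n, hn⟩ := chartRing_exists hh h0 hr
  obtain ⟨a, ha, b, hb, H1⟩ := hpoly P hP
  obtain ⟨a', ha', b', hb', H2⟩ := hpoly h hh
  have hi := inv_mem_chartRing (k := ℂ) p q h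
  have h0' : algebraMap F K h ≠ 0 := by rwa [Ne, map_eq_zero]
  refine ⟨h⁻¹ ^ n * a - n * r * h⁻¹ * a', Subalgebra.sub_mem _ (Subalgebra.mul_mem _
    (Subalgebra.pow_mem _ hi _) ha) (Subalgebra.mul_mem _ (Subalgebra.mul_mem _
      (Subalgebra.mul_mem _ (natCast_mem _ n) hr) hi) ha'), h⁻¹ ^ n * b - n * r * h⁻¹ * b',
    Subalgebra.sub_mem _ (Subalgebra.mul_mem _
    (Subalgebra.pow_mem _ hi _) hb) (Subalgebra.mul_mem _ (Subalgebra.mul_mem _
      (Subalgebra.mul_mem _ (natCast_mem _ n) hr) hi) hb'), fun D => ?_⟩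
  -- differentiate `r h^n = P`
  have h1 : algebraMap F K r * algebraMap F K h ^ n = algebraMap F K P := by
    rw [← map_pow, ← map_mul, hn]
  have h2 := congrArg D h1
  rw [D.leibniz, D.leibniz_pow, smul_eq_mul, smul_eq_mul, H1, H2, smul_eq_mul,
    nsmul_eq_mul] at h2
  rcases Nat.eq_zero_or_pos n with hn0 | hn0
  · subst hn0
    simp only [pow_zero, Nat.cast_zero, zero_mul, mul_zero, one_mul, zero_add, sub_zero] at h2 ⊢
    exact h2
  · have h3 : algebraMap F K h ^ n = algebraMap F K h ^ (n - 1) * algebraMap F K h := by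
      rw [← pow_succ, Nat.sub_add_cancel hn0]
    simp only [map_sub, map_mul, map_pow, map_inv₀, map_natCast]
    have h4 : D (algebraMap F K r) * algebraMap F K h ^ n =
        algebraMap F K a * D (algebraMap F K p) + algebraMap F K b * D (algebraMap F K q) -
        algebraMap F K r * (n * algebraMap F K h ^ (n - 1) *
          (algebraMap F K a' * D (algebraMap F K p) + algebraMap F K b' * D (algebraMap F K q))) := by
      rw [← h2]; ring
    apply mul_right_cancel₀ (pow_ne_zero n h0')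
    rw [h4]
    have e1 : (algebraMap F K h)⁻¹ ^ n * algebraMap F K h ^ n = 1 := by
      rw [← mul_pow, inv_mul_cancel₀ h0', one_pow]
    have e2 : (algebraMap F K h)⁻¹ * algebraMap F K h ^ n = algebraMap F K h ^ (n - 1) := by
      rw [h3, mul_comm (algebraMap F K h ^ (n - 1)), ← mul_assoc, inv_mul_cancel₀ h0', one_mul]
    linear_combination (-(algebraMap F K a * D (algebraMap F K p) +
        algebraMap F K b * D (algebraMap F K q))) * e1 + (n : K) * algebraMap F K r *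
          (algebraMap F K a' * D (algebraMap F K p) +
            algebraMap F K b' * D (algebraMap F K q)) * e2

omit [Algebra ℂ F] [IsScalarTower ℂ F K] in
/-- The logarithmic derivative of a root of `p^d ω^i`. -/
theorem der_root (hN : 0 < N) (hp0 : p ≠ 0) (hω0 : ω ≠ 0) {γ : K} {d i : ℕ}
    (hγ : γ ^ N = algebraMap F K (p ^ d * ω ^ i)) (D : Derivation ℂ K K) :
    D γ = algebraMap ℂ K (N : ℂ)⁻¹ * γ *
      ((d : K) * (D (algebraMap F K p) / algebraMap F K p) +
        (i : K) * (D (algebraMap F K ω) / algebraMap F K ω)) := by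
  have hp0' : algebraMap F K p ≠ 0 := by rwa [Ne, map_eq_zero]
  have hω0' : algebraMap F K ω ≠ 0 := by rwa [Ne, map_eq_zero]
  have hNK : (N : K) ≠ 0 := by
    have : CharZero K := charZero_of_injective_algebraMap (algebraMap ℂ K).injective
    exact_mod_cast hN.ne'
  rw [map_mul, map_pow, map_pow] at hγ
  rw [derivation_root D hN.ne' (mul_ne_zero (pow_ne_zero d hp0') (pow_ne_zero i hω0')) hγ]
  have h1 : D (algebraMap F K p ^ d * algebraMap F K ω ^ i) =
      algebraMap F K p ^ d * algebraMap F K ω ^ i *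
      ((d : K) * (D (algebraMap F K p) / algebraMap F K p) +
        (i : K) * (D (algebraMap F K ω) / algebraMap F K ω)) := by
    have hpow : ∀ (z : K) (_ : z ≠ 0) (n : ℕ), D (z ^ n) = z ^ n * ((n : K) * (D z / z)) := by
      intro z hz n
      rw [D.leibniz_pow, smul_eq_mul, nsmul_eq_mul]
      rcases Nat.eq_zero_or_pos n with h | h
      · subst h; simp
      · have : z ^ n = z ^ (n - 1) * z := by rw [← pow_succ, Nat.sub_add_cancel h]
        rw [this]
        field_simp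
    rw [D.leibniz, smul_eq_mul, smul_eq_mul, hpow _ hp0', hpow _ hω0']
    ring
  rw [h1, map_inv₀, map_natCast]
  field_simp

omit [Algebra ℂ K] [IsScalarTower ℂ F K] in
theorem RamChart.gam_pow (H : RamChart N w p q h e ω r)
    (hg : g ^ N = algebraMap F K w) (i ρ : ℕ) (hρ : (r * i) % N = ρ) :
    (gam p e r N g i) ^ N = algebraMap F K (p ^ ρ * ω ^ i) := by
  rw [gam, H.pow_eq hg]
  congr 2
  rw [← zpow_natCast (p ^ (-(r * i / N))), ← zpow_mul, ← zpow_add₀ H.hp0, ← zpow_natCast p ρ]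
  congr 1
  have := Int.ediv_mul_add_emod (r * i) N
  rw [← hρ]
  linarith

end K


theorem zpow_nonneg_mem {p q h : F} {f : F} {c : ℤ} (hcc : 0 ≤ c)
    (hf : f ∈ chartRing ℂ p q h) : f * p ^ c ∈ chartRing ℂ p q h := by
  obtain ⟨n, rfl⟩ := Int.eq_ofNat_of_zero_le hcc
  rw [zpow_natCast]
  exact Subalgebra.mul_mem _ hf (Subalgebra.pow_mem _ (Algebra.subset_adjoin (by simp)) _)

section Der

variable [Fact (Irreducible (Polynomial.X ^ N - Polynomial.C w : Polynomial F))]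

/-- **P4R.** Derivations and ramified charts. -/
theorem RamChart.der_mem (H : RamChart N w p q h e ω r) (hN : 0 < N)
    (D : Derivation ℂ (KF N w) (KF N w))
    (hDp : D (algebraMap F (KF N w) p) ∈ CK (KF N w) p q h)
    (hDq : D (algebraMap F (KF N w) q) ∈ CK (KF N w) p q h)
    (hlog : ∀ i : ℕ, (r * i) % N ≠ 0 → gam p e r N (KF.g N w) i *
      (D (algebraMap F (KF N w) p) / algebraMap F (KF N w) p) ∈ CK (KF N w) p q h) :
    ∀ v ∈ CK (KF N w) p q h, D v ∈ CK (KF N w) p q h := by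
  intro v hv
  have hg : (KF.g N w) ^ N = algebraMap F (KF N w) w := KF.g_pow N w
  obtain ⟨c, rfl⟩ := KF.exists_repr hN w v
  have he' : algebraMap F (KF N w) e ≠ 0 := by rw [Ne, map_eq_zero]; exact H.he
  rw [map_sum]
  refine Subalgebra.sum_mem _ fun i _ => ?_
  have h1 : algebraMap F (KF N w) (c i) * (KF.g N w) ^ (i : ℕ) ∈ CK (KF N w) p q h := by
    rw [CK, ← image_G] at hv ⊢
    exact component_mem_intClos hN w _ c hv i
  set f : F := c i / e ^ (i : ℕ) with hf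
  have h2 : algebraMap F (KF N w) (c i) * (KF.g N w) ^ (i : ℕ) =
      algebraMap F (KF N w) f * (algebraMap F (KF N w) e * KF.g N w) ^ (i : ℕ) := by
    rw [hf, map_div₀, map_pow, mul_pow]
    field_simp
  rw [h2] at h1
  have h3 := H.of_mem hg h1
  have h4 := H.floor_mem hN (Dvd.intro _ rfl) h3
  set a : F := f * p ^ (r * (i : ℕ) / N) with ha
  have h5 : algebraMap F (KF N w) f * (algebraMap F (KF N w) e * KF.g N w) ^ (i : ℕ) =
      algebraMap F (KF N w) a * gam p e r N (KF.g N w) i := by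
    rw [gam, ← mul_assoc, ← map_mul]
    congr 2
    rw [ha, mul_assoc, ← zpow_add₀ H.hp0]
    simp
  rw [h2, h5, D.leibniz, smul_eq_mul, smul_eq_mul]
  have hγ := H.gam_mem (K := KF N w) hN hg i
  have haD : ∀ a ∈ chartRing ℂ p q h, D (algebraMap F (KF N w) a) ∈ CK (KF N w) p q h := by
    intro a ha
    obtain ⟨α, hα, β, hβ, hD⟩ := exists_partials (K := KF N w) H.hh H.h0 ha
    rw [hD]
    exact Subalgebra.add_mem _ (Subalgebra.mul_mem _ (alg_mem_intClos hα) hDp)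
      (Subalgebra.mul_mem _ (alg_mem_intClos hβ) hDq)
  refine Subalgebra.add_mem _ (Subalgebra.mul_mem _ (alg_mem_intClos h4) ?_)
    (Subalgebra.mul_mem _ hγ (haD a h4))
  have hN' : (0 : ℤ) < N := by exact_mod_cast hN
  have hmod0 : 0 ≤ (r * (i : ℕ)) % N := Int.emod_nonneg _ hN'.ne'
  obtain ⟨ρ, hρ⟩ := Int.eq_ofNat_of_zero_le hmod0
  rw [der_root hN H.hp0 H.hω0 (H.gam_pow hg i ρ hρ) D]
  have h6 : algebraMap ℂ (KF N w) (N : ℂ)⁻¹ * gam p e r N (KF.g N w) i *
      ((ρ : KF N w) * (D (algebraMap F (KF N w) p) / algebraMap F (KF N w) p) +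
        ((i : ℕ) : KF N w) * (D (algebraMap F (KF N w) ω) / algebraMap F (KF N w) ω)) =
      algebraMap ℂ (KF N w) (N : ℂ)⁻¹ * ((ρ : KF N w) * (gam p e r N (KF.g N w) i *
        (D (algebraMap F (KF N w) p) / algebraMap F (KF N w) p)) +
        ((i : ℕ) : KF N w) * (gam p e r N (KF.g N w) i * (D (algebraMap F (KF N w) ω) *
          algebraMap F (KF N w) ω⁻¹))) := by
    rw [map_inv₀ (algebraMap F (KF N w)) ω]; ring
  rw [h6]
  refine Subalgebra.mul_mem _ (Subalgebra.algebraMap_mem _ _) (Subalgebra.add_mem _ ?_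
    (Subalgebra.mul_mem _ (natCast_mem _ _) (Subalgebra.mul_mem _ hγ
      (Subalgebra.mul_mem _ (haD _ H.hω) (alg_mem_intClos H.hω')))))
  by_cases h0 : ρ = 0
  · rw [h0, Nat.cast_zero, zero_mul]; exact Subalgebra.zero_mem _
  · refine Subalgebra.mul_mem _ (natCast_mem _ _) (hlog i ?_)
    rw [hρ]
    exact_mod_cast h0

/-- stability from conditions in `F`. -/
theorem RamChart.stable (H : RamChart N w p q h e ω r) (hN : 0 < N)
    (D : Derivation ℂ (KF N w) (KF N w)) {a b : F} {m : ℕ}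
    (hDp : D (algebraMap F (KF N w) p) = algebraMap F (KF N w) a * (KF.g N w) ^ m)
    (hDq : D (algebraMap F (KF N w) q) = algebraMap F (KF N w) b * (KF.g N w) ^ m)
    {j j' : ℤ} (ha : a / e ^ m / p ^ j ∈ chartRing ℂ p q h)
    (hj : 0 ≤ N * (j - 1) + r * m + Int.gcd r N)
    (hb : b / e ^ m / p ^ j' ∈ chartRing ℂ p q h) (hj' : 0 ≤ N * j' + r * m) :
    ∀ v ∈ CK (KF N w) p q h, D v ∈ CK (KF N w) p q h := by
  have hg : (KF.g N w) ^ N = algebraMap F (KF N w) w := KF.g_pow N w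
  have he' : algebraMap F (KF N w) e ≠ 0 := by rw [Ne, map_eq_zero]; exact H.he
  have hN' : (0 : ℤ) < N := by exact_mod_cast hN
  have hgcd : (Int.gcd r N : ℤ) ≤ N := Int.gcd_le_right r hN'
  have key : ∀ a : F, algebraMap F (KF N w) a * (KF.g N w) ^ m =
      algebraMap F (KF N w) (a / e ^ m) * (algebraMap F (KF N w) e * KF.g N w) ^ m := by
    intro a
    rw [map_div₀, map_pow, mul_pow]
    field_simp
  have pw : ∀ (a : F) (j c : ℤ), (a * p ^ c) ^ N = (a / p ^ j) ^ N * p ^ (N * (j + c)) := by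
    intro a j c
    have h1 : a * p ^ c = a / p ^ j * p ^ (j + c) := by
      rw [zpow_add₀ H.hp0]
      have := zpow_ne_zero j H.hp0
      field_simp
    rw [h1, mul_pow, ← zpow_natCast (p ^ (j + c)), ← zpow_mul, mul_comm (j + c)]
  refine H.der_mem hN D ?_ ?_ ?_
  · rw [hDp, key]
    refine H.mem_of hN hg ?_
    have h1 := pw (a / e ^ m) j 0
    rw [zpow_zero, mul_one] at h1
    rw [h1, mul_assoc, ← zpow_add₀ H.hp0]
    refine zpow_nonneg_mem ?_ (Subalgebra.pow_mem _ ha N)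
    nlinarith
  · rw [hDq, key]
    refine H.mem_of hN hg ?_
    have h1 := pw (b / e ^ m) j' 0
    rw [zpow_zero, mul_one] at h1
    rw [h1, mul_assoc, ← zpow_add₀ H.hp0]
    refine zpow_nonneg_mem ?_ (Subalgebra.pow_mem _ hb N)
    linarith
  · intro i hi
    rw [hDp, key]
    have h1 : gam p e r N (KF.g N w) i * (algebraMap F (KF N w) (a / e ^ m) *
        (algebraMap F (KF N w) e * KF.g N w) ^ m / algebraMap F (KF N w) p) =
        algebraMap F (KF N w) (a / e ^ m * p ^ (-(r * i / N) - 1)) *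
          (algebraMap F (KF N w) e * KF.g N w) ^ (i + m) := by
      rw [gam, map_mul, zpow_sub_one₀ H.hp0, map_mul, map_inv₀, pow_add]
      ring
    rw [h1]
    refine H.mem_of hN hg ?_
    rw [pw (a / e ^ m) j, mul_assoc, ← zpow_add₀ H.hp0]
    refine zpow_nonneg_mem ?_ (Subalgebra.pow_mem _ ha N)
    have h2 := Int.ediv_mul_add_emod (r * i) N
    have h3 : (Int.gcd r N : ℤ) ≤ (r * i) % N := by
      have h4 : (Int.gcd r N : ℤ) ∣ (r * i) % N := by
        rw [Int.emod_def]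
        exact dvd_sub (Dvd.dvd.mul_right (Int.gcd_dvd_left r N) _)
          (Dvd.dvd.mul_right (Int.gcd_dvd_right r N) _)
      exact Int.le_of_dvd (lt_of_le_of_ne (Int.emod_nonneg _ hN'.ne') (Ne.symm hi)) h4
    have h5 : (N : ℤ) * (j + (-(r * i / N) - 1)) + r * ((i + m : ℕ) : ℤ) =
        N * (j - 1) + r * m + (r * i - (r * i / N) * N) := by
      push_cast; ring
    rw [h5]
    linarith

/-- Bezout with a natural coefficient. -/
theorem bezout_nat (r : ℤ) (hN : 0 < N) :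
    ∃ (a : ℤ) (l : ℕ), N * a + r * l = Int.gcd r N := by
  have hN' : (0 : ℤ) < N := by exact_mod_cast hN
  have h1 := Int.gcd_eq_gcd_ab r N
  have h2 : 0 ≤ Int.gcdA r N % N := Int.emod_nonneg _ hN'.ne'
  obtain ⟨l, hl⟩ := Int.eq_ofNat_of_zero_le h2
  refine ⟨Int.gcdB r N + r * (Int.gcdA r N / N), l, ?_⟩
  have h3 := Int.ediv_mul_add_emod (Int.gcdA r N) N
  have h4 : (l : ℤ) = Int.gcdA r N - Int.gcdA r N / N * N := by
    rw [← hl]; linarith
  rw [h1, h4]
  ring

/-- **Unit minors on ramified charts.** -/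
theorem RamChart.minor_unit (H : RamChart N w p q h e ω r) (hN : 0 < N)
    (D₁ D₂ : Derivation ℂ (KF N w) (KF N w)) {M : F} {m : ℕ}
    (hM : minor D₁ D₂ (algebraMap F (KF N w) p) (algebraMap F (KF N w) q) =
      algebraMap F (KF N w) M * (KF.g N w) ^ m) {j : ℤ} (hM0 : M ≠ 0)
    (h1 : M / e ^ m / p ^ j ∈ chartRing ℂ p q h) (h2 : (M / e ^ m / p ^ j)⁻¹ ∈ chartRing ℂ p q h)
    (hj : N * j + r * m = N - Int.gcd r N) :
    ∃ π ∈ CK (KF N w) p q h, ∃ c₁ ∈ CK (KF N w) p q h, ∃ c₂ ∈ CK (KF N w) p q h,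
      c₁ * minor D₁ D₂ (algebraMap F (KF N w) p) (algebraMap F (KF N w) q) +
      c₂ * minor D₁ D₂ π (algebraMap F (KF N w) q) = 1 := by
  have hg : (KF.g N w) ^ N = algebraMap F (KF N w) w := KF.g_pow N w
  have he' : algebraMap F (KF N w) e ≠ 0 := by rw [Ne, map_eq_zero]; exact H.he
  have hp0' : algebraMap F (KF N w) p ≠ 0 := by rw [Ne, map_eq_zero]; exact H.hp0
  have hω0' : algebraMap F (KF N w) ω ≠ 0 := by rw [Ne, map_eq_zero]; exact H.hω0
  have hw0 : w ≠ 0 := by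
    rintro rfl
    have h3 := H.hw
    rw [mul_zero] at h3
    exact mul_ne_zero (zpow_ne_zero r H.hp0) H.hω0 h3.symm
  have hg0 : KF.g N w ≠ 0 := KF.g_ne_zero hN hw0
  have hN' : (0 : ℤ) < N := by exact_mod_cast hN
  have hNK : (N : KF N w) ≠ 0 := by
    have : CharZero (KF N w) :=
      charZero_of_injective_algebraMap (algebraMap ℂ (KF N w)).injective
    exact_mod_cast hN.ne'
  obtain ⟨a, l, hal⟩ := bezout_nat r hN
  set d := Int.gcd r N with hd
  have hd0 : d ≠ 0 := by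
    rw [hd, Ne, Int.gcd_eq_zero_iff]
    rintro ⟨_, h⟩
    exact hN'.ne' h
  have hdK : (d : KF N w) ≠ 0 := by
    have : CharZero (KF N w) :=
      charZero_of_injective_algebraMap (algebraMap ℂ (KF N w)).injective
    exact_mod_cast hd0
  have hpa : (p ^ a) ^ N * p ^ (r * l) = p ^ d := by
    rw [← zpow_natCast (p ^ a), ← zpow_mul, ← zpow_add₀ H.hp0, ← zpow_natCast p d]
    congr 1
    rw [← hal]; ring
  set π : KF N w := algebraMap F (KF N w) (p ^ a) * (algebraMap F (KF N w) e * KF.g N w) ^ l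
    with hπ
  have hπC : π ∈ CK (KF N w) p q h := by
    refine H.mem_of hN hg ?_
    rw [hpa]
    exact Subalgebra.pow_mem _ (Algebra.subset_adjoin (by simp)) _
  have hπN : π ^ N = algebraMap F (KF N w) (p ^ d * ω ^ l) := by
    rw [hπ, H.pow_eq hg, hpa]
  set μ := minor D₁ D₂ (algebraMap F (KF N w) p) (algebraMap F (KF N w) q) with hμ
  have hμ' : μ = algebraMap F (KF N w) (M / e ^ m) *
      (algebraMap F (KF N w) e * KF.g N w) ^ m := by
    rw [hM, map_div₀, map_pow, mul_pow]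
    field_simp
  have hM0' : M / e ^ m ≠ 0 := div_ne_zero hM0 (pow_ne_zero _ H.he)
  have hμ0 : μ ≠ 0 := by
    rw [hμ']
    exact mul_ne_zero (by rw [Ne, map_eq_zero]; exact hM0') (pow_ne_zero _ (mul_ne_zero he' hg0))
  have hπ0 : π ≠ 0 := mul_ne_zero (by rw [Ne, map_eq_zero]; exact zpow_ne_zero _ H.hp0)
    (pow_ne_zero _ (mul_ne_zero he' hg0))
  set u₁ := π / algebraMap F (KF N w) p * μ with hu₁
  have hu₁' : u₁ = algebraMap F (KF N w) (p ^ (a - 1) * (M / e ^ m)) *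
      (algebraMap F (KF N w) e * KF.g N w) ^ (l + m) := by
    rw [hu₁, hμ', hπ, map_mul, zpow_sub_one₀ H.hp0, map_mul, map_inv₀, pow_add]
    ring
  have hu₁N : u₁ ^ N = algebraMap F (KF N w) ((M / e ^ m / p ^ j) ^ N * ω ^ (l + m)) := by
    rw [hu₁', H.pow_eq hg]
    congr 2
    have h3 : p ^ (a - 1) * (M / e ^ m) = M / e ^ m / p ^ j * p ^ (j + (a - 1)) := by
      rw [zpow_add₀ H.hp0]
      have := zpow_ne_zero j H.hp0
      field_simp
    rw [h3, mul_pow, ← zpow_natCast (p ^ (j + (a - 1))), ← zpow_mul, mul_assoc,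
      ← zpow_add₀ H.hp0]
    have h4 : (j + (a - 1)) * (N : ℤ) + r * ((l + m : ℕ) : ℤ) = 0 := by
      push_cast
      linear_combination hj + hal
    rw [h4, zpow_zero, mul_one]
  have hu₁C : u₁ ∈ CK (KF N w) p q h := by
    apply IsIntegral.of_pow hN
    rw [hu₁N]
    exact alg_mem_intClos (Subalgebra.mul_mem _ (Subalgebra.pow_mem _ h1 _)
      (Subalgebra.pow_mem _ H.hω _))
  have hu₁C' : u₁⁻¹ ∈ CK (KF N w) p q h := by
    apply IsIntegral.of_pow hN
    have h5 : (algebraMap F (KF N w) ((M / e ^ m / p ^ j) ^ N * ω ^ (l + m)))⁻¹ =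
        algebraMap F (KF N w) ((M / e ^ m / p ^ j)⁻¹ ^ N * ω⁻¹ ^ (l + m)) := by
      rw [← map_inv₀ (algebraMap F (KF N w)), mul_inv, inv_pow, inv_pow]
    rw [inv_pow, hu₁N, h5]
    exact alg_mem_intClos (Subalgebra.mul_mem _ (Subalgebra.pow_mem _ h2 _)
      (Subalgebra.pow_mem _ H.hω' _))
  obtain ⟨θ, hθ, θ', hθ', hDω⟩ := exists_partials (K := KF N w) H.hh H.h0 H.hω
  have hminω : minor D₁ D₂ (algebraMap F (KF N w) ω) (algebraMap F (KF N w) q) =
      algebraMap F (KF N w) θ * μ := by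
    rw [hμ]
    unfold minor
    rw [hDω, hDω]; ring
  have hminπ : minor D₁ D₂ π (algebraMap F (KF N w) q) = algebraMap ℂ (KF N w) (N : ℂ)⁻¹ * π *
      ((d : KF N w) * (μ / algebraMap F (KF N w) p) +
        (l : KF N w) * (algebraMap F (KF N w) θ * μ / algebraMap F (KF N w) ω)) := by
    rw [← hminω, hμ]
    unfold minor
    rw [der_root hN H.hp0 H.hω0 hπN D₁, der_root hN H.hp0 H.hω0 hπN D₂]
    field_simp
    ring
  refine ⟨π, hπC, -((l : KF N w) * π * algebraMap F (KF N w) θ * algebraMap F (KF N w) ω⁻¹ *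
    algebraMap ℂ (KF N w) (d : ℂ)⁻¹ * u₁⁻¹), ?_, (N : KF N w) * algebraMap ℂ (KF N w) (d : ℂ)⁻¹ *
      u₁⁻¹, ?_, ?_⟩
  · refine Subalgebra.neg_mem _ (Subalgebra.mul_mem _ (Subalgebra.mul_mem _
      (Subalgebra.mul_mem _ (Subalgebra.mul_mem _ (Subalgebra.mul_mem _ (natCast_mem _ _) hπC)
      (alg_mem_intClos hθ)) (alg_mem_intClos H.hω')) (Subalgebra.algebraMap_mem _ _)) hu₁C')
  · exact Subalgebra.mul_mem _ (Subalgebra.mul_mem _ (natCast_mem _ _)
      (Subalgebra.algebraMap_mem _ _)) hu₁C'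
  · rw [hminπ, hu₁, map_inv₀, map_inv₀, map_inv₀, map_natCast, map_natCast]
    field_simp
    ring

end Der

end Chart

end Crest.Agent.R278
end

-- ▼ part R278/Sections
section

set_option autoImplicit false

/-!
Row 278 (S0421): an intersection of charts as `clos s t`, from finitely many sections
(Noether normalization).
-/

namespace Crest.Agent.R278

open MvPolynomial

variable {K : Type} [Field K] [Algebra ℂ K]

/-- polynomials without constant term in elements of the maximal ideal of `V` lie in the maximal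
ideal of `V`. -/
theorem val_aeval_lt {J : Type*} (V : ValuationSubring K) (hV : ∀ c : ℂ, algebraMap ℂ K c ∈ V)
    (f : J → K) (hf : ∀ j, V.valuation (f j) < 1) (Q : MvPolynomial J ℂ)
    (hQ : constantCoeff Q = 0) : V.valuation (aeval f Q) < 1 := by
  have key : ∀ Q : MvPolynomial J ℂ,
      V.valuation (aeval f Q - algebraMap ℂ K (constantCoeff Q)) < 1 ∧ aeval f Q ∈ V := by
    intro Q
    induction Q using MvPolynomial.induction_on with
    | C a =>
      refine ⟨?_, ?_⟩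
      · simp
      · rw [aeval_C]; exact hV a
    | add p q hp hq =>
      refine ⟨?_, ?_⟩
      · have h1 : aeval f (p + q) - algebraMap ℂ K (constantCoeff (p + q)) =
            (aeval f p - algebraMap ℂ K (constantCoeff p)) +
            (aeval f q - algebraMap ℂ K (constantCoeff q)) := by
          rw [map_add, map_add, map_add]; ring
        rw [h1]
        exact V.valuation.map_add_lt hp.1 hq.1
      · rw [map_add]; exact V.add_mem _ _ hp.2 hq.2
    | mul_X p i hp =>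
      have h1 : V.valuation (aeval f p * f i) < 1 := by
        rw [map_mul, mul_comm]
        exact mul_lt_one_of_lt_of_le (hf i) ((V.valuation_le_one_iff _).2 hp.2)
      have h2 : aeval f (p * X i) = aeval f p * f i := by rw [map_mul, aeval_X]
      refine ⟨?_, ?_⟩
      · rw [h2, map_mul constantCoeff, constantCoeff_X, mul_zero, map_zero, sub_zero]
        exact h1
      · rw [h2]; exact (V.valuation_le_one_iff _).1 h1.le
  have := (key Q).1
  rwa [hQ, map_zero, sub_zero] at this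

/-- Translation of the variables. -/
noncomputable def translate {n : ℕ} (c : Fin n → ℂ) :
    MvPolynomial (Fin n) ℂ ≃ₐ[ℂ] MvPolynomial (Fin n) ℂ :=
  AlgEquiv.ofAlgHom (aeval fun i => X i - C (c i)) (aeval fun i => X i + C (c i))
    (by apply MvPolynomial.algHom_ext; intro i; simp [← algebraMap_eq])
    (by apply MvPolynomial.algHom_ext; intro i; simp [← algebraMap_eq])

theorem translate_X {n : ℕ} (c : Fin n → ℂ) (i : Fin n) :
    translate c (X i) = X i - C (c i) := by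
  simp [translate]

/-- Noether normalization of `ℂ[f_j]` by elements of the ideal `(f_j)`. -/
theorem exists_noether {J : Type*} [Finite J] (f : J → K) :
    ∃ (n : ℕ) (g : MvPolynomial (Fin n) ℂ →ₐ[ℂ] Algebra.adjoin ℂ (Set.range f)),
      Function.Injective g ∧ g.IsIntegral ∧
      ∀ i, ∃ Q : MvPolynomial J ℂ, constantCoeff Q = 0 ∧ (g (X i) : K) = aeval f Q := by
  have hft : Algebra.FiniteType ℂ (Algebra.adjoin ℂ (Set.range f)) :=
    (Subalgebra.fg_iff_finiteType _).1 ((Subalgebra.fg_def).2 ⟨_, Set.finite_range f, rfl⟩)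
  obtain ⟨n, g, hginj, hgint⟩ :=
    exists_integral_inj_algHom_of_fg ℂ (Algebra.adjoin ℂ (Set.range f))
  have hP : ∀ i, ∃ P : MvPolynomial J ℂ, aeval f P = (g (X i) : K) := by
    intro i
    have h1 : (g (X i) : K) ∈ (aeval f : MvPolynomial J ℂ →ₐ[ℂ] K).range :=
      (Algebra.adjoin_range_eq_range_aeval ℂ f) ▸ (g (X i)).2
    exact h1
  choose P hP using hP
  refine ⟨n, g.comp (translate fun i => constantCoeff (P i)).toAlgHom, ?_, ?_, ?_⟩
  · rw [AlgHom.coe_comp]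
    exact hginj.comp (translate fun i => constantCoeff (P i)).injective
  · refine RingHom.IsIntegral.trans _ _ ?_ hgint
    exact RingHom.isIntegral_of_surjective _ (translate fun i => constantCoeff (P i)).surjective
  · intro i
    refine ⟨P i - C (constantCoeff (P i)), by simp, ?_⟩
    have h1 : (g.comp (translate fun i => constantCoeff (P i)).toAlgHom) (X i) =
        g (X i) - algebraMap ℂ _ (constantCoeff (P i)) := by
      rw [AlgHom.comp_apply]
      change g (translate (fun i => constantCoeff (P i)) (X i)) = _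
      rw [translate_X, map_sub, ← algebraMap_eq, AlgHom.commutes]
    rw [h1, map_sub, hP, aeval_C]
    rfl

/-- **Sections form of the cover criterion.** Finitely many sections `f_j` which are regular on the
charts `G l`, such that every valuation ring containing all `f_j`, one of them a unit, contains
a chart. Then the intersection of the charts is the integral closure of some `ℂ[s,t]`. -/
theorem exists_clos_of_sections {J ι : Type*} [Finite J] (f : J → K) (G : ι → Set K) {x y : K}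
    (hxy : AlgebraicIndependent ℂ ![x, y])
    [Algebra.IsAlgebraic (Algebra.adjoin ℂ ({x, y} : Set K)) K]
    [Algebra.IsAlgebraic (Algebra.adjoin ℂ (Set.range f)) K]
    (hreg : ∀ j l, f j ∈ intClos (G l))
    (hcov : ∀ V : ValuationSubring K, (∀ c : ℂ, algebraMap ℂ K c ∈ V) → (∀ j, f j ∈ V) →
      (∃ j, V.valuation (f j) = 1) → ∃ l, ∀ g ∈ G l, g ∈ V) :
    ∃ s t : K, s ∈ Algebra.adjoin ℂ (Set.range f) ∧ t ∈ Algebra.adjoin ℂ (Set.range f) ∧
      AlgebraicIndependent ℂ ![s, t] ∧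
      Algebra.IsAlgebraic (Algebra.adjoin ℂ ({s, t} : Set K)) K ∧
      (∀ l, clos s t ≤ intClos (G l)) ∧ ∀ k, (∀ l, k ∈ intClos (G l)) → k ∈ clos s t := by
  set R := Algebra.adjoin ℂ (Set.range f) with hR
  obtain ⟨n, g, hginj, hgint, hQ⟩ := exists_noether f
  let v : Fin n → K := fun i => (g (X i) : K)
  have hav : (aeval v : MvPolynomial (Fin n) ℂ →ₐ[ℂ] K) = R.val.comp g := by
    apply MvPolynomial.algHom_ext
    intro i
    rw [aeval_X]
    rfl
  have hvind : AlgebraicIndependent ℂ v := by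
    rw [AlgebraicIndependent, hav, AlgHom.coe_comp]
    exact Subtype.val_injective.comp hginj
  let _ : Algebra (MvPolynomial (Fin n) ℂ) R := g.toRingHom.toAlgebra
  let _ : Algebra (MvPolynomial (Fin n) ℂ) K := (aeval v : MvPolynomial (Fin n) ℂ →ₐ[ℂ] K).toRingHom.toAlgebra
  have hmapK : ∀ p, algebraMap (MvPolynomial (Fin n) ℂ) K p = aeval v p := fun _ => rfl
  have : IsScalarTower (MvPolynomial (Fin n) ℂ) R K := by
    refine IsScalarTower.of_algebraMap_eq fun p => ?_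
    rw [hmapK, hav]
    rfl
  have : Algebra.IsIntegral (MvPolynomial (Fin n) ℂ) R := ⟨fun r => hgint r⟩
  have : FaithfulSMul (MvPolynomial (Fin n) ℂ) R := by
    rw [faithfulSMul_iff_algebraMap_injective]
    exact hginj
  have : Algebra.IsAlgebraic (MvPolynomial (Fin n) ℂ) K :=
    Algebra.IsAlgebraic.trans (MvPolynomial (Fin n) ℂ) R K
  -- `n = 2`
  let _ : Algebra (MvPolynomial (Fin n) ℂ) (Algebra.adjoin ℂ (Set.range v)) :=
    (hvind.aevalEquiv : MvPolynomial (Fin n) ℂ →+* Algebra.adjoin ℂ (Set.range v)).toAlgebra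
  have : IsScalarTower (MvPolynomial (Fin n) ℂ) (Algebra.adjoin ℂ (Set.range v)) K :=
    IsScalarTower.of_algebraMap_eq fun p => (hvind.algebraMap_aevalEquiv p).symm
  have halgv : Algebra.IsAlgebraic (Algebra.adjoin ℂ (Set.range v)) K :=
    Algebra.IsAlgebraic.extendScalars (R := MvPolynomial (Fin n) ℂ) hvind.aevalEquiv.injective
  have hb1 : IsTranscendenceBasis ℂ v :=
    hvind.isTranscendenceBasis_iff_isAlgebraic.2 halgv
  have hb2 : IsTranscendenceBasis ℂ ![x, y] := by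
    rw [hxy.isTranscendenceBasis_iff_isAlgebraic]
    rw [show Set.range ![x, y] = {x, y} by ext z; simp [or_comm, eq_comm]]
    infer_instance
  have hn : n = 2 := by
    have h1 := hb1.cardinalMk_eq hb2
    rw [Cardinal.mk_fin, Cardinal.mk_fin] at h1
    exact_mod_cast h1
  subst hn
  have hv : v = ![v 0, v 1] := by
    funext i
    fin_cases i <;> rfl
  have hst : AlgebraicIndependent ℂ ![v 0, v 1] := hv ▸ hvind
  have halg := isAlgebraic_of_gen (v 0) (v 1) x y hst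
  have hmem : ∀ l, ∀ r ∈ R, r ∈ intClos (G l) := by
    intro l r hr
    induction hr using Algebra.adjoin_induction with
    | mem z hz =>
      obtain ⟨j, rfl⟩ := hz
      exact hreg j l
    | algebraMap c => exact Subalgebra.algebraMap_mem _ c
    | add a b _ _ ha hb => exact Subalgebra.add_mem _ ha hb
    | mul a b _ _ ha hb => exact Subalgebra.mul_mem _ ha hb
  refine ⟨v 0, v 1, (g (X 0)).2, (g (X 1)).2, hst, halg, fun l => ?_, fun k hk => ?_⟩
  · rw [clos_eq_intClos]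
    refine intClos_mono_of_mem ?_
    rintro z (rfl | rfl)
    · exact hmem l _ (g (X 0)).2
    · exact hmem l _ (g (X 1)).2
  · refine mem_clos_of_cover (v 0) (v 1) hst G ?_ k hk
    intro V hV h0 h1 hunit
    have hfV : ∀ j, f j ∈ V := by
      intro j
      have hj : IsIntegral (MvPolynomial (Fin 2) ℂ) (f j) := by
        have h2 : IsIntegral (MvPolynomial (Fin 2) ℂ)
          (⟨f j, Algebra.subset_adjoin ⟨j, rfl⟩⟩ : R) := Algebra.IsIntegral.isIntegral _
        exact h2.algebraMap (B := K)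
      refine mem_valuationSubring_of_isIntegral V (fun p => ?_) hj
      rw [hmapK]
      induction p using MvPolynomial.induction_on with
      | C a => rw [aeval_C]; exact hV a
      | add p q hp hq => rw [map_add]; exact V.add_mem _ _ hp hq
      | mul_X p i hp =>
        rw [map_mul, aeval_X]
        refine V.mul_mem _ _ hp ?_
        fin_cases i
        · exact h0
        · exact h1
    refine hcov V hV hfV ?_
    by_contra hcon
    push Not at hcon
    have hlt : ∀ j, V.valuation (f j) < 1 := fun j =>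
      lt_of_le_of_ne ((V.valuation_le_one_iff _).2 (hfV j)) (hcon j)
    have hvlt : ∀ i, V.valuation (v i) < 1 := by
      intro i
      obtain ⟨Q, hQ0, hQ1⟩ := hQ i
      change V.valuation (g (X i) : K) < 1
      rw [hQ1]
      exact val_aeval_lt V hV f hlt Q hQ0
    have hne : ∀ i, v i ≠ 0 := fun i => hvind.ne_zero i
    rcases hunit with h | h
    · have h3 := (V.valuation_le_one_iff _).2 h
      rw [map_inv₀, inv_le_one₀ (zero_lt_iff.2 ((V.valuation.ne_zero_iff).2 (hne 0)))] at h3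
      exact absurd (hvlt 0) (not_lt.2 h3)
    · have h3 := (V.valuation_le_one_iff _).2 h
      rw [map_inv₀, inv_le_one₀ (zero_lt_iff.2 ((V.valuation.ne_zero_iff).2 (hne 1)))] at h3
      exact absurd (hvlt 1) (not_lt.2 h3)

end Crest.Agent.R278
end

-- ▼ part R278/Multiplier
section

/-!
Row 278 (S0421): multipliers `b` with `b ^ n c ∈ A`; chart form with two pairs of minors.
-/

set_option autoImplicit false

namespace Crest.Agent.R278

section Mult

variable {K : Type} [Field K] [Algebra ℂ K]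

/-- integral closure is idempotent -/
theorem mem_intClos_of_isIntegral_intClos {S : Set K} {c : K} (h : IsIntegral (intClos S) c) :
    c ∈ intClos S := by
  have h1 : IsIntegral (integralClosure (Algebra.adjoin ℂ S) K) c := h
  exact isIntegral_trans (R := Algebra.adjoin ℂ S)
    (A := integralClosure (Algebra.adjoin ℂ S) K) c h1

/-- **Multipliers.** If `c` lies in every valuation ring containing `S` and `b⁻¹` then
`b ^ n c` is integral over `ℂ[S]` for some `n`. -/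
theorem exists_pow_mul_mem {S : Set K} {b c : K} (hb : b ∈ intClos S) (hb0 : b ≠ 0)
    (h : ∀ V : ValuationSubring K, (∀ c : ℂ, algebraMap ℂ K c ∈ V) → (∀ z ∈ S, z ∈ V) →
      b⁻¹ ∈ V → c ∈ V) : ∃ n : ℕ, b ^ n * c ∈ intClos S := by
  set A := intClos S with hA
  let B : Subalgebra ℂ K := Algebra.adjoin ℂ ((A : Set K) ∪ {b⁻¹})
  have hAB : A ≤ B := fun z hz => Algebra.subset_adjoin (Or.inl hz)
  let _ : Algebra A B := (Subalgebra.inclusion hAB).toRingHom.toAlgebra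
  have hinv : b⁻¹ ∈ B := Algebra.subset_adjoin (Or.inr rfl)
  have hex : ∀ f ∈ B, ∃ n : ℕ, f * b ^ n ∈ A := by
    intro f hf
    induction hf using Algebra.adjoin_induction with
    | mem z hz =>
      rcases hz with hz | hz
      · exact ⟨0, by simpa using hz⟩
      · rw [Set.mem_singleton_iff] at hz
        subst hz
        exact ⟨1, by rw [pow_one, inv_mul_cancel₀ hb0]; exact A.one_mem⟩
    | algebraMap c => exact ⟨0, by simp⟩
    | add u v _ _ hu hv =>
      obtain ⟨n, hn⟩ := hu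
      obtain ⟨m, hm⟩ := hv
      refine ⟨n + m, ?_⟩
      have : (u + v) * b ^ (n + m) = u * b ^ n * b ^ m + v * b ^ m * b ^ n := by
        rw [pow_add]; ring
      rw [this]
      exact A.add_mem (A.mul_mem hn (A.pow_mem hb _)) (A.mul_mem hm (A.pow_mem hb _))
    | mul u v _ _ hu hv =>
      obtain ⟨n, hn⟩ := hu
      obtain ⟨m, hm⟩ := hv
      refine ⟨n + m, ?_⟩
      have : u * v * b ^ (n + m) = (u * b ^ n) * (v * b ^ m) := by rw [pow_add]; ring
      rw [this]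
      exact A.mul_mem hn hm
  have hloc : IsLocalization (Submonoid.powers (⟨b, hb⟩ : A)) B :=
    isLocalization_subalgebra (fun x => rfl) hb hb0 hinv hex
  have hc : IsIntegral B c := by
    have h1 : c ∈ intClos (S ∪ {b⁻¹}) := by
      rw [mem_intClos_iff_valuationSubring]
      intro V hV hS
      exact h V hV (fun z hz => hS z (Or.inl hz)) (hS _ (Or.inr rfl))
    rw [mem_intClos] at h1
    have h2 : Algebra.adjoin ℂ (S ∪ {b⁻¹}) ≤ B := by
      rw [Algebra.adjoin_le_iff]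
      rintro z (hz | hz)
      · exact hAB (subset_intClos hz)
      · exact Algebra.subset_adjoin (Or.inr hz)
    obtain ⟨P, hP, hP0⟩ := h1
    refine ⟨P.map (Subalgebra.inclusion h2).toRingHom, hP.map _, ?_⟩
    rw [Polynomial.eval₂_map]
    exact hP0
  have : IsScalarTower A B K := IsScalarTower.of_algebraMap_eq fun _ => rfl
  obtain ⟨⟨m, hm⟩, hmc⟩ := IsIntegral.exists_multiple_integral_of_isLocalization
    (Submonoid.powers (⟨b, hb⟩ : A)) (Rₘ := B) c hc
  obtain ⟨n, rfl⟩ := hm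
  refine ⟨n, mem_intClos_of_isIntegral_intClos ?_⟩
  have h3 : ((⟨(⟨b, hb⟩ : A) ^ n, ⟨n, rfl⟩⟩ : Submonoid.powers (⟨b, hb⟩ : A)) • c : K) =
      b ^ n * c := by
    rw [Submonoid.smul_def, Algebra.smul_def]
    rfl
  rwa [h3] at hmc

/-- A common exponent for three elements. -/
theorem exists_pow_mul_mem₃ {S : Set K} {b c₁ c₂ c₃ : K} (hb : b ∈ intClos S) (hb0 : b ≠ 0)
    (h : ∀ V : ValuationSubring K, (∀ c : ℂ, algebraMap ℂ K c ∈ V) → (∀ z ∈ S, z ∈ V) →
      b⁻¹ ∈ V → c₁ ∈ V ∧ c₂ ∈ V ∧ c₃ ∈ V) : ∃ n : ℕ, b ^ n ∈ intClos S ∧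
      b ^ n * c₁ ∈ intClos S ∧ b ^ n * c₂ ∈ intClos S ∧ b ^ n * c₃ ∈ intClos S := by
  obtain ⟨n₁, h₁⟩ := exists_pow_mul_mem hb hb0 (fun V hV hS hbV => (h V hV hS hbV).1)
  obtain ⟨n₂, h₂⟩ := exists_pow_mul_mem hb hb0 (fun V hV hS hbV => (h V hV hS hbV).2.1)
  obtain ⟨n₃, h₃⟩ := exists_pow_mul_mem hb hb0 (fun V hV hS hbV => (h V hV hS hbV).2.2)
  refine ⟨n₁ + n₂ + n₃, Subalgebra.pow_mem _ hb _, ?_, ?_, ?_⟩
  · have : b ^ (n₁ + n₂ + n₃) * c₁ = b ^ (n₂ + n₃) * (b ^ n₁ * c₁) := by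
      rw [pow_add, pow_add, pow_add]; ring
    rw [this]
    exact Subalgebra.mul_mem _ (Subalgebra.pow_mem _ hb _) h₁
  · have : b ^ (n₁ + n₂ + n₃) * c₂ = b ^ (n₁ + n₃) * (b ^ n₂ * c₂) := by
      rw [pow_add, pow_add, pow_add]; ring
    rw [this]
    exact Subalgebra.mul_mem _ (Subalgebra.pow_mem _ hb _) h₂
  · have : b ^ (n₁ + n₂ + n₃) * c₃ = b ^ (n₁ + n₂) * (b ^ n₃ * c₃) := by
      rw [pow_add, pow_add]; ring
    rw [this]
    exact Subalgebra.mul_mem _ (Subalgebra.pow_mem _ hb _) h₃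

end Mult

section Charts

/-- Chart form with two pairs per chart: `c₁ minor(p,q) + c₂ minor(π,q) = 1` in `C l`. -/
theorem concl_of_charts2 (K : Type) [Field K] [Algebra ℂ K] (D₁ D₂ : Derivation ℂ K K)
    (X Y : K) [Algebra.IsAlgebraic (Algebra.adjoin ℂ ({X, Y} : Set K)) K]
    (S : Set K) (hSf : S.Finite) (hS : IntermediateField.adjoin ℂ S = ⊤)
    (s t : K) (hst : minor D₁ D₂ s t ≠ 0)
    {ι : Type*} [Finite ι] (C : ι → Subalgebra ℂ K)
    (hle : ∀ l, clos s t ≤ C l) (hinter : ∀ k : K, (∀ l, k ∈ C l) → k ∈ clos s t)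
    (h1 : ∀ l, ∀ a ∈ C l, D₁ a ∈ C l) (h2 : ∀ l, ∀ a ∈ C l, D₂ a ∈ C l)
    (b p q π c₁ c₂ : ι → K) (hb : ∀ l, b l ∈ clos s t) (hbp : ∀ l, b l * p l ∈ clos s t)
    (hbq : ∀ l, b l * q l ∈ clos s t) (hbπ : ∀ l, b l * π l ∈ clos s t)
    (hb0 : ∀ l, b l ≠ 0) (hbi : ∀ l, (b l)⁻¹ ∈ C l)
    (hc₁ : ∀ l, c₁ l ∈ C l) (hc₂ : ∀ l, c₂ l ∈ C l)
    (hm : ∀ l, c₁ l * minor D₁ D₂ (p l) (q l) + c₂ l * minor D₁ D₂ (π l) (q l) = 1)
    (I : Ideal (clos s t)) (hI : I ≠ ⊤)
    (hDI : ∀ (a : K), a ∈ clos s t → ∀ h : D₁ a ∈ clos s t, (⟨D₁ a, h⟩ : clos s t) ∈ I) :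
    Concl := by
  have H1 : ∀ a ∈ clos s t, D₁ a ∈ clos s t := fun a ha =>
    hinter _ fun l => h1 l a (hle l ha)
  have H2 : ∀ a ∈ clos s t, D₂ a ∈ clos s t := fun a ha =>
    hinter _ fun l => h2 l a (hle l ha)
  obtain ⟨m, hm', hIm⟩ := Ideal.exists_le_maximal I hI
  let x : ι × Fin 5 → K := fun i => match i.2 with
    | 0 => b i.1 * p i.1
    | 1 => b i.1
    | 2 => b i.1
    | 3 => b i.1 * π i.1
    | 4 => b i.1
  let y : ι × Fin 5 → K := fun i => match i.2 with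
    | 0 => b i.1 * q i.1
    | 1 => b i.1 * p i.1
    | 2 => b i.1 * q i.1
    | 3 => b i.1 * q i.1
    | 4 => b i.1 * π i.1
  have hx : ∀ i, x i ∈ clos s t := by
    rintro ⟨l, j⟩
    fin_cases j
    · exact hbp l
    · exact hb l
    · exact hb l
    · exact hbπ l
    · exact hb l
  have hy : ∀ i, y i ∈ clos s t := by
    rintro ⟨l, j⟩
    fin_cases j
    · exact hbq l
    · exact hbp l
    · exact hbq l
    · exact hbq l
    · exact hbπ l
  refine statement_of_cert K D₁ D₂ X Y S hSf hS s t hst H1 H2 x y hx hy ?_ m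
    (fun a _ => hIm (hDI a a.2 _))
  intro k hk
  refine hinter k fun l => ?_
  have e0 : minor D₁ D₂ (b l * p l) (b l * q l) * k ∈ C l := hle l (hk (l, 0))
  have e1 : minor D₁ D₂ (b l) (b l * p l) * k ∈ C l := hle l (hk (l, 1))
  have e2 : minor D₁ D₂ (b l) (b l * q l) * k ∈ C l := hle l (hk (l, 2))
  have e3 : minor D₁ D₂ (b l * π l) (b l * q l) * k ∈ C l := hle l (hk (l, 3))
  have e4 : minor D₁ D₂ (b l) (b l * π l) * k ∈ C l := hle l (hk (l, 4))
  have key : ∀ P Q : K, b l * P ∈ C l → b l * Q ∈ C l →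
      minor D₁ D₂ (b l * P) (b l * Q) * k ∈ C l → minor D₁ D₂ (b l) (b l * P) * k ∈ C l →
      minor D₁ D₂ (b l) (b l * Q) * k ∈ C l → minor D₁ D₂ P Q * k ∈ C l := by
    intro P Q hP hQ f0 f1 f2
    have hid : b l ^ 3 * minor D₁ D₂ P Q
        = b l * minor D₁ D₂ (b l * P) (b l * Q) + b l * Q * minor D₁ D₂ (b l) (b l * P)
          - b l * P * minor D₁ D₂ (b l) (b l * Q) := by
      unfold minor
      simp only [Derivation.leibniz, smul_eq_mul]
      ring
    have f3 : b l ^ 3 * minor D₁ D₂ P Q * k ∈ C l := by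
      rw [hid]
      have : (b l * minor D₁ D₂ (b l * P) (b l * Q) + b l * Q * minor D₁ D₂ (b l) (b l * P)
          - b l * P * minor D₁ D₂ (b l) (b l * Q)) * k
          = b l * (minor D₁ D₂ (b l * P) (b l * Q) * k)
            + b l * Q * (minor D₁ D₂ (b l) (b l * P) * k)
            - b l * P * (minor D₁ D₂ (b l) (b l * Q) * k) := by ring
      rw [this]
      exact (C l).sub_mem ((C l).add_mem ((C l).mul_mem (hle l (hb l)) f0)
        ((C l).mul_mem hQ f1)) ((C l).mul_mem hP f2)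
    have hk' : minor D₁ D₂ P Q * k = (b l)⁻¹ ^ 3 * (b l ^ 3 * minor D₁ D₂ P Q * k) := by
      have h3 := hb0 l
      field_simp
    rw [hk']
    exact (C l).mul_mem ((C l).pow_mem (hbi l) 3) f3
  have g1 := key (p l) (q l) (hle l (hbp l)) (hle l (hbq l)) e0 e1 e2
  have g2 := key (π l) (q l) (hle l (hbπ l)) (hle l (hbq l)) e3 e4 e2
  have : k = c₁ l * (minor D₁ D₂ (p l) (q l) * k) + c₂ l * (minor D₁ D₂ (π l) (q l) * k) := by
    linear_combination (-k) * hm l
  rw [this]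
  exact (C l).add_mem ((C l).mul_mem (hc₁ l) g1) ((C l).mul_mem (hc₂ l) g2)

end Charts

end Crest.Agent.R278
end

-- ▼ part R278/RadSys
section

set_option autoImplicit false

namespace Crest.Agent.R278

/-- A radical system: `gam c ^ N = W c ∈ F`, and every element of `K` integral over `ℂ[G]`,
`G ⊆ F`, is a sum of elements `(c x) * gam x` with `c x ∈ F`, each of which is again integral over
`ℂ[G]`. -/
structure RadSys (F : Type*) (K : Type) [Field F] [Field K] [Algebra ℂ F] [Algebra F K] [Algebra ℂ K]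
    [IsScalarTower ℂ F K] (N : ℕ) {X : Type*} [Fintype X] (gam : X → K) (W : X → F) : Prop where
  pow : ∀ c, gam c ^ N = algebraMap F K (W c)
  W_ne : ∀ c, W c ≠ 0
  decomp : ∀ (G : Set F) (v : K), v ∈ intClos (algebraMap F K '' G) →
    ∃ c : X → F, v = ∑ x, algebraMap F K (c x) * gam x ∧
      ∀ x, algebraMap F K (c x) * gam x ∈ intClos (algebraMap F K '' G)

end Crest.Agent.R278
end

-- ▼ part R278/Mono
section

/-!
Row 278 (S0421): ramified charts for radical extensions `K = F(g₁, …, gₙ)`, `gᵢ ^ N ∈ F`.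
-/

set_option autoImplicit false

namespace Crest.Agent.R278

open MvPolynomial

section Mono

variable {F : Type} [Field F] [Algebra ℂ F] {N : ℕ} {p q h : F}
variable {K : Type} [Field K] [Algebra F K] [Algebra ℂ K] [IsScalarTower ℂ F K]

/-- `G` is a monomial at the chart: `(e G) ^ N = p ^ r ω` with `ω` a unit of the chart ring. -/
structure Mono (N : ℕ) (p q h : F) (G : K) (e ω : F) (r : ℤ) : Prop where
  he : e ≠ 0
  hω : ω ∈ chartRing ℂ p q h
  hω' : ω⁻¹ ∈ chartRing ℂ p q h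
  hω0 : ω ≠ 0
  pow : (algebraMap F K e * G) ^ N = algebraMap F K (p ^ r * ω)

omit [Algebra ℂ K] [IsScalarTower ℂ F K] in
theorem Mono.of_eq {G : K} {e ω w : F} {r : ℤ} (he : e ≠ 0) (hω : ω ∈ chartRing ℂ p q h)
    (hω' : ω⁻¹ ∈ chartRing ℂ p q h) (hω0 : ω ≠ 0) (hG : G ^ N = algebraMap F K w)
    (hw : e ^ N * w = p ^ r * ω) : Mono N p q h G e ω r :=
  ⟨he, hω, hω', hω0, by rw [mul_pow, hG, ← map_pow, ← map_mul, hw]⟩

omit [Algebra ℂ K] [IsScalarTower ℂ F K] in
theorem Mono.one : Mono N p q h (1 : K) 1 1 0 :=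
  ⟨one_ne_zero, Subalgebra.one_mem _, by rw [inv_one]; exact Subalgebra.one_mem _, one_ne_zero,
    by simp⟩

omit [Algebra ℂ K] [IsScalarTower ℂ F K] in
theorem Mono.mul (hp0 : p ≠ 0) {G G' : K} {e ω e' ω' : F} {r r' : ℤ}
    (H : Mono N p q h G e ω r) (H' : Mono N p q h G' e' ω' r') :
    Mono N p q h (G * G') (e * e') (ω * ω') (r + r') :=
  ⟨mul_ne_zero H.he H'.he, Subalgebra.mul_mem _ H.hω H'.hω, by
    rw [mul_inv]; exact Subalgebra.mul_mem _ H.hω' H'.hω', mul_ne_zero H.hω0 H'.hω0, by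
    have h1 : algebraMap F K (e * e') * (G * G') =
      (algebraMap F K e * G) * (algebraMap F K e' * G') := by rw [map_mul]; ring
    rw [h1, mul_pow, H.pow, H'.pow, ← map_mul, zpow_add₀ hp0]
    congr 1
    ring⟩

omit [Algebra ℂ K] [IsScalarTower ℂ F K] in
theorem Mono.npow (hp0 : p ≠ 0) {G : K} {e ω : F} {r : ℤ}
    (H : Mono N p q h G e ω r) (n : ℕ) :
    Mono N p q h (G ^ n) (e ^ n) (ω ^ n) (n * r) := by
  induction n with
  | zero => simpa using Mono.one
  | succ n ih =>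
    have := ih.mul hp0 H
    rw [← pow_succ, ← pow_succ, ← pow_succ] at this
    convert this using 1
    push_cast; ring

omit [Algebra ℂ K] [IsScalarTower ℂ F K] in
theorem Mono.prod (hp0 : p ≠ 0) {I : Type*} (s : Finset I) {G : I → K} {e ω : I → F} {r : I → ℤ}
    (H : ∀ i ∈ s, Mono N p q h (G i) (e i) (ω i) (r i)) :
    Mono N p q h (∏ i ∈ s, G i) (∏ i ∈ s, e i) (∏ i ∈ s, ω i) (∑ i ∈ s, r i) := by
  classical
  induction s using Finset.induction_on with
  | empty => simpa using Mono.one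
  | insert a s ha ih =>
    rw [Finset.prod_insert ha, Finset.prod_insert ha, Finset.prod_insert ha, Finset.sum_insert ha]
    exact (H a (Finset.mem_insert_self a s)).mul hp0
      (ih fun i hi => H i (Finset.mem_insert_of_mem hi))

omit [Algebra ℂ K] [IsScalarTower ℂ F K] in
theorem Mono.pow_eq {G : K} {e ω : F} {r : ℤ} (H : Mono N p q h G e ω r) (f : F) :
    (algebraMap F K f * (algebraMap F K e * G)) ^ N = algebraMap F K (f ^ N * p ^ r * ω) := by
  rw [mul_pow, H.pow, ← map_pow, ← map_mul, mul_assoc]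

theorem Mono.mem_of {G : K} {e ω : F} {r : ℤ} (H : Mono N p q h G e ω r) (hN : 0 < N) {f : F}
    (hf : f ^ N * p ^ r ∈ chartRing ℂ p q h) :
    algebraMap F K f * (algebraMap F K e * G) ∈ CK K p q h := by
  have h1 : (algebraMap F K f * (algebraMap F K e * G)) ^ N ∈ CK K p q h := by
    rw [H.pow_eq]
    exact alg_mem_intClos (Subalgebra.mul_mem _ hf H.hω)
  exact IsIntegral.of_pow hN h1

theorem Mono.of_mem {G : K} {e ω : F} {r : ℤ} (H : Mono N p q h G e ω r) (hc : IsChart ℂ p q)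
    (hh : h ∈ polyRing ℂ p q) (h0 : h ≠ 0) {f : F}
    (hf : algebraMap F K f * (algebraMap F K e * G) ∈ CK K p q h) :
    f ^ N * p ^ r ∈ chartRing ℂ p q h := by
  have h1 : (algebraMap F K f * (algebraMap F K e * G)) ^ N ∈ CK K p q h :=
    Subalgebra.pow_mem _ hf N
  rw [H.pow_eq] at h1
  have h2 := mem_chartRing_of_intClos hc hh h0 h1
  have h3 : f ^ N * p ^ r = f ^ N * p ^ r * ω * ω⁻¹ := by
    rw [mul_assoc, mul_inv_cancel₀ H.hω0, mul_one]
  rw [h3]
  exact Subalgebra.mul_mem _ h2 H.hω'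

omit [Algebra ℂ K] [IsScalarTower ℂ F K] in
theorem Mono.ne_zero {G : K} {e ω : F} {r : ℤ} (H : Mono N p q h G e ω r) (hN : 0 < N)
    (hp0 : p ≠ 0) : G ≠ 0 := by
  rintro rfl
  have h1 := H.pow
  rw [mul_zero, zero_pow hN.ne'] at h1
  have h2 : algebraMap F K (p ^ r * ω) ≠ 0 := by
    rw [Ne, map_eq_zero]
    exact mul_ne_zero (zpow_ne_zero _ hp0) H.hω0
  exact h2 h1.symm

/-- the normalized monomial `p^(-⌊r/N⌋) e G`. -/
noncomputable def Gam (p e : F) (r : ℤ) (N : ℕ) (G : K) : K :=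
  algebraMap F K (p ^ (-(r / N))) * (algebraMap F K e * G)

omit [Algebra ℂ K] [IsScalarTower ℂ F K] in
theorem Mono.Gam_pow {G : K} {e ω : F} {r : ℤ} (H : Mono N p q h G e ω r) (hp0 : p ≠ 0) {ρ : ℕ}
    (hρ : r % N = ρ) : (Gam p e r N G) ^ N = algebraMap F K (p ^ ρ * ω ^ 1) := by
  rw [Gam, H.pow_eq, pow_one]
  congr 2
  rw [← zpow_natCast (p ^ (-(r / N))), ← zpow_mul, ← zpow_add₀ hp0, ← zpow_natCast p ρ]
  congr 1
  have := Int.ediv_mul_add_emod r N
  rw [← hρ]
  linarith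

theorem Mono.Gam_mem {G : K} {e ω : F} {r : ℤ} (H : Mono N p q h G e ω r) (hN : 0 < N)
    (hp0 : p ≠ 0) : Gam p e r N G ∈ CK K p q h := by
  have hN' : (0 : ℤ) < N := by exact_mod_cast hN
  obtain ⟨ρ, hρ⟩ := Int.eq_ofNat_of_zero_le (Int.emod_nonneg r hN'.ne')
  have h1 : (Gam p e r N G) ^ N ∈ CK K p q h := by
    rw [H.Gam_pow hp0 hρ]
    exact alg_mem_intClos (Subalgebra.mul_mem _ (Subalgebra.pow_mem _
      (Algebra.subset_adjoin (by simp)) _) (Subalgebra.pow_mem _ H.hω _))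
  exact IsIntegral.of_pow hN h1

end Mono

section Der

variable {F : Type} [Field F] [Algebra ℂ F] {N : ℕ} {p q h : F}
variable {K : Type} [Field K] [Algebra F K] [Algebra ℂ K] [IsScalarTower ℂ F K]
variable {X : Type} [Fintype X] {γ : X → K} {W : X → F}

/-- **P4R for radical systems.** -/
theorem RadSys.der_mem (S : RadSys F K N γ W) (hN : 0 < N) (hc : IsChart ℂ p q)
    (hh : h ∈ polyRing ℂ p q) (h0 : h ≠ 0) (hp0 : p ≠ 0) {E Ω : X → F} {R : X → ℤ}
    (H : ∀ χ, Mono N p q h (γ χ) (E χ) (Ω χ) (R χ))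
    (hd : (∀ χ, R χ = 0) ∨ h / p ∉ polyRing ℂ p q) (D : Derivation ℂ K K)
    (hDp : D (algebraMap F K p) ∈ CK K p q h) (hDq : D (algebraMap F K q) ∈ CK K p q h)
    (hlog : ∀ χ, R χ % N ≠ 0 → Gam p (E χ) (R χ) N (γ χ) *
      (D (algebraMap F K p) / algebraMap F K p) ∈ CK K p q h) :
    ∀ v ∈ CK K p q h, D v ∈ CK K p q h := by
  intro v hv
  have hv' := hv
  rw [CK, ← image_G] at hv'
  obtain ⟨c, rfl, hcm⟩ := S.decomp _ v hv'
  rw [map_sum]
  refine Subalgebra.sum_mem _ fun χ _ => ?_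
  have h1 := hcm χ
  rw [image_G] at h1
  have hE' : algebraMap F K (E χ) ≠ 0 := by rw [Ne, map_eq_zero]; exact (H χ).he
  set f : F := c χ / E χ with hf
  have h2 : algebraMap F K (c χ) * γ χ = algebraMap F K f * (algebraMap F K (E χ) * γ χ) := by
    rw [hf, map_div₀]
    field_simp
  rw [h2] at h1
  have h3 := (H χ).of_mem hc hh h0 h1
  have h4 : f * p ^ (R χ / N) ∈ chartRing ℂ p q h := by
    rcases hd with hd | hd
    · rw [hd χ] at h3 ⊢
      rw [zpow_zero, mul_one] at h3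
      rw [Int.zero_ediv, zpow_zero, mul_one]
      exact mem_chartRing_of_pow hc hh h0 hN h3
    · exact floor_mem hc hh h0 hp0 hd hN h3
  set a : F := f * p ^ (R χ / N) with ha
  have h5 : algebraMap F K f * (algebraMap F K (E χ) * γ χ) =
      algebraMap F K a * Gam p (E χ) (R χ) N (γ χ) := by
    have e1 : a * p ^ (-(R χ / N)) = f := by
      rw [ha, mul_assoc, ← zpow_add₀ hp0]; simp
    rw [Gam, ← mul_assoc (algebraMap F K a), ← map_mul, e1]
  rw [h2, h5, D.leibniz, smul_eq_mul, smul_eq_mul]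
  have hγ := (H χ).Gam_mem hN hp0
  have haD : ∀ a ∈ chartRing ℂ p q h, D (algebraMap F K a) ∈ CK K p q h := by
    intro a ha
    obtain ⟨α, hα, β, hβ, hD⟩ := exists_partials (K := K) hh h0 ha
    rw [hD]
    exact Subalgebra.add_mem _ (Subalgebra.mul_mem _ (alg_mem_intClos hα) hDp)
      (Subalgebra.mul_mem _ (alg_mem_intClos hβ) hDq)
  refine Subalgebra.add_mem _ (Subalgebra.mul_mem _ (alg_mem_intClos h4) ?_)
    (Subalgebra.mul_mem _ hγ (haD a h4))
  have hN' : (0 : ℤ) < N := by exact_mod_cast hN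
  obtain ⟨ρ, hρ⟩ := Int.eq_ofNat_of_zero_le (Int.emod_nonneg (R χ) hN'.ne')
  rw [der_root hN hp0 (H χ).hω0 ((H χ).Gam_pow hp0 hρ) D]
  have h6 : algebraMap ℂ K (N : ℂ)⁻¹ * Gam p (E χ) (R χ) N (γ χ) *
      ((ρ : K) * (D (algebraMap F K p) / algebraMap F K p) +
        ((1 : ℕ) : K) * (D (algebraMap F K (Ω χ)) / algebraMap F K (Ω χ))) =
      algebraMap ℂ K (N : ℂ)⁻¹ * ((ρ : K) * (Gam p (E χ) (R χ) N (γ χ) *
        (D (algebraMap F K p) / algebraMap F K p)) +
        (Gam p (E χ) (R χ) N (γ χ) * (D (algebraMap F K (Ω χ)) *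
          algebraMap F K (Ω χ)⁻¹))) := by
    rw [map_inv₀ (algebraMap F K) (Ω χ), Nat.cast_one]; ring
  rw [h6]
  refine Subalgebra.mul_mem _ (Subalgebra.algebraMap_mem _ _) (Subalgebra.add_mem _ ?_
    (Subalgebra.mul_mem _ hγ
      (Subalgebra.mul_mem _ (haD _ (H χ).hω) (alg_mem_intClos (H χ).hω'))))
  by_cases h0 : ρ = 0
  · rw [h0, Nat.cast_zero, zero_mul]; exact Subalgebra.zero_mem _
  · refine Subalgebra.mul_mem _ (natCast_mem _ _) (hlog χ ?_)
    rw [hρ]
    exact_mod_cast h0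

/-- stability from conditions in `F`. -/
theorem RadSys.stable (S : RadSys F K N γ W) (hN : 0 < N) (hc : IsChart ℂ p q)
    (hh : h ∈ polyRing ℂ p q) (h0 : h ≠ 0) (hp0 : p ≠ 0) {E Ω : X → F} {R : X → ℤ}
    (H : ∀ χ, Mono N p q h (γ χ) (E χ) (Ω χ) (R χ))
    (hd : (∀ χ, R χ = 0) ∨ h / p ∉ polyRing ℂ p q) (D : Derivation ℂ K K)
    {G : K} {e ω : F} {r : ℤ} (HG : Mono N p q h G e ω r)
    {a b : F} (hDp : D (algebraMap F K p) = algebraMap F K a * G)
    (hDq : D (algebraMap F K q) = algebraMap F K b * G)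
    {d : ℕ} (hdN : d ≤ N) (hdR : ∀ χ, (d : ℤ) ∣ R χ) (hdN' : (d : ℤ) ∣ N)
    {j j' : ℤ} (ha : a / e / p ^ j ∈ chartRing ℂ p q h) (hj : 0 ≤ N * (j - 1) + r + d)
    (hb : b / e / p ^ j' ∈ chartRing ℂ p q h) (hj' : 0 ≤ N * j' + r) :
    ∀ v ∈ CK K p q h, D v ∈ CK K p q h := by
  have he' : algebraMap F K e ≠ 0 := by rw [Ne, map_eq_zero]; exact HG.he
  have hN' : (0 : ℤ) < N := by exact_mod_cast hN
  have hgcd : (d : ℤ) ≤ N := by exact_mod_cast hdN
  have key : ∀ a : F, algebraMap F K a * G = algebraMap F K (a / e) * (algebraMap F K e * G) := by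
    intro a
    rw [map_div₀]
    field_simp
  have pw : ∀ (a : F) (j c : ℤ), (a * p ^ c) ^ N = (a / p ^ j) ^ N * p ^ (N * (j + c)) := by
    intro a j c
    have h1 : a * p ^ c = a / p ^ j * p ^ (j + c) := by
      rw [zpow_add₀ hp0]
      have := zpow_ne_zero j hp0
      field_simp
    rw [h1, mul_pow, ← zpow_natCast (p ^ (j + c)), ← zpow_mul, mul_comm (j + c)]
  refine S.der_mem hN hc hh h0 hp0 H hd D ?_ ?_ ?_
  · rw [hDp, key]
    refine HG.mem_of hN ?_
    have h1 := pw (a / e) j 0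
    rw [zpow_zero, mul_one] at h1
    rw [h1, mul_assoc, ← zpow_add₀ hp0]
    refine zpow_nonneg_mem ?_ (Subalgebra.pow_mem _ ha N)
    linarith
  · rw [hDq, key]
    refine HG.mem_of hN ?_
    have h1 := pw (b / e) j' 0
    rw [zpow_zero, mul_one] at h1
    rw [h1, mul_assoc, ← zpow_add₀ hp0]
    refine zpow_nonneg_mem ?_ (Subalgebra.pow_mem _ hb N)
    linarith
  · intro χ hχ
    rw [hDp, key]
    have h1 : Gam p (E χ) (R χ) N (γ χ) * (algebraMap F K (a / e) *
        (algebraMap F K e * G) / algebraMap F K p) =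
        algebraMap F K (a / e * p ^ (-(R χ / N) - 1)) *
          (algebraMap F K (E χ * e) * (γ χ * G)) := by
      rw [Gam, map_mul, zpow_sub_one₀ hp0, map_mul, map_inv₀, map_mul]
      ring
    rw [h1]
    refine ((H χ).mul hp0 HG).mem_of hN ?_
    rw [pw (a / e) j, mul_assoc, ← zpow_add₀ hp0]
    refine zpow_nonneg_mem ?_ (Subalgebra.pow_mem _ ha N)
    have h2 := Int.ediv_mul_add_emod (R χ) N
    have h3 : (d : ℤ) ≤ R χ % N := by
      have h4 : (d : ℤ) ∣ R χ % N := by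
        rw [Int.emod_def]
        exact dvd_sub (hdR χ) (Dvd.dvd.mul_right hdN' _)
      exact Int.le_of_dvd (lt_of_le_of_ne (Int.emod_nonneg _ hN'.ne') (Ne.symm hχ)) h4
    have h5 : (N : ℤ) * (j + (-(R χ / N) - 1)) + (R χ + r) =
        N * (j - 1) + r + (R χ - (R χ / N) * N) := by
      ring
    rw [h5]
    linarith

/-- **Unit minors** on ramified charts. -/
theorem minor_unit (hN : 0 < N)
    (hh : h ∈ polyRing ℂ p q) (h0 : h ≠ 0) (hp0 : p ≠ 0) {Gπ : K} {eπ ωπ : F} {rπ : ℤ}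
    (Hπ : Mono N p q h Gπ eπ ωπ rπ) {d : ℕ} (hd0 : 0 < d) {a : ℤ} (had : N * a + rπ = d)
    {G : K} {e ω : F} {r : ℤ} (HG : Mono N p q h G e ω r)
    (D₁ D₂ : Derivation ℂ K K) {M : F}
    (hM : minor D₁ D₂ (algebraMap F K p) (algebraMap F K q) = algebraMap F K M * G)
    {j : ℤ} (hM0 : M ≠ 0)
    (h1 : M / e / p ^ j ∈ chartRing ℂ p q h) (h2 : (M / e / p ^ j)⁻¹ ∈ chartRing ℂ p q h)
    (hj : N * j + r = N - d) :
    ∃ π ∈ CK K p q h, ∃ c₁ ∈ CK K p q h, ∃ c₂ ∈ CK K p q h,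
      c₁ * minor D₁ D₂ (algebraMap F K p) (algebraMap F K q) +
      c₂ * minor D₁ D₂ π (algebraMap F K q) = 1 := by
  have he' : algebraMap F K e ≠ 0 := by rw [Ne, map_eq_zero]; exact HG.he
  have heπ' : algebraMap F K eπ ≠ 0 := by rw [Ne, map_eq_zero]; exact Hπ.he
  have hp0' : algebraMap F K p ≠ 0 := by rw [Ne, map_eq_zero]; exact hp0
  have hω0' : algebraMap F K ωπ ≠ 0 := by rw [Ne, map_eq_zero]; exact Hπ.hω0
  have hG0 := HG.ne_zero hN hp0
  have hGπ0 := Hπ.ne_zero hN hp0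
  have hchar : CharZero K := charZero_of_injective_algebraMap (algebraMap ℂ K).injective
  have hNK : (N : K) ≠ 0 := by exact_mod_cast hN.ne'
  have hdK : (d : K) ≠ 0 := by exact_mod_cast hd0.ne'
  have hpa : (p ^ a) ^ N * p ^ rπ = p ^ d := by
    rw [← zpow_natCast (p ^ a), ← zpow_mul, ← zpow_add₀ hp0, ← zpow_natCast p d]
    congr 1
    rw [← had]; ring
  set π : K := algebraMap F K (p ^ a) * (algebraMap F K eπ * Gπ) with hπ
  have hπC : π ∈ CK K p q h := by
    refine Hπ.mem_of hN ?_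
    rw [hpa]
    exact Subalgebra.pow_mem _ (Algebra.subset_adjoin (by simp)) _
  have hπN : π ^ N = algebraMap F K (p ^ d * ωπ ^ 1) := by
    rw [hπ, Hπ.pow_eq, hpa, pow_one]
  set μ := minor D₁ D₂ (algebraMap F K p) (algebraMap F K q) with hμ
  have hμ' : μ = algebraMap F K (M / e) * (algebraMap F K e * G) := by
    rw [hM, map_div₀]
    field_simp
  have hM0' : M / e ≠ 0 := div_ne_zero hM0 HG.he
  have hμ0 : μ ≠ 0 := by
    rw [hμ']
    exact mul_ne_zero (by rw [Ne, map_eq_zero]; exact hM0') (mul_ne_zero he' hG0)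
  have hπ0 : π ≠ 0 := mul_ne_zero (by rw [Ne, map_eq_zero]; exact zpow_ne_zero _ hp0)
    (mul_ne_zero heπ' hGπ0)
  set u₁ := π / algebraMap F K p * μ with hu₁
  have hmono := Hπ.mul hp0 HG
  have hu₁' : u₁ = algebraMap F K (p ^ (a - 1) * (M / e)) *
      (algebraMap F K (eπ * e) * (Gπ * G)) := by
    rw [hu₁, hμ', hπ, map_mul (algebraMap F K) (p ^ (a - 1)), zpow_sub_one₀ hp0, map_mul, map_inv₀,
      map_mul]
    ring
  have hu₁N : u₁ ^ N = algebraMap F K ((M / e / p ^ j) ^ N * (ωπ * ω)) := by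
    rw [hu₁', hmono.pow_eq]
    congr 2
    have h3 : p ^ (a - 1) * (M / e) = M / e / p ^ j * p ^ (j + (a - 1)) := by
      rw [zpow_add₀ hp0]
      have := zpow_ne_zero j hp0
      field_simp
    rw [h3, mul_pow, ← zpow_natCast (p ^ (j + (a - 1))), ← zpow_mul, mul_assoc,
      ← zpow_add₀ hp0]
    have h4 : (j + (a - 1)) * (N : ℤ) + (rπ + r) = 0 := by
      linear_combination hj + had
    rw [h4, zpow_zero, mul_one]
  have hu₁C : u₁ ∈ CK K p q h := by
    apply IsIntegral.of_pow hN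
    rw [hu₁N]
    exact alg_mem_intClos (Subalgebra.mul_mem _ (Subalgebra.pow_mem _ h1 _)
      (Subalgebra.mul_mem _ Hπ.hω HG.hω))
  have hu₁C' : u₁⁻¹ ∈ CK K p q h := by
    apply IsIntegral.of_pow hN
    have h5 : (algebraMap F K ((M / e / p ^ j) ^ N * (ωπ * ω)))⁻¹ =
        algebraMap F K ((M / e / p ^ j)⁻¹ ^ N * (ωπ⁻¹ * ω⁻¹)) := by
      rw [← map_inv₀ (algebraMap F K), mul_inv, inv_pow, mul_inv ωπ]
    rw [inv_pow, hu₁N, h5]
    exact alg_mem_intClos (Subalgebra.mul_mem _ (Subalgebra.pow_mem _ h2 _)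
      (Subalgebra.mul_mem _ Hπ.hω' HG.hω'))
  obtain ⟨θ, hθ, θ', hθ', hDω⟩ := exists_partials (K := K) hh h0 Hπ.hω
  have hminω : minor D₁ D₂ (algebraMap F K ωπ) (algebraMap F K q) = algebraMap F K θ * μ := by
    rw [hμ]
    unfold minor
    rw [hDω, hDω]; ring
  have hminπ : minor D₁ D₂ π (algebraMap F K q) = algebraMap ℂ K (N : ℂ)⁻¹ * π *
      ((d : K) * (μ / algebraMap F K p) +
        (algebraMap F K θ * μ / algebraMap F K ωπ)) := by
    rw [← hminω, hμ]
    unfold minor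
    rw [der_root hN hp0 Hπ.hω0 hπN D₁, der_root hN hp0 Hπ.hω0 hπN D₂, Nat.cast_one]
    field_simp
    ring
  refine ⟨π, hπC, -(π * algebraMap F K θ * algebraMap F K ωπ⁻¹ *
    algebraMap ℂ K (d : ℂ)⁻¹ * u₁⁻¹), ?_, (N : K) * algebraMap ℂ K (d : ℂ)⁻¹ * u₁⁻¹, ?_, ?_⟩
  · exact Subalgebra.neg_mem _ (Subalgebra.mul_mem _ (Subalgebra.mul_mem _
      (Subalgebra.mul_mem _ (Subalgebra.mul_mem _ hπC
      (alg_mem_intClos hθ)) (alg_mem_intClos Hπ.hω')) (Subalgebra.algebraMap_mem _ _)) hu₁C')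
  · exact Subalgebra.mul_mem _ (Subalgebra.mul_mem _ (natCast_mem _ _)
      (Subalgebra.algebraMap_mem _ _)) hu₁C'
  · rw [hminπ, hu₁, map_inv₀, map_inv₀, map_inv₀, map_natCast, map_natCast]
    field_simp
    ring

end Der

end Crest.Agent.R278
end

-- ▼ part R278/FinalForm
section

/-!
Row 278 (S0421): the final form of the certificate for radical extensions, all conditions in
`F = ℂ(x,y)`.
-/

set_option autoImplicit false

namespace Crest.Agent.R278

open MvPolynomial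

section Aux

variable {F : Type} [Field F] [Algebra ℂ F]
variable {K : Type} [Field K] [Algebra F K] [Algebra ℂ K] [IsScalarTower ℂ F K]

/-- `K` is algebraic over `ℂ[f_j]` if `F` is generated by the `f_j`. -/
theorem isAlgebraic_adjoin_range [Algebra.IsAlgebraic F K] {J : Type*} (f : J → F)
    (hgen : IntermediateField.adjoin ℂ (Set.range f) = ⊤) :
    Algebra.IsAlgebraic (Algebra.adjoin ℂ (Set.range fun j => algebraMap F K (f j))) K := by
  set A := Algebra.adjoin ℂ (Set.range f) with hA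
  set B := Algebra.adjoin ℂ (Set.range fun j => algebraMap F K (f j)) with hB
  have hAB : ∀ a ∈ A, algebraMap F K a ∈ B := by
    intro a ha
    have h1 : A.map (IsScalarTower.toAlgHom ℂ F K) ≤ B := by
      rw [hA, AlgHom.map_adjoin, Algebra.adjoin_le_iff]
      rintro _ ⟨_, ⟨j, rfl⟩, rfl⟩
      exact Algebra.subset_adjoin ⟨j, rfl⟩
    exact h1 ⟨a, ha, rfl⟩
  have hfr : IsFractionRing A F := by
    refine IsFractionRing.of_field A F ?_
    intro z
    have hz : z ∈ IntermediateField.adjoin ℂ (Set.range f) := by rw [hgen]; trivial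
    rw [IntermediateField.mem_adjoin_iff_div] at hz
    obtain ⟨a, ha, b, hb, rfl⟩ := hz
    exact ⟨⟨a, ha⟩, ⟨b, hb⟩, rfl⟩
  have hAK : Algebra.IsAlgebraic A K :=
    (IsFractionRing.comap_isAlgebraic_iff (A := A) (K := F) (C := K)).2 inferInstance
  let j : A →+* B := ((algebraMap F K).comp (algebraMap A F)).codRestrict B
    (fun a => hAB a a.2)
  have hj : Function.Injective j := by
    intro a b hab
    have h1 : algebraMap F K (a : F) = algebraMap F K (b : F) := congrArg Subtype.val hab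
    exact Subtype.ext ((algebraMap F K).injective h1)
  let _ : Algebra A B := j.toAlgebra
  have : IsScalarTower A B K := IsScalarTower.of_algebraMap_eq fun _ => rfl
  exact Algebra.IsAlgebraic.extendScalars (R := A) hj

variable {N : ℕ} {X : Type} [Fintype X] {γ : X → K} {W : X → F}

/-- finite generation -/
theorem RadSys.adjoin_eq_top (S : RadSys F K N γ W) [Algebra.IsAlgebraic F K] {x y : F}
    (hc : RatCoord ℂ F x y) :
    ∃ T : Set K, T.Finite ∧ IntermediateField.adjoin ℂ T = ⊤ := by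
  refine ⟨Set.range γ ∪ {algebraMap F K x, algebraMap F K y},
    (Set.finite_range γ).union (Set.toFinite _), ?_⟩
  set L := IntermediateField.adjoin ℂ (Set.range γ ∪ {algebraMap F K x, algebraMap F K y})
    with hL
  have hF : ∀ z : F, algebraMap F K z ∈ L := by
    intro z
    have h1 : (IntermediateField.adjoin ℂ ({x, y} : Set F)).map (Algebra.algHom ℂ F K) ≤ L := by
      rw [IntermediateField.adjoin_map, IntermediateField.adjoin_le_iff]
      rintro _ ⟨u, hu | hu, rfl⟩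
      · rw [hu]; exact IntermediateField.subset_adjoin _ _ (Or.inr (Or.inl rfl))
      · rw [Set.mem_singleton_iff] at hu
        rw [hu]; exact IntermediateField.subset_adjoin _ _ (Or.inr (Or.inr rfl))
    apply h1
    rw [hc.top]
    exact ⟨z, trivial, rfl⟩
  rw [eq_top_iff]
  intro v _
  have hv : v ∈ intClos (algebraMap F K '' Set.univ) := by
    rw [mem_intClos]
    have h1 : IsIntegral F v := Algebra.IsIntegral.isIntegral v
    obtain ⟨P, hP, hP0⟩ := h1
    let j : F →+* Algebra.adjoin ℂ (algebraMap F K '' Set.univ) :=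
      (algebraMap F K).codRestrict _ (fun a => Algebra.subset_adjoin ⟨a, trivial, rfl⟩)
    refine ⟨P.map j, hP.map _, ?_⟩
    rw [Polynomial.eval₂_map]
    exact hP0
  obtain ⟨c, rfl, -⟩ := S.decomp _ v hv
  exact L.sum_mem fun χ _ => L.mul_mem (hF _)
    (IntermediateField.subset_adjoin _ _ (Or.inl ⟨χ, rfl⟩))

/-- algebraicity over `ℂ[x,y]` -/
theorem isAlgebraic_adjoin_xy [Algebra.IsAlgebraic F K] {x y : F} (hc : RatCoord ℂ F x y) :
    Algebra.IsAlgebraic (Algebra.adjoin ℂ ({algebraMap F K x, algebraMap F K y} : Set K)) K := by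
  have h1 := isAlgebraic_adjoin_range (K := K) ![x, y] (by
    rw [adjoin_range_pair]; exact hc.top)
  have h2 : (Set.range fun j => algebraMap F K (![x, y] j)) =
      ({algebraMap F K x, algebraMap F K y} : Set K) := by
    rw [← adjoin_range_pair]
    congr 1
    funext i
    fin_cases i <;> rfl
  rw [h2] at h1
  exact h1

/-- **P8 for radical systems.** -/
theorem RadSys.exists_ideal (S : RadSys F K N γ W) (hN : 0 < N) {x y : F}
    (hc : RatCoord ℂ F x y) (G : Set F) {V : ValuationSubring K}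
    (hV : IsVE V (algebraMap F K x) (algebraMap F K y)) (hG : ∀ g ∈ G, algebraMap F K g ∈ V)
    (D : Derivation ℂ K K) (hx : V.valuation (D (algebraMap F K x)) < 1)
    (hy : V.valuation (D (algebraMap F K y)) < V.valuation (algebraMap F K y)) :
    ∃ I : Ideal (intClos (algebraMap F K '' G)), I ≠ ⊤ ∧
      ∀ a, a ∈ intClos (algebraMap F K '' G) →
        ∀ h : D a ∈ intClos (algebraMap F K '' G),
          (⟨D a, h⟩ : intClos (algebraMap F K '' G)) ∈ I := by
  set A := intClos (algebraMap F K '' G) with hA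
  have hVC : ∀ c : ℂ, algebraMap ℂ K c ∈ V := fun c =>
    (V.valuation_le_one_iff _).1 (hV.complex_le c)
  have hAV : ∀ r ∈ A, r ∈ V := by
    intro r hr
    refine intClos_le_valuationSubring V hVC ?_ r hr
    rintro _ ⟨g, hg, rfl⟩
    exact hG g hg
  let I : Ideal A :=
    { carrier := {a | V.valuation (a : K) < 1}
      add_mem' := by
        intro a b ha hb
        exact V.valuation.map_add_lt ha hb
      zero_mem' := by
        change V.valuation ((0 : A) : K) < 1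
        rw [ZeroMemClass.coe_zero, map_zero]; exact zero_lt_one
      smul_mem' := by
        intro r a ha
        change V.valuation ((r * a : A) : K) < 1
        rw [MulMemClass.coe_mul, map_mul]
        have hr : V.valuation (r : K) ≤ 1 := (V.valuation_le_one_iff _).2 (hAV _ r.2)
        calc V.valuation (r : K) * V.valuation (a : K) ≤ 1 * V.valuation (a : K) :=
              mul_le_mul_left hr _
          _ = V.valuation (a : K) := one_mul _
          _ < 1 := ha }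
  refine ⟨I, ?_, ?_⟩
  · intro h1
    have h2 : (1 : A) ∈ I := by rw [h1]; trivial
    have h3 : V.valuation ((1 : A) : K) < 1 := h2
    rw [OneMemClass.coe_one, map_one] at h3
    exact lt_irrefl _ h3
  · intro a ha h
    change V.valuation (D a) < 1
    obtain ⟨c, hac, hcm⟩ := S.decomp _ a ha
    rw [hac, map_sum]
    refine V.valuation.map_sum_lt one_ne_zero fun χ _ => ?_
    by_cases hci : c χ = 0
    · rw [hci, map_zero, zero_mul, map_zero, map_zero]; exact zero_lt_one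
    · have h1 : LD V D (algebraMap F K (c χ) * γ χ) :=
        (hV.LD_algebraMap hc D hx hy hci).mul
          (hV.LD_root hc D hx hy hN (S.W_ne χ) (S.pow χ))
      refine h1.2.trans_le ?_
      exact (V.valuation_le_one_iff _).2 (hAV _ (hcm χ))

theorem RadSys.exists_ideal' (S : RadSys F K N γ W) (hN : 0 < N) {x y : F}
    (hc : RatCoord ℂ F x y) {s t : F} {V : ValuationSubring K}
    (hV : IsVE V (algebraMap F K x) (algebraMap F K y)) (hs : algebraMap F K s ∈ V)
    (ht : algebraMap F K t ∈ V)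
    (D : Derivation ℂ K K) (hx : V.valuation (D (algebraMap F K x)) < 1)
    (hy : V.valuation (D (algebraMap F K y)) < V.valuation (algebraMap F K y)) :
    ∃ I : Ideal (clos (algebraMap F K s) (algebraMap F K t)), I ≠ ⊤ ∧
      ∀ a, a ∈ clos (algebraMap F K s) (algebraMap F K t) →
        ∀ h : D a ∈ clos (algebraMap F K s) (algebraMap F K t),
          (⟨D a, h⟩ : clos (algebraMap F K s) (algebraMap F K t)) ∈ I := by
  have key : ∀ G' : Set K, algebraMap F K '' {s, t} = G' →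
      ∃ I : Ideal (intClos G'), I ≠ ⊤ ∧ ∀ a, a ∈ intClos G' → ∀ h : D a ∈ intClos G',
        (⟨D a, h⟩ : intClos G') ∈ I := by
    rintro G' rfl
    refine S.exists_ideal hN hc {s, t} hV ?_ D hx hy
    rintro z (rfl | hz)
    · exact hs
    · rw [Set.mem_singleton_iff] at hz
      rw [hz]
      exact ht
  exact key {algebraMap F K s, algebraMap F K t} (Set.image_pair _ _ _)

end Aux

section Final

open IntermediateField.algebraAdjoinAdjoin

variable {F : Type} [Field F] [Algebra ℂ F] [Algebra (MvPolynomial (Fin 2) ℂ) F]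
  [IsScalarTower ℂ (MvPolynomial (Fin 2) ℂ) F] [IsFractionRing (MvPolynomial (Fin 2) ℂ) F]
variable {K : Type} [Field K] [Algebra F K] [Algebra ℂ K] [IsScalarTower ℂ F K]

/-- **Final form of the certificate for S0421** (radical extensions). -/
theorem concl_of_radSys [Algebra.IsAlgebraic F K] {N : ℕ} (hN : 0 < N)
    {X : Type} [Fintype X] {γ : X → K} {W : X → F} (S : RadSys F K N γ W)
    -- the derivations `D_i = r_i G_i V_i`
    (V₁ V₂ : Derivation ℂ F F) (G₁ G₂ : K) (r₁ r₂ : F)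
    -- the charts
    {ι J : Type*} [Finite ι] [Nonempty ι] [Finite J] (p q h : ι → F)
    (hc : ∀ l, RatCoord ℂ F (p l) (q l)) (hh : ∀ l, h l ∈ polyRing ℂ (p l) (q l))
    (h0 : ∀ l, h l ≠ 0)
    -- monomials at the charts
    (E Ω : ι → X → F) (R : ι → X → ℤ)
    (H : ∀ l χ, Mono N (p l) (q l) (h l) (γ χ) (E l χ) (Ω l χ) (R l χ))
    (hd : ∀ l, (∀ χ, R l χ = 0) ∨ h l / p l ∉ polyRing ℂ (p l) (q l))
    (d : ι → ℕ) (hd0 : ∀ l, 0 < d l) (hdN : ∀ l, d l ∣ N) (hdR : ∀ l χ, (d l : ℤ) ∣ R l χ)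
    (hπ : ∀ l, ∃ (a : ℤ) (χ : X), N * a + R l χ = d l)
    (e₁ e₂ ω₁ ω₂ : ι → F) (ρ₁ ρ₂ : ι → ℤ)
    (HG₁ : ∀ l, Mono N (p l) (q l) (h l) G₁ (e₁ l) (ω₁ l) (ρ₁ l))
    (HG₂ : ∀ l, Mono N (p l) (q l) (h l) G₂ (e₂ l) (ω₂ l) (ρ₂ l))
    -- the sections
    (f : J → F) (hf : ∀ j l, f j ∈ chartRing ℂ (p l) (q l) (h l))
    (hgen : IntermediateField.adjoin ℂ (Set.range f) = ⊤)
    (hcov : ∀ V : ValuationSubring F, (∀ c : ℂ, algebraMap ℂ F c ∈ V) → (∀ j, f j ∈ V) →
      (∃ j, f j ≠ 0 ∧ (f j)⁻¹ ∈ V) → ∃ l, p l ∈ V ∧ q l ∈ V ∧ (h l)⁻¹ ∈ V)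
    -- the multipliers
    (b : ι → F) (hb : ∀ l l', b l ∈ chartRing ℂ (p l') (q l') (h l')) (hb0 : ∀ l, b l ≠ 0)
    (hbi : ∀ l, (b l)⁻¹ ∈ chartRing ℂ (p l) (q l) (h l))
    (hbV : ∀ l, ∀ V : ValuationSubring F, (∀ c : ℂ, algebraMap ℂ F c ∈ V) → (∀ j, f j ∈ V) →
      b l ∈ V → (b l)⁻¹ ∈ V → p l ∈ V ∧ q l ∈ V ∧ (h l)⁻¹ ∈ V)
    -- the values of the derivations
    (i₁ j₁ i₂ j₂ k : ι → ℤ)
    (h1p : ∀ l, r₁ * V₁ (p l) / e₁ l / p l ^ i₁ l ∈ chartRing ℂ (p l) (q l) (h l))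
    (h1q : ∀ l, r₁ * V₁ (q l) / e₁ l / p l ^ j₁ l ∈ chartRing ℂ (p l) (q l) (h l))
    (h2p : ∀ l, r₂ * V₂ (p l) / e₂ l / p l ^ i₂ l ∈ chartRing ℂ (p l) (q l) (h l))
    (h2q : ∀ l, r₂ * V₂ (q l) / e₂ l / p l ^ j₂ l ∈ chartRing ℂ (p l) (q l) (h l))
    (hi₁ : ∀ l, 0 ≤ N * (i₁ l - 1) + ρ₁ l + d l) (hj₁ : ∀ l, 0 ≤ N * j₁ l + ρ₁ l)
    (hi₂ : ∀ l, 0 ≤ N * (i₂ l - 1) + ρ₂ l + d l) (hj₂ : ∀ l, 0 ≤ N * j₂ l + ρ₂ l)
    (hM0 : ∀ l, r₁ * r₂ * (V₁ (p l) * V₂ (q l) - V₁ (q l) * V₂ (p l)) ≠ 0)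
    (hM : ∀ l, r₁ * r₂ * (V₁ (p l) * V₂ (q l) - V₁ (q l) * V₂ (p l)) / (e₁ l * e₂ l) /
      p l ^ k l ∈ chartRing ℂ (p l) (q l) (h l))
    (hM' : ∀ l, (r₁ * r₂ * (V₁ (p l) * V₂ (q l) - V₁ (q l) * V₂ (p l)) / (e₁ l * e₂ l) /
      p l ^ k l)⁻¹ ∈ chartRing ℂ (p l) (q l) (h l))
    (hk : ∀ l, N * k l + (ρ₁ l + ρ₂ l) = N - d l)
    -- the valuation at `E`
    (hE : ∀ V : ValuationSubring K, IsVE V (algebraMap F K (xF F)) (algebraMap F K (yF F)) →
      (∀ j, algebraMap F K (f j) ∈ V) ∧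
      V.valuation (algebraMap F K (r₁ * V₁ (xF F)) * G₁) < 1 ∧
      V.valuation (algebraMap F K (r₁ * V₁ (yF F)) * G₁) <
        V.valuation (algebraMap F K (yF F))) : Concl := by
  have hcoord : RatCoord ℂ F (xF F) (yF F) := RatCoord.coord
  have hp0 : ∀ l, p l ≠ 0 := fun l => (hc l).left_ne_zero
  obtain ⟨D₁, hD₁⟩ := exists_der (K := K) V₁ (algebraMap F K r₁ * G₁)
  obtain ⟨D₂, hD₂⟩ := exists_der (K := K) V₂ (algebraMap F K r₂ * G₂)
  have hD₁' : ∀ f : F, D₁ (algebraMap F K f) = algebraMap F K (r₁ * V₁ f) * G₁ := fun f => by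
    rw [hD₁, map_mul]; ring
  have hD₂' : ∀ f : F, D₂ (algebraMap F K f) = algebraMap F K (r₂ * V₂ f) * G₂ := fun f => by
    rw [hD₂, map_mul]; ring
  have hminor : ∀ f f' : F, minor D₁ D₂ (algebraMap F K f) (algebraMap F K f') =
      algebraMap F K (r₁ * r₂ * (V₁ f * V₂ f' - V₁ f' * V₂ f)) * (G₁ * G₂) := fun f f' => by
    unfold minor
    rw [hD₁, hD₂, hD₁, hD₂, map_mul, map_mul, map_sub, map_mul, map_mul]
    ring
  obtain ⟨l₀⟩ := (inferInstance : Nonempty ι)
  have hG₁0 := (HG₁ l₀).ne_zero hN (hp0 l₀)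
  have hG₂0 := (HG₂ l₀).ne_zero hN (hp0 l₀)
  have hminor0 : minor D₁ D₂ (algebraMap F K (p l₀)) (algebraMap F K (q l₀)) ≠ 0 := by
    rw [hminor]
    exact mul_ne_zero (by rw [Ne, map_eq_zero]; exact hM0 l₀) (mul_ne_zero hG₁0 hG₂0)
  -- the ring `A`
  have halg1 := isAlgebraic_adjoin_range (K := K) f hgen
  have halg2 := isAlgebraic_adjoin_xy (K := K) hcoord
  have hset : ∀ l, ({algebraMap F K (p l), algebraMap F K (q l), (algebraMap F K (h l))⁻¹} :
    Set K) = algebraMap F K '' {p l, q l, (h l)⁻¹} := fun l => (image_G _ _ _).symm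
  obtain ⟨s, t, hs, ht, hst, halg3, hle, hinter⟩ := exists_clos_of_sections
    (fun j => algebraMap F K (f j))
    (fun l => ({algebraMap F K (p l), algebraMap F K (q l), (algebraMap F K (h l))⁻¹} : Set K))
    (indep_alg hcoord.ind) (fun j l => alg_mem_intClos (hf j l)) (by
      intro V hV hfV hj
      obtain ⟨j, hj⟩ := hj
      have hj0 : algebraMap F K (f j) ≠ 0 := by
        intro h0
        rw [h0, map_zero] at hj
        exact zero_ne_one hj
      obtain ⟨l, h1, h2, h3⟩ := hcov (V.comap (algebraMap F K))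
        (fun c => by
          rw [ValuationSubring.mem_comap, ← IsScalarTower.algebraMap_apply ℂ F K]; exact hV c)
        (fun j => hfV j) ⟨j, fun h0 => hj0 (by rw [h0, map_zero]), by
          rw [ValuationSubring.mem_comap, map_inv₀, ← V.valuation_le_one_iff, map_inv₀, hj,
            inv_one]⟩
      refine ⟨l, ?_⟩
      rintro z (rfl | rfl | hz)
      · exact h1
      · exact h2
      · rw [Set.mem_singleton_iff] at hz
        rw [hz, ← map_inv₀]
        exact h3)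
  -- `s` and `t` are in `F`
  have hadjF : ∀ z ∈ Algebra.adjoin ℂ (Set.range fun j => algebraMap F K (f j)),
      ∃ z₀ ∈ Algebra.adjoin ℂ (Set.range f), algebraMap F K z₀ = z := by
    intro z hz
    have h1 : Algebra.adjoin ℂ (Set.range fun j => algebraMap F K (f j)) ≤
        (Algebra.adjoin ℂ (Set.range f)).map (IsScalarTower.toAlgHom ℂ F K) := by
      rw [Algebra.adjoin_le_iff]
      rintro _ ⟨j, rfl⟩
      exact ⟨f j, Algebra.subset_adjoin ⟨j, rfl⟩, rfl⟩
    obtain ⟨z₀, h2, h3⟩ := h1 hz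
    exact ⟨z₀, h2, h3⟩
  obtain ⟨s₀, hs₀, rfl⟩ := hadjF s hs
  obtain ⟨t₀, ht₀, rfl⟩ := hadjF t ht
  -- all `f_j` are in `A`
  have hfA : ∀ j, algebraMap F K (f j) ∈ clos (algebraMap F K s₀) (algebraMap F K t₀) :=
    fun j => hinter _ fun l => alg_mem_intClos (hf j l)
  have hbA : ∀ l, algebraMap F K (b l) ∈ clos (algebraMap F K s₀) (algebraMap F K t₀) :=
    fun l => hinter _ fun l' => alg_mem_intClos (hb l l')
  -- the charts in terms of valuations
  have hchart : ∀ l, ∀ V : ValuationSubring K, (∀ c : ℂ, algebraMap ℂ K c ∈ V) →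
      (∀ z ∈ ({algebraMap F K s₀, algebraMap F K t₀} : Set K), z ∈ V) →
      (algebraMap F K (b l))⁻¹ ∈ V → ∀ z ∈ CK K (p l) (q l) (h l), z ∈ V := by
    intro l V hV hst' hbinv z hz
    have hAV : ∀ a ∈ clos (algebraMap F K s₀) (algebraMap F K t₀), a ∈ V := by
      rw [clos_eq_intClos]
      exact intClos_le_valuationSubring V hV hst'
    obtain ⟨h1, h2, h3⟩ := hbV l (V.comap (algebraMap F K))
      (fun c => by
        rw [ValuationSubring.mem_comap, ← IsScalarTower.algebraMap_apply ℂ F K]; exact hV c)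
      (fun j => hAV _ (hfA j)) (hAV _ (hbA l))
      (by rw [ValuationSubring.mem_comap, map_inv₀]; exact hbinv)
    refine intClos_le_valuationSubring V hV ?_ z hz
    rintro z (rfl | rfl | hz)
    · exact h1
    · exact h2
    · rw [Set.mem_singleton_iff] at hz
      rw [hz, ← map_inv₀]
      exact h3
  -- minors
  have hmin : ∀ l, ∃ π ∈ CK K (p l) (q l) (h l), ∃ c₁ ∈ CK K (p l) (q l) (h l),
      ∃ c₂ ∈ CK K (p l) (q l) (h l),
      c₁ * minor D₁ D₂ (algebraMap F K (p l)) (algebraMap F K (q l)) +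
      c₂ * minor D₁ D₂ π (algebraMap F K (q l)) = 1 := by
    intro l
    obtain ⟨a, χ, haχ⟩ := hπ l
    exact minor_unit hN (hh l) (h0 l) (hp0 l) (H l χ) (hd0 l) haχ
      ((HG₁ l).mul (hp0 l) (HG₂ l)) D₁ D₂ (hminor _ _) (hM0 l) (hM l) (hM' l) (hk l)
  choose π hπC c₁ hc₁ c₂ hc₂ hm using hmin
  -- multipliers
  have hmult : ∀ l, ∃ n : ℕ,
      algebraMap F K (b l) ^ n ∈ clos (algebraMap F K s₀) (algebraMap F K t₀) ∧
      algebraMap F K (b l) ^ n * algebraMap F K (p l) ∈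
        clos (algebraMap F K s₀) (algebraMap F K t₀) ∧
      algebraMap F K (b l) ^ n * algebraMap F K (q l) ∈
        clos (algebraMap F K s₀) (algebraMap F K t₀) ∧
      algebraMap F K (b l) ^ n * π l ∈ clos (algebraMap F K s₀) (algebraMap F K t₀) := by
    intro l
    rw [clos_eq_intClos]
    refine exists_pow_mul_mem₃ (hbA l) (by rw [Ne, map_eq_zero]; exact hb0 l) ?_
    intro V hV hstV hbinv
    exact ⟨hchart l V hV hstV hbinv _ (subset_intClos (by simp)),
      hchart l V hV hstV hbinv _ (subset_intClos (by simp)),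
      hchart l V hV hstV hbinv _ (hπC l)⟩
  choose n hn₀ hn₁ hn₂ hn₃ using hmult
  -- the valuation at `E`
  obtain ⟨V, hV⟩ := exists_VE (K := K) (indep_alg hcoord.ind)
  obtain ⟨hfV, hx, hy⟩ := hE V hV
  have hVC : ∀ c : ℂ, algebraMap ℂ K c ∈ V := fun c =>
    (V.valuation_le_one_iff _).1 (hV.complex_le c)
  have hstV : ∀ z ∈ Algebra.adjoin ℂ (Set.range fun j => algebraMap F K (f j)), z ∈ V := by
    refine adjoin_le_valuationSubring V hVC ?_
    rintro _ ⟨j, rfl⟩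
    exact hfV j
  obtain ⟨I, hI, hDI⟩ := S.exists_ideal' hN hcoord hV (hstV _ hs) (hstV _ ht) D₁
    (by rw [hD₁']; exact hx) (by rw [hD₁']; exact hy)
  obtain ⟨T, hTf, hT⟩ := S.adjoin_eq_top hcoord
  have halg4 : Algebra.IsAlgebraic
      (IntermediateField.adjoin ℂ ({algebraMap F K s₀, algebraMap F K t₀} : Set K)) K :=
    Algebra.IsAlgebraic.extendScalars
      (R := Algebra.adjoin ℂ ({algebraMap F K s₀, algebraMap F K t₀} : Set K))
      (FaithfulSMul.algebraMap_injective _ _)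
  exact concl_of_charts2 K D₁ D₂ (algebraMap F K (xF F)) (algebraMap F K (yF F)) T hTf hT
    (algebraMap F K s₀) (algebraMap F K t₀) (minor_ne_zero D₁ D₂ hminor0 _ _)
    (fun l => CK K (p l) (q l) (h l)) hle hinter
    (fun l => S.stable hN (hc l).isChart (hh l) (h0 l) (hp0 l) (H l) (hd l) D₁ (HG₁ l)
      (hD₁' _) (hD₁' _) (Nat.le_of_dvd hN (hdN l)) (hdR l) (by exact_mod_cast hdN l) (h1p l)
      (hi₁ l) (h1q l) (hj₁ l))
    (fun l => S.stable hN (hc l).isChart (hh l) (h0 l) (hp0 l) (H l) (hd l) D₂ (HG₂ l)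
      (hD₂' _) (hD₂' _) (Nat.le_of_dvd hN (hdN l)) (hdR l) (by exact_mod_cast hdN l) (h2p l)
      (hi₂ l) (h2q l) (hj₂ l))
    (fun l => algebraMap F K (b l) ^ n l) (fun l => algebraMap F K (p l))
    (fun l => algebraMap F K (q l)) π c₁ c₂ hn₀ hn₁ hn₂ hn₃
    (fun l => pow_ne_zero _ (by rw [Ne, map_eq_zero]; exact hb0 l))
    (fun l => by
      rw [← inv_pow, ← map_inv₀]
      exact Subalgebra.pow_mem _ (alg_mem_intClos (hbi l)) _) hc₁ hc₂ hm I hI hDI

end Final

end Crest.Agent.R278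
end

-- ▼ part R278/Radical
section

set_option autoImplicit false

/-! Row 278: existence of a field `K = F(g_1, …, g_n)`, `g_i ^ N = w_i`, with the decomposition of
integral elements along the monomials in the `g_i`; no irreducibility needed. -/

namespace Crest.Agent.R278

open Module

section

variable {F : Type} [Field F] [Algebra ℂ F] {n N : ℕ} [NeZero N] (w : Fin n → F)

/-- roots of the `w i` in an algebraic closure -/
noncomputable def radRoot (i : Fin n) : AlgebraicClosure F :=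
  (IsAlgClosed.exists_pow_nat_eq (algebraMap F (AlgebraicClosure F) (w i))
    (Nat.pos_of_ne_zero (NeZero.ne N))).choose

omit [Algebra ℂ F] in
theorem radRoot_pow (i : Fin n) :
    radRoot (N := N) w i ^ N = algebraMap F (AlgebraicClosure F) (w i) :=
  (IsAlgClosed.exists_pow_nat_eq (algebraMap F (AlgebraicClosure F) (w i))
    (Nat.pos_of_ne_zero (NeZero.ne N))).choose_spec

/-- the field `F(g_1, …, g_n)` -/
noncomputable abbrev radField (N : ℕ) [NeZero N] (w : Fin n → F) :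
    IntermediateField F (AlgebraicClosure F) :=
  IntermediateField.adjoin F (Set.range (radRoot (N := N) w))

/-- the generators -/
noncomputable def radGen (i : Fin n) : radField N w :=
  ⟨radRoot (N := N) w i, IntermediateField.subset_adjoin F _ ⟨i, rfl⟩⟩

omit [Algebra ℂ F] in
theorem radGen_pow (i : Fin n) : radGen (N := N) w i ^ N = algebraMap F (radField N w) (w i) := by
  apply Subtype.ext
  exact radRoot_pow w i

/-- `N`-th roots of unity of a field extension of `ℂ` come from `ℂ`. -/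
theorem exists_rootOfUnity {L : Type} [Field L] [Algebra ℂ L] (ξ : L) (hξ : ξ ^ N = 1) :
    ∃ z : ℂ, z ^ N = 1 ∧ algebraMap ℂ L z = ξ := by
  have hprim : IsPrimitiveRoot (Complex.exp (2 * Real.pi * Complex.I / N)) N :=
    Complex.isPrimitiveRoot_exp N (NeZero.ne N)
  have hprim' : IsPrimitiveRoot (algebraMap ℂ L (Complex.exp (2 * Real.pi * Complex.I / N))) N :=
    hprim.map_of_injective (algebraMap ℂ L).injective
  obtain ⟨i, -, hi⟩ := hprim'.eq_pow_of_pow_eq_one hξ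
  refine ⟨Complex.exp (2 * Real.pi * Complex.I / N) ^ i, ?_, by rw [map_pow, hi]⟩
  rw [← pow_mul, mul_comm i N, pow_mul, hprim.pow_eq_one, one_pow]

instance radField_finite : FiniteDimensional F (radField N w) := by
  have : Finite (Set.range (radRoot (N := N) w)) := Set.finite_range _
  exact IntermediateField.finiteDimensional_adjoin fun x _ =>
    (Algebra.IsAlgebraic.isAlgebraic (R := F) x).isIntegral

theorem charZero_of_algebra_complex (F : Type) [Field F] [Algebra ℂ F] : CharZero F :=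
  charZero_of_injective_algebraMap (algebraMap ℂ F).injective

theorem radField_normal (hw : ∀ i, w i ≠ 0) : Normal F (radField N w) := by
  rw [IntermediateField.normal_iff_forall_map_le]
  intro σ
  rw [IntermediateField.map_le_iff_le_comap, IntermediateField.adjoin_le_iff]
  rintro _ ⟨i, rfl⟩
  change σ (radRoot (N := N) w i) ∈ radField N w
  have h0 : radRoot (N := N) w i ≠ 0 := by
    intro h
    have := radRoot_pow (N := N) w i
    rw [h, zero_pow (NeZero.ne N)] at this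
    exact hw i ((map_eq_zero _).mp this.symm)
  have h1 : (σ (radRoot (N := N) w i) / radRoot (N := N) w i) ^ N = 1 := by
    rw [div_pow, ← map_pow, radRoot_pow, AlgHom.commutes, div_self]
    rw [map_ne_zero]
    exact hw i
  obtain ⟨z, -, hz⟩ := exists_rootOfUnity (N := N) _ h1
  have h2 : σ (radRoot (N := N) w i)
      = algebraMap F (AlgebraicClosure F) (algebraMap ℂ F z) * radRoot (N := N) w i := by
    rw [← IsScalarTower.algebraMap_apply ℂ F (AlgebraicClosure F), hz, div_mul_cancel₀ _ h0]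
  rw [h2]
  exact (radField N w).mul_mem ((radField N w).algebraMap_mem _)
    (IntermediateField.subset_adjoin F _ ⟨i, rfl⟩)

theorem radField_isGalois (hw : ∀ i, w i ≠ 0) : IsGalois F (radField N w) := by
  have := charZero_of_algebra_complex F
  have := radField_normal (N := N) w hw
  exact ⟨⟩

/-- monomials in the generators -/
noncomputable def radMon (c : Fin n → Fin N) : radField N w := ∏ i, radGen (N := N) w i ^ (c i : ℕ)

/-- the corresponding element of `F` -/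
def radW (c : Fin n → Fin N) : F := ∏ i, w i ^ (c i : ℕ)

omit [Algebra ℂ F] in
theorem radMon_pow (c : Fin n → Fin N) :
    radMon w c ^ N = algebraMap F (radField N w) (radW w c) := by
  unfold radMon radW
  rw [← Finset.prod_pow, map_prod]
  refine Finset.prod_congr rfl fun i _ => ?_
  rw [← pow_mul, mul_comm, pow_mul, radGen_pow, map_pow]

omit [Algebra ℂ F] [NeZero N] in
theorem radW_ne (hw : ∀ i, w i ≠ 0) (c : Fin n → Fin N) : radW w c ≠ 0 := by
  unfold radW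
  exact Finset.prod_ne_zero_iff.mpr fun i _ => pow_ne_zero _ (hw i)

theorem radMon_ne (hw : ∀ i, w i ≠ 0) (c : Fin n → Fin N) : radMon w c ≠ 0 := by
  intro h
  have := radMon_pow w c
  rw [h, zero_pow (NeZero.ne N)] at this
  exact radW_ne w hw c ((map_eq_zero _).mp this.symm)

omit [Algebra ℂ F] in
theorem radGen_ne (hw : ∀ i, w i ≠ 0) (i : Fin n) : radGen (N := N) w i ≠ 0 := by
  intro h
  have := radGen_pow (N := N) w i
  rw [h, zero_pow (NeZero.ne N)] at this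
  exact hw i ((map_eq_zero _).mp this.symm)

/-- the ratio `σ(g_i)/g_i` is a root of unity -/
theorem exists_ratio (hw : ∀ i, w i ≠ 0) (σ : Gal((radField N w)/F)) (i : Fin n) :
    ∃ z : ℂ, z ^ N = 1 ∧
      σ (radGen (N := N) w i) = algebraMap ℂ (radField N w) z * radGen (N := N) w i := by
  have h0 := radGen_ne (N := N) w hw i
  have h1 : (σ (radGen (N := N) w i) / radGen (N := N) w i) ^ N = 1 := by
    rw [div_pow, ← map_pow, radGen_pow, AlgEquiv.commutes, div_self]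
    rw [map_ne_zero]
    exact hw i
  obtain ⟨z, hz1, hz⟩ := exists_rootOfUnity (N := N) _ h1
  exact ⟨z, hz1, by rw [hz, div_mul_cancel₀ _ h0]⟩

omit [Algebra ℂ F] in
/-- An automorphism fixing all the generators is the identity. -/
theorem eq_one_of_fix (σ : Gal((radField N w)/F))
    (h : ∀ i, σ (radGen (N := N) w i) = radGen (N := N) w i) : σ = 1 := by
  have key : ∀ (x : AlgebraicClosure F) (hx : x ∈ radField N w),
      σ ⟨x, hx⟩ = ⟨x, hx⟩ := by
    intro x hx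
    have hgen : ∀ x (hx : x ∈ IntermediateField.adjoin F (Set.range (radRoot (N := N) w))),
        σ ⟨x, hx⟩ = ⟨x, hx⟩ := by
      intro x hx
      induction hx using IntermediateField.adjoin_induction with
      | mem x hx =>
        obtain ⟨i, rfl⟩ := hx
        exact h i
      | algebraMap c => exact AlgEquiv.commutes σ c
      | add x y hx hy ihx ihy =>
        have : (⟨x + y, (radField N w).add_mem hx hy⟩ : radField N w) = ⟨x, hx⟩ + ⟨y, hy⟩ := rfl
        rw [this, map_add, ihx, ihy]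
      | inv x hx ihx =>
        have : (⟨x⁻¹, (radField N w).inv_mem hx⟩ : radField N w) = (⟨x, hx⟩)⁻¹ := rfl
        rw [this, map_inv₀, ihx]
      | mul x y hx hy ihx ihy =>
        have : (⟨x * y, (radField N w).mul_mem hx hy⟩ : radField N w) = ⟨x, hx⟩ * ⟨y, hy⟩ := rfl
        rw [this, map_mul, ihx, ihy]
    exact hgen x hx
  ext x
  obtain ⟨x, hx⟩ := x
  rw [key x hx]
  rfl

/-- the ratio `gam_c / σ(gam_c)` is (the image of) a complex number -/
theorem exists_monRatio (hw : ∀ i, w i ≠ 0) (σ : Gal((radField N w)/F)) (c : Fin n → Fin N) :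
    ∃ z : ℂ, radMon w c / σ (radMon w c) = algebraMap ℂ (radField N w) z := by
  choose z hz1 hz using exists_ratio (N := N) w hw σ
  refine ⟨∏ i, ((z i)⁻¹) ^ (c i : ℕ), ?_⟩
  have h1 : σ (radMon w c)
      = algebraMap ℂ (radField N w) (∏ i, (z i) ^ (c i : ℕ)) * radMon w c := by
    unfold radMon
    rw [map_prod, map_prod, ← Finset.prod_mul_distrib]
    refine Finset.prod_congr rfl fun i _ => ?_
    rw [map_pow, hz, mul_pow, map_pow]
  have hz0 : ∀ i, z i ≠ 0 := fun i h => by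
    have := hz1 i
    rw [h, zero_pow (NeZero.ne N)] at this
    exact zero_ne_one this
  have h2 : (∏ i, (z i) ^ (c i : ℕ)) ≠ 0 :=
    Finset.prod_ne_zero_iff.mpr fun i _ => pow_ne_zero _ (hz0 i)
  have h3 : algebraMap ℂ (radField N w) (∏ i, (z i) ^ (c i : ℕ)) ≠ 0 := by
    rwa [map_ne_zero]
  rw [h1, div_mul_cancel_right₀ (radMon_ne w hw c), ← map_inv₀]
  congr 1
  rw [← Finset.prod_inv_distrib]
  exact Finset.prod_congr rfl fun i _ => (inv_pow _ _).symm

open scoped Classical in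
theorem sum_monRatio (hw : ∀ i, w i ≠ 0) (σ : Gal((radField N w)/F)) :
    ∑ c : Fin n → Fin N, radMon w c / σ (radMon w c) = if σ = 1 then (N : radField N w) ^ n else 0 := by
  classical
  -- write the ratio as a product
  have hr : ∀ c : Fin n → Fin N, radMon w c / σ (radMon w c)
      = ∏ i, (radGen (N := N) w i / σ (radGen (N := N) w i)) ^ (c i : ℕ) := by
    intro c
    unfold radMon
    rw [map_prod, ← Finset.prod_div_distrib]
    refine Finset.prod_congr rfl fun i _ => ?_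
    rw [map_pow, div_pow]
  simp_rw [hr]
  have hprod := Finset.prod_univ_sum (fun _ : Fin n => (Finset.univ : Finset (Fin N)))
    (fun i (j : Fin N) => (radGen (N := N) w i / σ (radGen (N := N) w i)) ^ (j : ℕ))
  rw [Fintype.piFinset_univ] at hprod
  rw [← hprod]
  split_ifs with h
  · subst h
    have : ∀ i : Fin n, (∑ j : Fin N, (radGen (N := N) w i / (1 : Gal((radField N w)/F))
        (radGen (N := N) w i)) ^ (j : ℕ)) = (N : radField N w) := by
      intro i
      have h1 : radGen (N := N) w i / (1 : Gal((radField N w)/F)) (radGen (N := N) w i) = 1 := by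
        rw [AlgEquiv.one_apply, div_self (radGen_ne w hw i)]
      rw [Finset.sum_congr rfl fun j _ => by rw [h1, one_pow]]
      simp
    rw [Finset.prod_congr rfl fun i _ => this i]
    simp
  · -- some generator is moved
    obtain ⟨i, hi⟩ : ∃ i, σ (radGen (N := N) w i) ≠ radGen (N := N) w i := by
      by_contra hcon
      push Not at hcon
      exact h (eq_one_of_fix w σ hcon)
    refine Finset.prod_eq_zero (Finset.mem_univ i) ?_
    set y := radGen (N := N) w i / σ (radGen (N := N) w i) with hy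
    have h0 := radGen_ne (N := N) w hw i
    have hσ0 : σ (radGen (N := N) w i) ≠ 0 := by
      rwa [map_ne_zero]
    have hy1 : y ≠ 1 := by
      intro h1
      rw [hy, div_eq_one_iff_eq hσ0] at h1
      exact hi h1.symm
    have hyN : y ^ N = 1 := by
      rw [hy, div_pow, ← map_pow, radGen_pow, AlgEquiv.commutes, div_self]
      rw [map_ne_zero]
      exact hw i
    have h2 : ∑ j : Fin N, y ^ (j : ℕ) = ∑ j ∈ Finset.range N, y ^ j :=
      Fin.sum_univ_eq_sum_range (fun j => y ^ j) N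
    rw [h2]
    have h3 := geom_sum_mul y N
    rw [hyN, sub_self] at h3
    exact (mul_eq_zero.mp h3).resolve_right (sub_ne_zero.mpr hy1)

/-- the coefficient -/
noncomputable def radCoeff (v : radField N w) (c : Fin n → Fin N) : F :=
  ((N : F) ^ n)⁻¹ * Algebra.trace F (radField N w) (v / radMon w c)

theorem radCoeff_mul (hw : ∀ i, w i ≠ 0) (v : radField N w) (c : Fin n → Fin N) :
    algebraMap F (radField N w) (radCoeff w v c) * radMon w c
      = ((N : radField N w) ^ n)⁻¹ *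
        ∑ σ : Gal((radField N w)/F), σ v * (radMon w c / σ (radMon w c)) := by
  have := radField_isGalois (N := N) w hw
  unfold radCoeff
  rw [map_mul, trace_eq_sum_automorphisms, map_inv₀, map_pow, map_natCast, mul_assoc,
    Finset.sum_mul]
  congr 1
  refine Finset.sum_congr rfl fun σ _ => ?_
  rw [map_div₀]
  ring

open scoped Classical in
theorem radCoeff_sum (hw : ∀ i, w i ≠ 0) (v : radField N w) :
    v = ∑ c, algebraMap F (radField N w) (radCoeff w v c) * radMon w c := by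
  classical
  have hc0 := charZero_of_algebra_complex (radField N w)
  simp_rw [radCoeff_mul w hw v]
  rw [← Finset.mul_sum, Finset.sum_comm]
  have h1 : ∀ σ : Gal((radField N w)/F),
      ∑ c : Fin n → Fin N, σ v * (radMon w c / σ (radMon w c))
        = if σ = 1 then v * (N : radField N w) ^ n else 0 := by
    intro σ
    rw [← Finset.mul_sum, sum_monRatio w hw σ]
    split_ifs with h
    · rw [h, AlgEquiv.one_apply]
    · rw [mul_zero]
  rw [Finset.sum_congr rfl fun σ _ => h1 σ, Finset.sum_ite_eq' Finset.univ (1 : Gal((radField N w)/F))]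
  simp only [Finset.mem_univ, if_true]
  have hN : (N : radField N w) ^ n ≠ 0 := pow_ne_zero _ (Nat.cast_ne_zero.mpr (NeZero.ne N))
  field_simp

/-- automorphisms over `F` preserve integrality over `ℂ[G]`, `G ⊆ F` -/
theorem aut_mem_intClos {K : Type} [Field K] [Algebra ℂ K] [Algebra F K] [IsScalarTower ℂ F K]
    (G : Set F) (σ : K ≃ₐ[F] K) {v : K} (hv : v ∈ intClos (algebraMap F K '' G)) :
    σ v ∈ intClos (algebraMap F K '' G) := by
  obtain ⟨p, hp, hpv⟩ := hv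
  refine ⟨p, hp, ?_⟩
  have hfix : ∀ r ∈ Algebra.adjoin ℂ (algebraMap F K '' G), σ r = r := by
    intro r hr
    induction hr using Algebra.adjoin_induction with
    | mem x hx =>
      obtain ⟨y, -, rfl⟩ := hx
      exact σ.commutes y
    | algebraMap c =>
      rw [IsScalarTower.algebraMap_apply ℂ F K]
      exact σ.commutes _
    | add x y _ _ ihx ihy => rw [map_add, ihx, ihy]
    | mul x y _ _ ihx ihy => rw [map_mul, ihx, ihy]
  have h1 : σ (Polynomial.eval₂ (algebraMap (Algebra.adjoin ℂ (algebraMap F K '' G)) K) v p) = 0 := by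
    rw [hpv, map_zero]
  have h2 : σ (Polynomial.eval₂ (algebraMap (Algebra.adjoin ℂ (algebraMap F K '' G)) K) v p)
      = Polynomial.eval₂ (algebraMap (Algebra.adjoin ℂ (algebraMap F K '' G)) K) (σ v) p := by
    have h3 := Polynomial.hom_eval₂ p (algebraMap (Algebra.adjoin ℂ (algebraMap F K '' G)) K)
      (σ : K →+* K) v
    have h4 : (σ : K →+* K).comp (algebraMap (Algebra.adjoin ℂ (algebraMap F K '' G)) K)
        = algebraMap (Algebra.adjoin ℂ (algebraMap F K '' G)) K := by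
      ext r
      exact hfix r r.2
    rw [h4] at h3
    exact h3
  rw [← h2, h1]

theorem radSys (hw : ∀ i, w i ≠ 0) :
    RadSys F (radField N w) N (X := Fin n → Fin N) (radMon w) (radW w) where
  pow := radMon_pow w
  W_ne := radW_ne w hw
  decomp := by
    intro G v hv
    refine ⟨radCoeff w v, radCoeff_sum w hw v, fun c => ?_⟩
    rw [radCoeff_mul w hw v c]
    have hinv : ((N : radField N w) ^ n)⁻¹
        = algebraMap ℂ (radField N w) (((N : ℂ) ^ n)⁻¹) := by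
      rw [map_inv₀, map_pow, map_natCast]
    rw [hinv]
    refine Subalgebra.mul_mem _ (Subalgebra.algebraMap_mem _ _) (Subalgebra.sum_mem _ fun σ _ => ?_)
    obtain ⟨z, hz⟩ := exists_monRatio w hw σ c
    rw [hz]
    exact Subalgebra.mul_mem _ (aut_mem_intClos G σ hv) (Subalgebra.algebraMap_mem _ _)

end

end Crest.Agent.R278
end

-- ▼ part R278/TwoRad
section

/-!
Row 278 (S0421): the certificate for `K = F(g₁, g₂)`, `g_i ^ N = w_i`, `F = ℂ(x,y)`; every
condition is stated in `F`.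
-/

set_option autoImplicit false

namespace Crest.Agent.R278

open MvPolynomial

section Comap

variable {F K : Type} [Field F] [Field K] [Algebra F K]

theorem comap_le_iff (V : ValuationSubring K) (a b : F) :
    V.valuation (algebraMap F K a) ≤ V.valuation (algebraMap F K b) ↔
      (V.comap (algebraMap F K)).valuation a ≤ (V.comap (algebraMap F K)).valuation b := by
  rw [ValuationSubring.valuation_le_iff, ValuationSubring.valuation_le_iff]
  by_cases hb : b = 0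
  · subst hb
    constructor
    · rintro ⟨c, hc⟩
      rw [map_zero, mul_zero] at hc
      exact ⟨0, by rw [mul_zero]; exact ((map_eq_zero _).1 hc.symm).symm⟩
    · rintro ⟨c, hc⟩
      rw [mul_zero] at hc
      exact ⟨0, by rw [← hc, map_zero, mul_zero]⟩
  · have hb' : algebraMap F K b ≠ 0 := by rwa [Ne, map_eq_zero]
    constructor
    · rintro ⟨c, hc⟩
      have h1 : algebraMap F K (a / b) = c := by
        rw [map_div₀, ← hc, mul_div_cancel_right₀ _ hb']
      exact ⟨⟨a / b, by rw [ValuationSubring.mem_comap, h1]; exact c.2⟩, div_mul_cancel₀ _ hb⟩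
    · rintro ⟨c, hc⟩
      exact ⟨⟨algebraMap F K c, c.2⟩, by rw [← map_mul, hc]⟩

theorem comap_lt_iff (V : ValuationSubring K) (a b : F) :
    V.valuation (algebraMap F K a) < V.valuation (algebraMap F K b) ↔
      (V.comap (algebraMap F K)).valuation a < (V.comap (algebraMap F K)).valuation b := by
  rw [← not_le, ← not_le, comap_le_iff]

theorem comap_eq_iff (V : ValuationSubring K) (a b : F) :
    V.valuation (algebraMap F K a) = V.valuation (algebraMap F K b) ↔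
      (V.comap (algebraMap F K)).valuation a = (V.comap (algebraMap F K)).valuation b := by
  rw [le_antisymm_iff, le_antisymm_iff, comap_le_iff, comap_le_iff]

theorem IsVE.comap [Algebra ℂ F] [Algebra ℂ K] [IsScalarTower ℂ F K] {V : ValuationSubring K}
    {x y : F} (h : IsVE V (algebraMap F K x) (algebraMap F K y)) :
    IsVE (V.comap (algebraMap F K)) x y := by
  constructor
  · intro p hp
    have h1 := h.const p hp
    rw [Polynomial.aeval_algebraMap_apply, ← map_one V.valuation, ← map_one (algebraMap F K),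
      comap_eq_iff, map_one] at h1
    exact h1
  · have h1 := h.pole
    rw [← map_one V.valuation, ← map_one (algebraMap F K), comap_lt_iff, map_one] at h1
    exact h1

end Comap

section Data

variable {F : Type} [Field F] [Algebra ℂ F]

/-- The data of a chart, for `D_i = r_i g_i V_i`, `g_i ^ N = w_i`. -/
structure ChartData (N : ℕ) (w₁ w₂ : F) (V₁ V₂ : Derivation ℂ F F) (r₁ r₂ : F) where
  p : F
  q : F
  h : F
  hc : RatCoord ℂ F p q
  hh : h ∈ polyRing ℂ p q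
  h0 : h ≠ 0
  e₁ : F
  e₂ : F
  ω₁ : F
  ω₂ : F
  ρ₁ : ℤ
  ρ₂ : ℤ
  he₁ : e₁ ≠ 0
  he₂ : e₂ ≠ 0
  hω₁ : ω₁ ∈ chartRing ℂ p q h
  hω₁' : ω₁⁻¹ ∈ chartRing ℂ p q h
  hω₂ : ω₂ ∈ chartRing ℂ p q h
  hω₂' : ω₂⁻¹ ∈ chartRing ℂ p q h
  hω₁0 : ω₁ ≠ 0
  hω₂0 : ω₂ ≠ 0
  hw₁ : e₁ ^ N * w₁ = p ^ ρ₁ * ω₁
  hw₂ : e₂ ^ N * w₂ = p ^ ρ₂ * ω₂
  hd : (ρ₁ = 0 ∧ ρ₂ = 0) ∨ h / p ∉ polyRing ℂ p q
  d : ℕ
  hd0 : 0 < d
  hdN : d ∣ N
  hd₁ : (d : ℤ) ∣ ρ₁
  hd₂ : (d : ℤ) ∣ ρ₂
  hπ : ∃ (a : ℤ) (c₁ c₂ : Fin N), N * a + (((c₁ : ℕ) : ℤ) * ρ₁ + ((c₂ : ℕ) : ℤ) * ρ₂) = d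
  i₁ : ℤ
  j₁ : ℤ
  i₂ : ℤ
  j₂ : ℤ
  k : ℤ
  h1p : r₁ * V₁ p / e₁ / p ^ i₁ ∈ chartRing ℂ p q h
  h1q : r₁ * V₁ q / e₁ / p ^ j₁ ∈ chartRing ℂ p q h
  h2p : r₂ * V₂ p / e₂ / p ^ i₂ ∈ chartRing ℂ p q h
  h2q : r₂ * V₂ q / e₂ / p ^ j₂ ∈ chartRing ℂ p q h
  hi₁ : 0 ≤ N * (i₁ - 1) + ρ₁ + d
  hj₁ : 0 ≤ N * j₁ + ρ₁
  hi₂ : 0 ≤ N * (i₂ - 1) + ρ₂ + d
  hj₂ : 0 ≤ N * j₂ + ρ₂
  hM0 : r₁ * r₂ * (V₁ p * V₂ q - V₁ q * V₂ p) ≠ 0
  hM : r₁ * r₂ * (V₁ p * V₂ q - V₁ q * V₂ p) / (e₁ * e₂) / p ^ k ∈ chartRing ℂ p q h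
  hM' : (r₁ * r₂ * (V₁ p * V₂ q - V₁ q * V₂ p) / (e₁ * e₂) / p ^ k)⁻¹ ∈ chartRing ℂ p q h
  hk : N * k + (ρ₁ + ρ₂) = N - d

end Data

section Final

variable {F : Type} [Field F] [Algebra ℂ F] [Algebra (MvPolynomial (Fin 2) ℂ) F]
  [IsScalarTower ℂ (MvPolynomial (Fin 2) ℂ) F] [IsFractionRing (MvPolynomial (Fin 2) ℂ) F]

/-- **The certificate for S0421, two radicals, all conditions in `F = ℂ(x,y)`.** -/
theorem concl_of_chartData {N : ℕ} [NeZero N] {w₁ w₂ : F} (hw₁ : w₁ ≠ 0) (hw₂ : w₂ ≠ 0)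
    (V₁ V₂ : Derivation ℂ F F) (r₁ r₂ : F)
    {ι J : Type*} [Finite ι] [Nonempty ι] [Finite J]
    (C : ι → ChartData N w₁ w₂ V₁ V₂ r₁ r₂)
    -- the sections
    (f : J → F) (hf : ∀ j l, f j ∈ chartRing ℂ (C l).p (C l).q (C l).h)
    (hgen : IntermediateField.adjoin ℂ (Set.range f) = ⊤)
    (hcov : ∀ V : ValuationSubring F, (∀ c : ℂ, algebraMap ℂ F c ∈ V) → (∀ j, f j ∈ V) →
      (∃ j, f j ≠ 0 ∧ (f j)⁻¹ ∈ V) → ∃ l, (C l).p ∈ V ∧ (C l).q ∈ V ∧ ((C l).h)⁻¹ ∈ V)
    -- the multipliers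
    (b : ι → F) (hb : ∀ l l', b l ∈ chartRing ℂ (C l').p (C l').q (C l').h)
    (hb0 : ∀ l, b l ≠ 0)
    (hbi : ∀ l, (b l)⁻¹ ∈ chartRing ℂ (C l).p (C l).q (C l).h)
    (hbV : ∀ l, ∀ V : ValuationSubring F, (∀ c : ℂ, algebraMap ℂ F c ∈ V) → (∀ j, f j ∈ V) →
      b l ∈ V → (b l)⁻¹ ∈ V → (C l).p ∈ V ∧ (C l).q ∈ V ∧ ((C l).h)⁻¹ ∈ V)
    -- the valuation at `E`
    (hE : ∀ V : ValuationSubring F, IsVE V (xF F) (yF F) → (∀ j, f j ∈ V) ∧
      V.valuation ((r₁ * V₁ (xF F)) ^ N * w₁) < 1 ∧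
      V.valuation ((r₁ * V₁ (yF F)) ^ N * w₁) < V.valuation (yF F) ^ N) : Concl := by
  have hN : 0 < N := Nat.pos_of_ne_zero (NeZero.ne N)
  have hw : ∀ i, (![w₁, w₂] : Fin 2 → F) i ≠ 0 := by
    intro i; fin_cases i
    · exact hw₁
    · exact hw₂
  have S := radSys (N := N) (![w₁, w₂] : Fin 2 → F) hw
  set G₁ : radField N ![w₁, w₂] := radGen (N := N) ![w₁, w₂] 0 with hG₁
  set G₂ : radField N ![w₁, w₂] := radGen (N := N) ![w₁, w₂] 1 with hG₂
  have hp1 : G₁ ^ N = algebraMap F _ w₁ := radGen_pow (N := N) ![w₁, w₂] 0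
  have hp2 : G₂ ^ N = algebraMap F _ w₂ := radGen_pow (N := N) ![w₁, w₂] 1
  have hm1 : ∀ l, Mono N (C l).p (C l).q (C l).h G₁ (C l).e₁ (C l).ω₁ (C l).ρ₁ := fun l =>
    Mono.of_eq (C l).he₁ (C l).hω₁ (C l).hω₁' (C l).hω₁0 hp1 (C l).hw₁
  have hm2 : ∀ l, Mono N (C l).p (C l).q (C l).h G₂ (C l).e₂ (C l).ω₂ (C l).ρ₂ := fun l =>
    Mono.of_eq (C l).he₂ (C l).hω₂ (C l).hω₂' (C l).hω₂0 hp2 (C l).hw₂
  have hmon : ∀ c : Fin 2 → Fin N, radMon (N := N) ![w₁, w₂] c = G₁ ^ (c 0 : ℕ) * G₂ ^ (c 1 : ℕ) :=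
    fun c => by rw [radMon, Fin.prod_univ_two]
  refine concl_of_radSys (K := radField N ![w₁, w₂]) hN S V₁ V₂ G₁ G₂ r₁ r₂
    (fun l => (C l).p) (fun l => (C l).q) (fun l => (C l).h) (fun l => (C l).hc)
    (fun l => (C l).hh) (fun l => (C l).h0)
    (fun l c => (C l).e₁ ^ (c 0 : ℕ) * (C l).e₂ ^ (c 1 : ℕ))
    (fun l c => (C l).ω₁ ^ (c 0 : ℕ) * (C l).ω₂ ^ (c 1 : ℕ))
    (fun l c => ((c 0 : ℕ) : ℤ) * (C l).ρ₁ + ((c 1 : ℕ) : ℤ) * (C l).ρ₂)
    (fun l c => by
      rw [hmon]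
      exact ((hm1 l).npow (C l).hc.left_ne_zero _).mul (C l).hc.left_ne_zero
        ((hm2 l).npow (C l).hc.left_ne_zero _))
    (fun l => by
      rcases (C l).hd with ⟨h1, h2⟩ | h1
      · left; intro c; rw [h1, h2]; simp
      · exact Or.inr h1)
    (fun l => (C l).d) (fun l => (C l).hd0) (fun l => (C l).hdN)
    (fun l c => dvd_add (Dvd.dvd.mul_left (C l).hd₁ _) (Dvd.dvd.mul_left (C l).hd₂ _))
    (fun l => by
      obtain ⟨a, c₁, c₂, h1⟩ := (C l).hπ
      exact ⟨a, ![c₁, c₂], h1⟩)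
    (fun l => (C l).e₁) (fun l => (C l).e₂) (fun l => (C l).ω₁) (fun l => (C l).ω₂)
    (fun l => (C l).ρ₁) (fun l => (C l).ρ₂) hm1 hm2 f hf hgen hcov b hb hb0 hbi hbV
    (fun l => (C l).i₁) (fun l => (C l).j₁) (fun l => (C l).i₂) (fun l => (C l).j₂)
    (fun l => (C l).k) (fun l => (C l).h1p) (fun l => (C l).h1q) (fun l => (C l).h2p)
    (fun l => (C l).h2q) (fun l => (C l).hi₁) (fun l => (C l).hj₁) (fun l => (C l).hi₂)
    (fun l => (C l).hj₂) (fun l => (C l).hM0) (fun l => (C l).hM) (fun l => (C l).hM')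
    (fun l => (C l).hk) ?_
  intro V hV
  obtain ⟨h1, h2, h3⟩ := hE _ hV.comap
  refine ⟨h1, ?_, ?_⟩
  · rw [← pow_lt_one_iff_of_nonneg zero_le hN.ne', ← map_pow, mul_pow, hp1, ← map_pow, ← map_mul,
      ← map_one V.valuation, ← map_one (algebraMap F (radField N ![w₁, w₂])), comap_lt_iff,
      map_one]
    exact h2
  · rw [← pow_lt_pow_iff_left₀ zero_le zero_le hN.ne', ← map_pow, ← map_pow, mul_pow, hp1,
      ← map_pow, ← map_mul, ← map_pow, comap_lt_iff, map_pow]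
    exact h3

end Final

end Crest.Agent.R278
end

-- ▼ part R278/PointChart

/-!
Row 278 (S0421): the charts at the blown-up points, from polynomial facts.
-/

set_option autoImplicit false

namespace Crest.Agent.R278

open MvPolynomial

section Basic

variable {F : Type} [Field F] [Algebra ℂ F] [Algebra (MvPolynomial (Fin 2) ℂ) F]
  [IsScalarTower ℂ (MvPolynomial (Fin 2) ℂ) F]

/-- `f(x,y)` as an element of `F`. -/
noncomputable abbrev φF (F : Type) [Field F] [Algebra (MvPolynomial (Fin 2) ℂ) F]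
    (f : MvPolynomial (Fin 2) ℂ) : F := algebraMap (MvPolynomial (Fin 2) ℂ) F f

theorem φF_C (c : ℂ) : φF F (C c) = algebraMap ℂ F c := by
  rw [φF, ← algebraMap_eq, ← IsScalarTower.algebraMap_apply]

/-- the substitution `x = a + X`, `y = b + X W` -/
noncomputable def subst (a b : ℂ) : MvPolynomial (Fin 2) ℂ →ₐ[ℂ] MvPolynomial (Fin 2) ℂ :=
  aeval ![C a + X 0, C b + X 0 * X 1]

theorem aeval_subst {a b : ℂ} {p q : F} (hp : xF F = algebraMap ℂ F a + p)
    (hq : yF F = algebraMap ℂ F b + p * q) (f : MvPolynomial (Fin 2) ℂ) :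
    aeval ![p, q] (subst a b f) = φF F f := by
  have h1 : (aeval ![p, q] : MvPolynomial (Fin 2) ℂ →ₐ[ℂ] F).comp (subst a b) =
      IsScalarTower.toAlgHom ℂ (MvPolynomial (Fin 2) ℂ) F := by
    apply MvPolynomial.algHom_ext
    intro i
    fin_cases i
    · simp only [subst, AlgHom.comp_apply, Fin.zero_eta, aeval_X, IsScalarTower.coe_toAlgHom']
      simp [hp]
    · simp only [subst, AlgHom.comp_apply, Fin.mk_one, aeval_X, IsScalarTower.coe_toAlgHom']
      simp [hq]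
  exact DFunLike.congr_fun h1 f

omit [Algebra (MvPolynomial (Fin 2) ℂ) F] [IsScalarTower ℂ (MvPolynomial (Fin 2) ℂ) F] in
theorem aeval_mem_polyRing_pc (p q : F) (f : MvPolynomial (Fin 2) ℂ) :
    aeval ![p, q] f ∈ polyRing ℂ p q := (mem_polyRing_iff p q _).2 ⟨f, rfl⟩

omit [Algebra (MvPolynomial (Fin 2) ℂ) F] [IsScalarTower ℂ (MvPolynomial (Fin 2) ℂ) F] in
/-- factors of `h` are units of the chart ring. -/
theorem inv_mem_of_mul_eq {p q h u v : F} (hv : v ∈ polyRing ℂ p q) (h0 : h ≠ 0)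
    (huv : u * v = h) : u⁻¹ ∈ chartRing ℂ p q h := by
  have hv0 : v ≠ 0 := by rintro rfl; rw [mul_zero] at huv; exact h0 huv.symm
  have hu0 : u ≠ 0 := by rintro rfl; rw [zero_mul] at huv; exact h0 huv.symm
  have : u⁻¹ = v * h⁻¹ := by
    rw [← huv]; field_simp
  rw [this]
  exact Subalgebra.mul_mem _ (polyRing_le_chartRing _ _ _ hv) (inv_mem_chartRing _ _ _)

end Basic

/-- The polynomial data. -/
structure VFData where
  r : ℕ
  a : Fin r → ℂ
  a_inj : Function.Injective a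
  pts : Fin r → Finset ℂ
  c : ℂ
  c_ne : c ≠ 0
  z : MvPolynomial (Fin 2) ℂ
  w₁ : MvPolynomial (Fin 2) ℂ
  w₂ : MvPolynomial (Fin 2) ℂ
  ell : MvPolynomial (Fin 2) ℂ
  α₁ : MvPolynomial (Fin 2) ℂ
  β₁ : MvPolynomial (Fin 2) ℂ
  α₂ : MvPolynomial (Fin 2) ℂ
  β₂ : MvPolynomial (Fin 2) ℂ
  z_ne : z ≠ 0
  w₁_ne : w₁ ≠ 0
  w₂_ne : w₂ ≠ 0
  ell_ne : ell ≠ 0
  wedge : α₁ * β₂ - α₂ * β₁ = C c * (∏ k, (X 0 - C (a k))) * z

/-- Polynomial facts at the point `(a i, b)`. -/
structure PointFacts (N : ℕ) (S : VFData) (i : Fin S.r) (b : ℂ) where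
  mz : ℕ
  m₁ : ℕ
  m₂ : ℕ
  me : ℕ
  l₁ : ℕ
  l₂ : ℕ
  g₁ : ℕ
  g₂ : ℕ
  zt : MvPolynomial (Fin 2) ℂ
  w₁t : MvPolynomial (Fin 2) ℂ
  w₂t : MvPolynomial (Fin 2) ℂ
  et : MvPolynomial (Fin 2) ℂ
  α₁t : MvPolynomial (Fin 2) ℂ
  γ₁t : MvPolynomial (Fin 2) ℂ
  α₂t : MvPolynomial (Fin 2) ℂ
  γ₂t : MvPolynomial (Fin 2) ℂ
  hz : subst (S.a i) b S.z = X 0 ^ mz * zt
  hz' : ¬ X 0 ∣ zt
  hw₁ : subst (S.a i) b S.w₁ = X 0 ^ m₁ * w₁t
  hw₁' : ¬ X 0 ∣ w₁t
  hw₂ : subst (S.a i) b S.w₂ = X 0 ^ m₂ * w₂t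
  hw₂' : ¬ X 0 ∣ w₂t
  he : subst (S.a i) b S.ell = X 0 ^ me * et
  he' : ¬ X 0 ∣ et
  hα₁ : subst (S.a i) b S.α₁ = X 0 ^ (l₁ + g₁) * α₁t
  hγ₁ : subst (S.a i) b S.β₁ - X 1 * subst (S.a i) b S.α₁ = X 0 ^ (l₁ + 1) * γ₁t
  hα₂ : subst (S.a i) b S.α₂ = X 0 ^ (l₂ + g₂) * α₂t
  hγ₂ : subst (S.a i) b S.β₂ - X 1 * subst (S.a i) b S.α₂ = X 0 ^ (l₂ + 1) * γ₂t
  d : ℕ
  hd0 : 0 < d
  hdN : d ∣ N
  hd₁ : (d : ℤ) ∣ 1 - m₁
  hd₂ : (d : ℤ) ∣ 1 - m₂
  hπ : ∃ (e : ℤ) (c₁ c₂ : Fin N), N * e + (((c₁ : ℕ) : ℤ) * (1 - m₁) + ((c₂ : ℕ) : ℤ) * (1 - m₂)) = d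
  hi₁ : (0 : ℤ) ≤ N * (((l₁ + g₁ : ℕ) : ℤ) - me - 1) + (1 - m₁) + d
  hj₁ : (0 : ℤ) ≤ N * ((l₁ : ℤ) - me) + (1 - m₁)
  hi₂ : (0 : ℤ) ≤ N * (((l₂ + g₂ : ℕ) : ℤ) - me - 1) + (1 - m₂) + d
  hj₂ : (0 : ℤ) ≤ N * ((l₂ : ℤ) - me) + (1 - m₂)
  hk : N * ((mz : ℤ) - 2 * me) + ((1 - m₁) + (1 - m₂)) = (N : ℤ) - d

namespace VFData

variable (S : VFData)
variable (F : Type) [Field F] [Algebra ℂ F] [Algebra (MvPolynomial (Fin 2) ℂ) F]
  [IsScalarTower ℂ (MvPolynomial (Fin 2) ℂ) F] [IsFractionRing (MvPolynomial (Fin 2) ℂ) F]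

/-- `x - a_i` -/
noncomputable def Xi (i : Fin S.r) : F := xF F - algebraMap ℂ F (S.a i)

/-- `P = ∏ (x - a_k)` -/
noncomputable def P : F := ∏ k, S.Xi F k

/-- the radicand `P / w₁` -/
noncomputable def W₁ : F := S.P F / φF F S.w₁
noncomputable def W₂ : F := S.P F / φF F S.w₂

/-- `Θ = z w₁ w₂ ell³` -/
noncomputable def Θ : F := φF F S.z * φF F S.w₁ * φF F S.w₂ * φF F S.ell ^ 3

/-- the vector fields on `F` -/
noncomputable def V₁ : Derivation ℂ F F := derivXY F (φF F S.α₁) (φF F S.β₁)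
noncomputable def V₂ : Derivation ℂ F F := derivXY F (φF F S.α₂) (φF F S.β₂)

theorem V₁_x : S.V₁ F (xF F) = φF F S.α₁ := derivXY_X0 F _ _
theorem V₁_y : S.V₁ F (yF F) = φF F S.β₁ := derivXY_X1 F _ _
theorem V₂_x : S.V₂ F (xF F) = φF F S.α₂ := derivXY_X0 F _ _
theorem V₂_y : S.V₂ F (yF F) = φF F S.β₂ := derivXY_X1 F _ _

/-- `r = 1/ell` -/
noncomputable def R : F := (φF F S.ell)⁻¹

omit [IsFractionRing (MvPolynomial (Fin 2) ℂ) F] in
theorem φF_prod : φF F (∏ k, (X 0 - C (S.a k))) = S.P F := by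
  rw [φF, map_prod]
  refine Finset.prod_congr rfl fun k _ => ?_
  rw [map_sub]
  change xF F - φF F (C (S.a k)) = _
  rw [φF_C]
  rfl

omit [IsFractionRing (MvPolynomial (Fin 2) ℂ) F] in
theorem wedgeF : φF F S.α₁ * φF F S.β₂ - φF F S.α₂ * φF F S.β₁ =
    algebraMap ℂ F S.c * S.P F * φF F S.z := by
  have h := congrArg (φF F) S.wedge
  rw [← φF_prod, ← φF_C]
  simpa only [φF, map_sub, map_mul] using h

theorem φF_ne {f : MvPolynomial (Fin 2) ℂ} (hf : f ≠ 0) : φF F f ≠ 0 := by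
  intro h
  exact hf ((injective_iff_map_eq_zero _).1
    (IsFractionRing.injective (MvPolynomial (Fin 2) ℂ) F) f h)

theorem Xi_ne (i : Fin S.r) : S.Xi F i ≠ 0 := by
  have h1 : S.Xi F i = φF F (X 0 - C (S.a i)) := by
    rw [φF, map_sub]
    change _ = xF F - φF F (C (S.a i))
    rw [φF_C]; rfl
  rw [h1]
  refine φF_ne F ?_
  intro h
  have := congrArg (MvPolynomial.eval (fun _ => S.a i + 1)) h
  simp at this

theorem P_ne : S.P F ≠ 0 := Finset.prod_ne_zero_iff.2 fun i _ => S.Xi_ne F i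

/-- first coordinate times second coordinate at a point chart -/
theorem point_y (i : Fin S.r) (b : ℂ) : yF F = algebraMap ℂ F b +
    S.Xi F i * ((yF F - algebraMap ℂ F b) / S.Xi F i) := by
  rw [mul_div_cancel₀ _ (S.Xi_ne F i)]; ring

omit [IsFractionRing (MvPolynomial (Fin 2) ℂ) F] in
theorem point_x (i : Fin S.r) : xF F = algebraMap ℂ F (S.a i) + S.Xi F i := by
  unfold Xi; ring

end VFData

namespace PointFacts

variable {N : ℕ} {S : VFData} {i : Fin S.r} {b : ℂ} (T : PointFacts N S i b)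
variable (F : Type) [Field F] [Algebra ℂ F] [Algebra (MvPolynomial (Fin 2) ℂ) F]
  [IsScalarTower ℂ (MvPolynomial (Fin 2) ℂ) F] [IsFractionRing (MvPolynomial (Fin 2) ℂ) F]

/-- second chart coordinate -/
noncomputable def q (_ : PointFacts N S i b) : F := (yF F - algebraMap ℂ F b) / S.Xi F i

/-- evaluation of polynomials in the chart coordinates -/
noncomputable def ψ (_ : PointFacts N S i b) : MvPolynomial (Fin 2) ℂ →ₐ[ℂ] F :=
  aeval ![S.Xi F i, (yF F - algebraMap ℂ F b) / S.Xi F i]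

theorem ψ_subst (f : MvPolynomial (Fin 2) ℂ) : T.ψ F (subst (S.a i) b f) = φF F f :=
  aeval_subst (S.point_x F i) (S.point_y F i b) f

theorem ψ_X0 : T.ψ F (X 0) = S.Xi F i := by
  unfold ψ; rw [aeval_X]; rfl

theorem ψ_X1 : T.ψ F (X 1) = (yF F - algebraMap ℂ F b) / S.Xi F i := by
  unfold ψ; rw [aeval_X]; rfl

theorem of_subst {f ft : MvPolynomial (Fin 2) ℂ} {m : ℕ}
    (h : subst (S.a i) b f = X 0 ^ m * ft) : φF F f = S.Xi F i ^ m * T.ψ F ft := by
  rw [← T.ψ_subst F, h, map_mul, map_pow, T.ψ_X0]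

theorem ψ_mem (f : MvPolynomial (Fin 2) ℂ) :
    T.ψ F f ∈ polyRing ℂ (S.Xi F i) ((yF F - algebraMap ℂ F b) / S.Xi F i) :=
  aeval_mem_polyRing_pc _ _ f

theorem ratCoord : RatCoord ℂ F (S.Xi F i) ((yF F - algebraMap ℂ F b) / S.Xi F i) :=
  RatCoord.coord.blowup (S.a i) b

theorem ψ_inj : Function.Injective (T.ψ F) := (ratCoord F (S := S) (i := i) (b := b)).injective

theorem ψ_ne {f : MvPolynomial (Fin 2) ℂ} (hf : f ≠ 0) : T.ψ F f ≠ 0 := by
  intro h
  exact hf ((injective_iff_map_eq_zero _).1 (T.ψ_inj F) f h)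

/-- the polynomial `∏_{k ≠ i} (x - a_k)` in the chart -/
noncomputable def Qt (_ : PointFacts N S i b) : MvPolynomial (Fin 2) ℂ :=
  ∏ k ∈ Finset.univ.erase i, (X 0 + C (S.a i - S.a k))

theorem ψ_Qt : T.ψ F T.Qt = ∏ k ∈ Finset.univ.erase i, S.Xi F k := by
  unfold Qt
  rw [map_prod]
  refine Finset.prod_congr rfl fun k _ => ?_
  rw [map_add, T.ψ_X0]
  have h1 : T.ψ F (C (S.a i - S.a k)) = algebraMap ℂ F (S.a i - S.a k) := by
    unfold ψ; rw [aeval_C]
  rw [h1, map_sub]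
  unfold VFData.Xi
  ring

theorem X_not_dvd_Qt : ¬ (X 0 : MvPolynomial (Fin 2) ℂ) ∣ T.Qt := by
  intro h
  have hp : Prime (X 0 : MvPolynomial (Fin 2) ℂ) := MvPolynomial.X_prime
  obtain ⟨k, hk, h1⟩ := hp.exists_mem_finset_dvd h
  have hki := Finset.ne_of_mem_erase hk
  obtain ⟨u, hu⟩ := h1
  have h2 := congrArg (MvPolynomial.eval (fun _ => (0 : ℂ))) hu
  simp only [map_add, map_mul, eval_X, eval_C, zero_add, zero_mul] at h2
  exact hki (S.a_inj (sub_eq_zero.1 h2)).symm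

theorem ne_zero_of_not_dvd {f : MvPolynomial (Fin 2) ℂ} (h : ¬ (X 0) ∣ f) : f ≠ 0 := by
  rintro rfl; exact h (dvd_zero _)

/-- the total multiplicity of `Θ` -/
def M : ℕ := T.mz + T.m₁ + T.m₂ + 3 * T.me

/-- the polynomial `∏_{b' ≠ b} (y - b')` in the chart -/
noncomputable def Yt (_ : PointFacts N S i b) : MvPolynomial (Fin 2) ℂ :=
  ∏ b' ∈ (S.pts i).erase b, (C (b - b') + X 0 * X 1)

theorem ψ_Yt : T.ψ F T.Yt = ∏ b' ∈ (S.pts i).erase b, (yF F - algebraMap ℂ F b') := by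
  unfold Yt
  rw [map_prod]
  refine Finset.prod_congr rfl fun k _ => ?_
  have h1 : T.ψ F (C (b - k)) = algebraMap ℂ F (b - k) := by
    unfold ψ; rw [aeval_C]
  rw [map_add, map_mul, T.ψ_X0, T.ψ_X1, h1, map_sub, mul_div_cancel₀ _ (S.Xi_ne F i)]
  ring

theorem X_not_dvd_Yt : ¬ (X 0 : MvPolynomial (Fin 2) ℂ) ∣ T.Yt := by
  intro h
  have hp : Prime (X 0 : MvPolynomial (Fin 2) ℂ) := MvPolynomial.X_prime
  obtain ⟨k, hk, h1⟩ := hp.exists_mem_finset_dvd h
  have hki := Finset.ne_of_mem_erase hk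
  obtain ⟨u, hu⟩ := h1
  have h2 := congrArg (MvPolynomial.eval (fun _ => (0 : ℂ))) hu
  simp only [map_add, map_mul, eval_X, eval_C, zero_mul, add_zero] at h2
  exact hki (sub_eq_zero.1 h2).symm

/-- the denominator of the chart -/
noncomputable def h : F := S.Θ F / S.Xi F i ^ T.M * (∏ k ∈ Finset.univ.erase i, S.Xi F k) *
  ∏ b' ∈ (S.pts i).erase b, (yF F - algebraMap ℂ F b')

/-- the denominator of the chart as a polynomial -/
noncomputable def ht : MvPolynomial (Fin 2) ℂ := T.zt * T.w₁t * T.w₂t * T.et ^ 3 * T.Qt * T.Yt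

theorem h_eq : T.h F = T.ψ F T.ht := by
  unfold h ht VFData.Θ M
  rw [T.of_subst F T.hz, T.of_subst F T.hw₁, T.of_subst F T.hw₂, T.of_subst F T.he, map_mul,
    map_mul, map_mul, map_mul, map_mul, map_pow, T.ψ_Qt, T.ψ_Yt]
  have h1 := S.Xi_ne F i
  rw [pow_add, pow_add, pow_add, pow_mul' (S.Xi F i) 3]
  field_simp

theorem X_not_dvd_ht : ¬ (X 0 : MvPolynomial (Fin 2) ℂ) ∣ T.ht := by
  intro h
  have hp : Prime (X 0 : MvPolynomial (Fin 2) ℂ) := MvPolynomial.X_prime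
  unfold ht at h
  rcases hp.dvd_or_dvd h with h | h
  · rcases hp.dvd_or_dvd h with h | h
    · rcases hp.dvd_or_dvd h with h | h
      · rcases hp.dvd_or_dvd h with h | h
        · rcases hp.dvd_or_dvd h with h | h
          · exact T.hz' h
          · exact T.hw₁' h
        · exact T.hw₂' h
      · exact T.he' (hp.dvd_of_dvd_pow h)
    · exact T.X_not_dvd_Qt h
  · exact T.X_not_dvd_Yt h

theorem h_ne : T.h F ≠ 0 := by
  rw [T.h_eq]; exact T.ψ_ne F (ne_zero_of_not_dvd T.X_not_dvd_ht)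

theorem h_not_dvd : T.h F / S.Xi F i ∉
    polyRing ℂ (S.Xi F i) ((yF F - algebraMap ℂ F b) / S.Xi F i) := by
  intro h1
  obtain ⟨u, hu⟩ := (mem_polyRing_iff _ _ _).1 h1
  apply T.X_not_dvd_ht
  refine ⟨u, ?_⟩
  apply T.ψ_inj F
  rw [map_mul, T.ψ_X0, ← T.h_eq]
  change _ = S.Xi F i * aeval ![S.Xi F i, (yF F - algebraMap ℂ F b) / S.Xi F i] u
  rw [← hu, mul_div_cancel₀ _ (S.Xi_ne F i)]

theorem h_mem : T.h F ∈ polyRing ℂ (S.Xi F i) ((yF F - algebraMap ℂ F b) / S.Xi F i) := by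
  rw [T.h_eq]; exact T.ψ_mem F _

/-- factors of `ht` are units of the chart ring -/
theorem inv_ψ_mem {f f' : MvPolynomial (Fin 2) ℂ} (hf : f * f' = T.ht) : (T.ψ F f)⁻¹ ∈
    chartRing ℂ (S.Xi F i) ((yF F - algebraMap ℂ F b) / S.Xi F i) (T.h F) := by
  refine inv_mem_of_mul_eq (T.ψ_mem F f') (T.h_ne F) ?_
  rw [← map_mul, hf, T.h_eq]

theorem ψ_mem' (f : MvPolynomial (Fin 2) ℂ) : T.ψ F f ∈
    chartRing ℂ (S.Xi F i) ((yF F - algebraMap ℂ F b) / S.Xi F i) (T.h F) :=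
  polyRing_le_chartRing _ _ _ (T.ψ_mem F f)

theorem inv_zt : (T.ψ F T.zt)⁻¹ ∈
    chartRing ℂ (S.Xi F i) ((yF F - algebraMap ℂ F b) / S.Xi F i) (T.h F) :=
  T.inv_ψ_mem F (f' := T.w₁t * T.w₂t * T.et ^ 3 * T.Qt * T.Yt) (by unfold ht; ring)

theorem inv_w₁t : (T.ψ F T.w₁t)⁻¹ ∈
    chartRing ℂ (S.Xi F i) ((yF F - algebraMap ℂ F b) / S.Xi F i) (T.h F) :=
  T.inv_ψ_mem F (f' := T.zt * T.w₂t * T.et ^ 3 * T.Qt * T.Yt) (by unfold ht; ring)

theorem inv_w₂t : (T.ψ F T.w₂t)⁻¹ ∈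
    chartRing ℂ (S.Xi F i) ((yF F - algebraMap ℂ F b) / S.Xi F i) (T.h F) :=
  T.inv_ψ_mem F (f' := T.zt * T.w₁t * T.et ^ 3 * T.Qt * T.Yt) (by unfold ht; ring)

theorem inv_et : (T.ψ F T.et)⁻¹ ∈
    chartRing ℂ (S.Xi F i) ((yF F - algebraMap ℂ F b) / S.Xi F i) (T.h F) :=
  T.inv_ψ_mem F (f' := T.zt * T.w₁t * T.w₂t * T.et ^ 2 * T.Qt * T.Yt) (by unfold ht; ring)

theorem inv_Qt : (T.ψ F T.Qt)⁻¹ ∈
    chartRing ℂ (S.Xi F i) ((yF F - algebraMap ℂ F b) / S.Xi F i) (T.h F) :=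
  T.inv_ψ_mem F (f' := T.zt * T.w₁t * T.w₂t * T.et ^ 3 * T.Yt) (by unfold ht; ring)

theorem P_eq : S.P F = S.Xi F i * T.ψ F T.Qt := by
  rw [T.ψ_Qt, VFData.P, Finset.mul_prod_erase _ _ (Finset.mem_univ i)]

omit [IsFractionRing (MvPolynomial (Fin 2) ℂ) F] in
theorem der_Xi (V : Derivation ℂ F F) (i : Fin S.r) : V (S.Xi F i) = V (xF F) := by
  rw [VFData.Xi, map_sub, V.map_algebraMap, sub_zero]

theorem der_q (V : Derivation ℂ F F) (i : Fin S.r) (b : ℂ) :
    V ((yF F - algebraMap ℂ F b) / S.Xi F i) =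
      (V (yF F) - (yF F - algebraMap ℂ F b) / S.Xi F i * V (xF F)) / S.Xi F i := by
  have h1 := S.Xi_ne F i
  rw [V.leibniz_div, der_Xi, map_sub, V.map_algebraMap, sub_zero]
  simp only [smul_eq_mul]
  field_simp

theorem V₁_p : S.V₁ F (S.Xi F i) = S.Xi F i ^ (T.l₁ + T.g₁) * T.ψ F T.α₁t := by
  rw [der_Xi, S.V₁_x, T.of_subst F T.hα₁]

theorem V₂_p : S.V₂ F (S.Xi F i) = S.Xi F i ^ (T.l₂ + T.g₂) * T.ψ F T.α₂t := by
  rw [der_Xi, S.V₂_x, T.of_subst F T.hα₂]

theorem V₁_q : S.V₁ F ((yF F - algebraMap ℂ F b) / S.Xi F i) =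
    S.Xi F i ^ T.l₁ * T.ψ F T.γ₁t := by
  have h1 := S.Xi_ne F i
  have h2 := congrArg (T.ψ F) T.hγ₁
  rw [map_sub, map_mul, T.ψ_X1, T.ψ_subst, T.ψ_subst, map_mul, map_pow, T.ψ_X0, pow_succ] at h2
  rw [der_q, S.V₁_x, S.V₁_y, h2]
  field_simp

theorem V₂_q : S.V₂ F ((yF F - algebraMap ℂ F b) / S.Xi F i) =
    S.Xi F i ^ T.l₂ * T.ψ F T.γ₂t := by
  have h1 := S.Xi_ne F i
  have h2 := congrArg (T.ψ F) T.hγ₂
  rw [map_sub, map_mul, T.ψ_X1, T.ψ_subst, T.ψ_subst, map_mul, map_pow, T.ψ_X0, pow_succ] at h2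
  rw [der_q, S.V₂_x, S.V₂_y, h2]
  field_simp

theorem minor_eq : S.V₁ F (S.Xi F i) * S.V₂ F ((yF F - algebraMap ℂ F b) / S.Xi F i) -
    S.V₁ F ((yF F - algebraMap ℂ F b) / S.Xi F i) * S.V₂ F (S.Xi F i) =
    algebraMap ℂ F S.c * T.ψ F T.Qt * (S.Xi F i ^ T.mz * T.ψ F T.zt) := by
  have h1 := S.Xi_ne F i
  have h2 := S.wedgeF F
  rw [T.P_eq, T.of_subst F T.hz] at h2
  rw [der_q, der_q, der_Xi, der_Xi, S.V₁_x, S.V₁_y, S.V₂_x, S.V₂_y]
  have h3 : algebraMap ℂ F S.c * T.ψ F T.Qt * (S.Xi F i ^ T.mz * T.ψ F T.zt) =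
      (φF F S.α₁ * φF F S.β₂ - φF F S.α₂ * φF F S.β₁) / S.Xi F i := by
    rw [h2]; field_simp
  rw [h3]
  field_simp
  ring

/-- **The chart at a point.** -/
noncomputable def chart : ChartData N (S.W₁ F) (S.W₂ F) (S.V₁ F) (S.V₂ F) (S.R F) (S.R F) where
  p := S.Xi F i
  q := (yF F - algebraMap ℂ F b) / S.Xi F i
  h := T.h F
  hc := ratCoord F
  hh := T.h_mem F
  h0 := T.h_ne F
  e₁ := 1
  e₂ := 1
  ω₁ := T.ψ F T.Qt * (T.ψ F T.w₁t)⁻¹
  ω₂ := T.ψ F T.Qt * (T.ψ F T.w₂t)⁻¹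
  ρ₁ := 1 - T.m₁
  ρ₂ := 1 - T.m₂
  he₁ := one_ne_zero
  he₂ := one_ne_zero
  hω₁ := Subalgebra.mul_mem _ (T.ψ_mem' F _) (T.inv_w₁t F)
  hω₁' := by
    rw [mul_inv, inv_inv]
    exact Subalgebra.mul_mem _ (T.inv_Qt F) (T.ψ_mem' F _)
  hω₂ := Subalgebra.mul_mem _ (T.ψ_mem' F _) (T.inv_w₂t F)
  hω₂' := by
    rw [mul_inv, inv_inv]
    exact Subalgebra.mul_mem _ (T.inv_Qt F) (T.ψ_mem' F _)
  hω₁0 := mul_ne_zero (T.ψ_ne F (ne_zero_of_not_dvd T.X_not_dvd_Qt))
    (inv_ne_zero (T.ψ_ne F (ne_zero_of_not_dvd T.hw₁')))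
  hω₂0 := mul_ne_zero (T.ψ_ne F (ne_zero_of_not_dvd T.X_not_dvd_Qt))
    (inv_ne_zero (T.ψ_ne F (ne_zero_of_not_dvd T.hw₂')))
  hw₁ := by
    have h1 := S.Xi_ne F i
    rw [VFData.W₁, T.P_eq, T.of_subst F T.hw₁, one_pow, one_mul, zpow_sub₀ h1, zpow_one,
      zpow_natCast]
    field_simp
  hw₂ := by
    have h1 := S.Xi_ne F i
    rw [VFData.W₂, T.P_eq, T.of_subst F T.hw₂, one_pow, one_mul, zpow_sub₀ h1, zpow_one,
      zpow_natCast]
    field_simp
  hd := Or.inr (T.h_not_dvd F)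
  d := T.d
  hd0 := T.hd0
  hdN := T.hdN
  hd₁ := T.hd₁
  hd₂ := T.hd₂
  hπ := T.hπ
  i₁ := ((T.l₁ + T.g₁ : ℕ) : ℤ) - T.me
  j₁ := (T.l₁ : ℤ) - T.me
  i₂ := ((T.l₂ + T.g₂ : ℕ) : ℤ) - T.me
  j₂ := (T.l₂ : ℤ) - T.me
  k := (T.mz : ℤ) - 2 * T.me
  h1p := by
    have h1 := S.Xi_ne F i
    have : S.R F * S.V₁ F (S.Xi F i) / 1 / S.Xi F i ^ (((T.l₁ + T.g₁ : ℕ) : ℤ) - T.me) =
        T.ψ F T.α₁t * (T.ψ F T.et)⁻¹ := by
      rw [VFData.R, T.V₁_p, T.of_subst F T.he, zpow_sub₀ h1, zpow_natCast, zpow_natCast]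
      field_simp
    rw [this]
    exact Subalgebra.mul_mem _ (T.ψ_mem' F _) (T.inv_et F)
  h1q := by
    have h1 := S.Xi_ne F i
    have : S.R F * S.V₁ F ((yF F - algebraMap ℂ F b) / S.Xi F i) / 1 /
        S.Xi F i ^ ((T.l₁ : ℤ) - T.me) = T.ψ F T.γ₁t * (T.ψ F T.et)⁻¹ := by
      rw [VFData.R, T.V₁_q, T.of_subst F T.he, zpow_sub₀ h1, zpow_natCast, zpow_natCast]
      field_simp
    rw [this]
    exact Subalgebra.mul_mem _ (T.ψ_mem' F _) (T.inv_et F)
  h2p := by
    have h1 := S.Xi_ne F i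
    have : S.R F * S.V₂ F (S.Xi F i) / 1 / S.Xi F i ^ (((T.l₂ + T.g₂ : ℕ) : ℤ) - T.me) =
        T.ψ F T.α₂t * (T.ψ F T.et)⁻¹ := by
      rw [VFData.R, T.V₂_p, T.of_subst F T.he, zpow_sub₀ h1, zpow_natCast, zpow_natCast]
      field_simp
    rw [this]
    exact Subalgebra.mul_mem _ (T.ψ_mem' F _) (T.inv_et F)
  h2q := by
    have h1 := S.Xi_ne F i
    have : S.R F * S.V₂ F ((yF F - algebraMap ℂ F b) / S.Xi F i) / 1 /
        S.Xi F i ^ ((T.l₂ : ℤ) - T.me) = T.ψ F T.γ₂t * (T.ψ F T.et)⁻¹ := by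
      rw [VFData.R, T.V₂_q, T.of_subst F T.he, zpow_sub₀ h1, zpow_natCast, zpow_natCast]
      field_simp
    rw [this]
    exact Subalgebra.mul_mem _ (T.ψ_mem' F _) (T.inv_et F)
  hi₁ := T.hi₁
  hj₁ := T.hj₁
  hi₂ := T.hi₂
  hj₂ := T.hj₂
  hM0 := by
    rw [T.minor_eq]
    have hc : algebraMap ℂ F S.c ≠ 0 := by rw [Ne, map_eq_zero]; exact S.c_ne
    have hR : S.R F ≠ 0 := inv_ne_zero (VFData.φF_ne F S.ell_ne)
    exact mul_ne_zero (mul_ne_zero hR hR) (mul_ne_zero (mul_ne_zero hc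
      (T.ψ_ne F (ne_zero_of_not_dvd T.X_not_dvd_Qt))) (mul_ne_zero (pow_ne_zero _ (S.Xi_ne F i))
      (T.ψ_ne F (ne_zero_of_not_dvd T.hz'))))
  hM := by
    have h1 := S.Xi_ne F i
    have : S.R F * S.R F * (S.V₁ F (S.Xi F i) * S.V₂ F ((yF F - algebraMap ℂ F b) / S.Xi F i) -
        S.V₁ F ((yF F - algebraMap ℂ F b) / S.Xi F i) * S.V₂ F (S.Xi F i)) / (1 * 1) /
        S.Xi F i ^ ((T.mz : ℤ) - 2 * T.me) =
        algebraMap ℂ F S.c * T.ψ F T.Qt * T.ψ F T.zt * ((T.ψ F T.et)⁻¹ * (T.ψ F T.et)⁻¹) := by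
      rw [T.minor_eq, VFData.R, T.of_subst F T.he, zpow_sub₀ h1, zpow_natCast, two_mul,
        zpow_add₀ h1, zpow_natCast]
      field_simp
    rw [this]
    exact Subalgebra.mul_mem _ (Subalgebra.mul_mem _ (Subalgebra.mul_mem _
      (Subalgebra.algebraMap_mem _ _) (T.ψ_mem' F _)) (T.ψ_mem' F _))
      (Subalgebra.mul_mem _ (T.inv_et F) (T.inv_et F))
  hM' := by
    have h1 := S.Xi_ne F i
    have : (S.R F * S.R F * (S.V₁ F (S.Xi F i) * S.V₂ F ((yF F - algebraMap ℂ F b) / S.Xi F i) -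
        S.V₁ F ((yF F - algebraMap ℂ F b) / S.Xi F i) * S.V₂ F (S.Xi F i)) / (1 * 1) /
        S.Xi F i ^ ((T.mz : ℤ) - 2 * T.me))⁻¹ =
        algebraMap ℂ F S.c⁻¹ * (T.ψ F T.Qt)⁻¹ * (T.ψ F T.zt)⁻¹ * (T.ψ F T.et * T.ψ F T.et) := by
      rw [T.minor_eq, VFData.R, T.of_subst F T.he, zpow_sub₀ h1, zpow_natCast, two_mul,
        zpow_add₀ h1, zpow_natCast, map_inv₀]
      field_simp
    rw [this]
    exact Subalgebra.mul_mem _ (Subalgebra.mul_mem _ (Subalgebra.mul_mem _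
      (Subalgebra.algebraMap_mem _ _) (T.inv_Qt F)) (T.inv_zt F))
      (Subalgebra.mul_mem _ (T.ψ_mem' F _) (T.ψ_mem' F _))
  hk := T.hk

end PointFacts

end Crest.Agent.R278
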